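import Claimed.Agent.R296.Rep.GammaA

/-!
# BB_Rep L3-C: asymptotics of the marked ratio `ρ(k,l) = Γ(c+t(k-1))/Γ(c+tk) · Γ(1+tl)/Γ(1+t(l-1))`

With `x = 1 + t(l-1) ≥ 1`, `y = c + t(k-1)`, Wendel gives
 `(x/y)^t (x/(x+t))^{1-t} ≤ ρ ≤ (x/y)^t ((y+t)/y)^{1-t}`.
The range of the parameters is `1 ≤ l ≤ k + d`, `k ≥ 1`.  The Jucys-Murphy eigenvalue on the branch
is `(l - d)/k` (content `λ_i - 1 - i = l_i - d`).
* `rhoMB_unif`: split at `l/k = η`: for `l ≥ η k` uniform convergence of `x/y → l/k` and of the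
  correction factors to `1`, and `|(l/k)^t - ((l-d)/k)_+^t| ≤ (d/k)^t`; for `l < η k` both terms are
  `≤ C η^t`.
* `rhoMB_clip`: for `(l-d)/k ≥ δ` use `rhoMB_unif` and the Lipschitz bound of `u ↦ u^{-1}` away from
  `0`; for `(l-d)/k < δ`: `(l/k) ρ^{-2} ≤ C (l/k)^{1-2t} ≤ C (δ + d/k)^{1-2t}` and
  `(l/k) δ^{-2t} ≤ (δ + d/k) δ^{-2t}`.

Proofs as written here: the weaker sandwich `(x/y)^t · x/(x+t) ≤ ρ ≤ (x/y)^t · (y+t)/y` (`gc_rho_sandwich`) suffices, and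
no splitting is needed in `rhoMB_unif`: `|ρ - (x/y)^t| ≤ (tk)^{-t} + ((1+d)/t)^t / k`.
-/

set_option autoImplicit false

namespace Claimed.Agent.R296.Rep

open Real

/-! ### Auxiliary scalar lemmas (prefix `gc_`) -/

theorem gc_cMB_ge_one (d : ℕ) (hd : 1 ≤ d) (t : ℝ) (ht0 : 0 < t) : 1 ≤ cMB d t := by
  unfold cMB
  have h1 : (1 : ℝ) ≤ d := by exact_mod_cast hd
  have h2 : (0 : ℝ) ≤ ((d * (d - 1) / 2 : ℕ) : ℝ) := Nat.cast_nonneg _
  have h3 : 0 ≤ (1 + t) * ((d * (d - 1) / 2 : ℕ) : ℝ) := mul_nonneg (by linarith) h2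
  linarith

/-- Wendel's inequalities in the weak form that is used below. -/
theorem gc_gamma_ratio (x t : ℝ) (hx : 0 < x) (ht0 : 0 ≤ t) (ht1 : t ≤ 1) :
    x ^ t * (x / (x + t)) ≤ Gamma (x + t) / Gamma x ∧ Gamma (x + t) / Gamma x ≤ x ^ t := by
  have hG : 0 < Gamma x := Gamma_pos_of_pos hx
  have hxt : 0 < x + t := by linarith
  constructor
  · rw [le_div_iff₀ hG]
    refine le_trans ?_ (wendel_lower x t hx ht0 ht1)
    have h0 : 0 < x / (x + t) := div_pos hx hxt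
    have h01 : x / (x + t) ≤ 1 := (div_le_one hxt).mpr (by linarith)
    have h1 : x / (x + t) ≤ (x / (x + t)) ^ (1 - t) := by
      calc x / (x + t) = (x / (x + t)) ^ (1 : ℝ) := (rpow_one _).symm
        _ ≤ (x / (x + t)) ^ (1 - t) := rpow_le_rpow_of_exponent_ge h0 h01 (by linarith)
    gcongr
  · rw [div_le_iff₀ hG]
    exact wendel_upper x t hx ht0 ht1

/-- `x = 1 + t (l - 1)` -/
noncomputable def gcX (t : ℝ) (l : ℕ) : ℝ := 1 + t * ((l : ℝ) - 1)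

/-- `y = c + t (k - 1)` -/
noncomputable def gcY (d : ℕ) (t : ℝ) (k : ℕ) : ℝ := cMB d t + t * ((k : ℝ) - 1)

theorem gc_rho_eq (d : ℕ) (t : ℝ) (k l : ℕ) :
    rhoMB d t k l = (Gamma (gcX t l + t) / Gamma (gcX t l)) /
      (Gamma (gcY d t k + t) / Gamma (gcY d t k)) := by
  have h1 : gcX t l + t = 1 + t * (l : ℝ) := by unfold gcX; ring
  have h2 : gcY d t k + t = cMB d t + t * (k : ℝ) := by unfold gcY; ring
  rw [h1, h2]
  unfold rhoMB gcX gcY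
  rw [div_div_eq_mul_div, mul_comm, mul_div_assoc]

theorem gcX_bounds (t : ℝ) (ht0 : 0 < t) (ht1 : t < 1) (l : ℕ) (hl : 1 ≤ l) :
    1 ≤ gcX t l ∧ t * l ≤ gcX t l ∧ gcX t l ≤ l := by
  have hlR : (1 : ℝ) ≤ l := by exact_mod_cast hl
  unfold gcX
  refine ⟨?_, ?_, ?_⟩ <;> nlinarith

theorem gcY_bounds (d : ℕ) (hd : 1 ≤ d) (t : ℝ) (ht0 : 0 < t) (ht1 : t < 1) (k : ℕ) (hk : 1 ≤ k) :
    1 ≤ gcY d t k ∧ t * k ≤ gcY d t k ∧ gcY d t k ≤ cMB d t * k := by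
  have hkR : (1 : ℝ) ≤ k := by exact_mod_cast hk
  have hc := gc_cMB_ge_one d hd t ht0
  unfold gcY
  refine ⟨?_, ?_, ?_⟩ <;> nlinarith

theorem gc_rho_sandwich (d : ℕ) (hd : 1 ≤ d) (t : ℝ) (ht0 : 0 < t) (ht1 : t < 1) (k l : ℕ)
    (hk : 1 ≤ k) (hl : 1 ≤ l) :
    (gcX t l / gcY d t k) ^ t * (gcX t l / (gcX t l + t)) ≤ rhoMB d t k l ∧
      rhoMB d t k l ≤ (gcX t l / gcY d t k) ^ t * ((gcY d t k + t) / gcY d t k) := by
  obtain ⟨hx1, -, -⟩ := gcX_bounds t ht0 ht1 l hl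
  obtain ⟨hy1, -, -⟩ := gcY_bounds d hd t ht0 ht1 k hk
  set x := gcX t l with hx
  set y := gcY d t k with hy
  have hx0 : 0 < x := by linarith
  have hy0 : 0 < y := by linarith
  obtain ⟨ax, bx⟩ := gc_gamma_ratio x t hx0 ht0.le ht1.le
  obtain ⟨ay, by'⟩ := gc_gamma_ratio y t hy0 ht0.le ht1.le
  have hxt : 0 < x ^ t := rpow_pos_of_pos hx0 t
  have hyt : 0 < y ^ t := rpow_pos_of_pos hy0 t
  have hb0 : 0 < y ^ t * (y / (y + t)) := by positivity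
  have hb : 0 < Gamma (y + t) / Gamma y := lt_of_lt_of_le hb0 ay
  rw [gc_rho_eq, div_rpow hx0.le hy0.le]
  constructor
  · rw [le_div_iff₀ hb]
    calc x ^ t / y ^ t * (x / (x + t)) * (Gamma (y + t) / Gamma y)
        ≤ x ^ t / y ^ t * (x / (x + t)) * y ^ t := by gcongr
      _ = x ^ t * (x / (x + t)) := by field_simp
      _ ≤ _ := ax
  · rw [div_le_iff₀ hb]
    calc Gamma (x + t) / Gamma x ≤ x ^ t := bx
      _ = x ^ t / y ^ t * ((y + t) / y) * (y ^ t * (y / (y + t))) := by field_simp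
      _ ≤ _ := by gcongr

/-- `|a^t - b^t| ≤ |a - b|^t` -/
theorem gc_abs_rpow_sub_le (a b t : ℝ) (ha : 0 ≤ a) (hb : 0 ≤ b) (ht0 : 0 ≤ t) (ht1 : t ≤ 1) :
    |a ^ t - b ^ t| ≤ |a - b| ^ t := by
  have key : ∀ a b : ℝ, 0 ≤ b → b ≤ a → |a ^ t - b ^ t| ≤ |a - b| ^ t := by
    intro a b hb hab
    have h1 : b ^ t ≤ a ^ t := rpow_le_rpow hb hab ht0
    rw [abs_of_nonneg (by linarith), abs_of_nonneg (by linarith)]
    have h2 := rpow_add_le_add_rpow hb (sub_nonneg.mpr hab) ht0 ht1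
    rw [add_sub_cancel] at h2
    linarith
  rcases le_total b a with h | h
  · exact key a b hb h
  · rw [abs_sub_comm, abs_sub_comm a b]
    exact key b a ha h

/-- `(a/k)^s → 0` -/
theorem gc_small (a s ε : ℝ) (ha : 0 ≤ a) (hs : 0 < s) (hε : 0 < ε) :
    ∃ k₀ : ℕ, 1 ≤ k₀ ∧ ∀ k : ℕ, k₀ ≤ k → (a / k) ^ s ≤ ε := by
  obtain ⟨n, hn⟩ := exists_nat_ge (a / ε ^ (1 / s))
  refine ⟨n + 1, by omega, ?_⟩
  intro k hk
  have hkR : (n : ℝ) + 1 ≤ k := by exact_mod_cast hk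
  have hk0 : (0 : ℝ) < k := by
    have : (0 : ℝ) ≤ n := Nat.cast_nonneg n
    linarith
  have he : 0 < ε ^ (1 / s) := rpow_pos_of_pos hε _
  have h1 : a / k ≤ ε ^ (1 / s) := by
    rw [div_le_iff₀ hk0]
    rw [div_le_iff₀ he] at hn
    nlinarith
  calc (a / k) ^ s ≤ (ε ^ (1 / s)) ^ s := rpow_le_rpow (by positivity) h1 hs.le
    _ = ε := by rw [← rpow_mul hε.le, one_div, inv_mul_cancel₀ hs.ne', rpow_one]

/-! ### The statements -/

theorem rhoMB_pos (d : ℕ) (hd : 1 ≤ d) (t : ℝ) (ht0 : 0 < t) (ht1 : t < 1) (k l : ℕ)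
    (hk : 1 ≤ k) (hl : 1 ≤ l) : 0 < rhoMB d t k l := by
  obtain ⟨hx1, -, -⟩ := gcX_bounds t ht0 ht1 l hl
  obtain ⟨hy1, -, -⟩ := gcY_bounds d hd t ht0 ht1 k hk
  refine lt_of_lt_of_le ?_ (gc_rho_sandwich d hd t ht0 ht1 k l hk hl).1
  have hx0 : 0 < gcX t l := by linarith
  have hy0 : 0 < gcY d t k := by linarith
  positivity

/-- `ρ ≍ (l/k)^t` -/
theorem rhoMB_bounds (d : ℕ) (hd : 1 ≤ d) (t : ℝ) (ht0 : 0 < t) (ht1 : t < 1) :
    ∃ C : ℝ, 0 < C ∧ ∀ k l : ℕ, 1 ≤ k → 1 ≤ l → l ≤ k + d →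
      C⁻¹ * ((l : ℝ) / k) ^ t ≤ rhoMB d t k l ∧ rhoMB d t k l ≤ C * ((l : ℝ) / k) ^ t := by
  have hc1 : 1 ≤ cMB d t := gc_cMB_ge_one d hd t ht0
  have hc0 : 0 < cMB d t := by linarith
  refine ⟨2 * (cMB d t / t) ^ t, by positivity, ?_⟩
  intro k l hk hl _
  obtain ⟨hlo, hup⟩ := gc_rho_sandwich d hd t ht0 ht1 k l hk hl
  obtain ⟨hx1, hx2, hx3⟩ := gcX_bounds t ht0 ht1 l hl
  obtain ⟨hy1, hy2, hy3⟩ := gcY_bounds d hd t ht0 ht1 k hk
  have hkR : (1 : ℝ) ≤ k := by exact_mod_cast hk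
  have hlR : (1 : ℝ) ≤ l := by exact_mod_cast hl
  have hk0 : (0 : ℝ) < k := by linarith
  have hl0 : (0 : ℝ) < l := by linarith
  set x := gcX t l with hx
  set y := gcY d t k with hy
  set c := cMB d t with hc
  have hx0 : 0 < x := by linarith
  have hy0 : 0 < y := by linarith
  constructor
  · refine le_trans ?_ hlo
    have h1 : (t / c) * ((l : ℝ) / k) ≤ x / y := by
      rw [div_mul_div_comm, div_le_div_iff₀ (by positivity) hy0]
      calc t * l * y ≤ x * y := by gcongr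
        _ ≤ x * (c * k) := by gcongr
    have h2 : (t / c) ^ t * ((l : ℝ) / k) ^ t ≤ (x / y) ^ t := by
      rw [← mul_rpow (by positivity) (by positivity)]
      exact rpow_le_rpow (by positivity) h1 ht0.le
    have h3 : (1 : ℝ) / 2 ≤ x / (x + t) := by
      rw [div_le_div_iff₀ (by norm_num) (by linarith)]
      linarith
    have h4 : (2 * (c / t) ^ t)⁻¹ = (t / c) ^ t * (1 / 2) := by
      rw [mul_inv, ← inv_rpow (by positivity), inv_div]
      ring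
    rw [h4]
    calc (t / c) ^ t * (1 / 2) * ((l : ℝ) / k) ^ t = (t / c) ^ t * ((l : ℝ) / k) ^ t * (1 / 2) := by
          ring
      _ ≤ (x / y) ^ t * (x / (x + t)) := by gcongr
  · refine le_trans hup ?_
    have h1 : x / y ≤ (c / t) * ((l : ℝ) / k) := by
      rw [div_mul_div_comm, div_le_div_iff₀ hy0 (by positivity)]
      calc x * (t * k) ≤ l * y := by gcongr
        _ ≤ c * l * y := by nlinarith [mul_pos hl0 hy0]
    have h2 : (x / y) ^ t ≤ (c / t) ^ t * ((l : ℝ) / k) ^ t := by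
      rw [← mul_rpow (by positivity) (by positivity)]
      exact rpow_le_rpow (by positivity) h1 ht0.le
    have h3 : (y + t) / y ≤ 2 := by
      rw [div_le_iff₀ hy0]
      linarith
    calc (x / y) ^ t * ((y + t) / y) ≤ ((c / t) ^ t * ((l : ℝ) / k) ^ t) * 2 := by gcongr
      _ = 2 * (c / t) ^ t * ((l : ℝ) / k) ^ t := by ring

/-- quantitative form of `rhoMB_unif` -/
theorem gc_rho_sub_le (d : ℕ) (hd : 1 ≤ d) (t : ℝ) (ht0 : 0 < t) (ht1 : t < 1) (k l : ℕ)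
    (hk : 1 ≤ k) (hl : 1 ≤ l) (hlk : l ≤ k + d) :
    |rhoMB d t k l - (max (((l : ℝ) - d) / k) 0) ^ t| ≤
      ((1 / t) / k) ^ t + (((1 + (d : ℝ)) / t) ^ t / k) ^ (1 : ℝ) +
        (((1 + (1 + (d : ℝ)) * cMB d t) / t + d) / k) ^ t := by
  have hc1 : 1 ≤ cMB d t := gc_cMB_ge_one d hd t ht0
  obtain ⟨hlo, hup⟩ := gc_rho_sandwich d hd t ht0 ht1 k l hk hl
  obtain ⟨hx1, hx2, hx3⟩ := gcX_bounds t ht0 ht1 l hl
  obtain ⟨hy1, hy2, hy3⟩ := gcY_bounds d hd t ht0 ht1 k hk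
  have hkR : (1 : ℝ) ≤ k := by exact_mod_cast hk
  have hlR : (1 : ℝ) ≤ l := by exact_mod_cast hl
  have hlkR : (l : ℝ) ≤ k + d := by exact_mod_cast hlk
  have hdR : (1 : ℝ) ≤ d := by exact_mod_cast hd
  have hk0 : (0 : ℝ) < k := by linarith
  have hl0 : (0 : ℝ) < l := by linarith
  have hxdef : gcX t l = 1 + t * ((l : ℝ) - 1) := rfl
  have hydef : gcY d t k = cMB d t + t * ((k : ℝ) - 1) := rfl
  set x := gcX t l with hx
  set y := gcY d t k with hy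
  set c := cMB d t with hc
  have hx0 : 0 < x := by linarith
  have hy0 : 0 < y := by linarith
  have hlk' : (l : ℝ) ≤ (1 + d) * k := by nlinarith
  set m : ℝ := max (((l : ℝ) - d) / k) 0 with hm
  have hm0 : 0 ≤ m := le_max_right _ _
  -- (i) lower
  have e1 : (x / y) ^ t * (t / (x + t)) ≤ ((1 / t) / k) ^ t := by
    have h1 : x ^ t ≤ x := by
      calc x ^ t ≤ x ^ (1 : ℝ) := rpow_le_rpow_of_exponent_le hx1 ht1.le
        _ = x := rpow_one x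
    have h2 : x ^ t * (t / (x + t)) ≤ 1 := by
      rw [← mul_div_assoc, div_le_one (by linarith)]
      nlinarith
    have h3 : (1 / y) ^ t ≤ ((1 / t) / k) ^ t := by
      refine rpow_le_rpow (by positivity) ?_ ht0.le
      rw [div_div]
      exact one_div_le_one_div_of_le (by positivity) hy2
    calc (x / y) ^ t * (t / (x + t)) = (x ^ t * (t / (x + t))) * (1 / y) ^ t := by
          rw [div_rpow hx0.le hy0.le, div_rpow zero_le_one hy0.le, one_rpow]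
          ring
      _ ≤ 1 * (1 / y) ^ t := by gcongr
      _ = (1 / y) ^ t := one_mul _
      _ ≤ _ := h3
  -- (i) upper
  have e2 : (x / y) ^ t * (t / y) ≤ (((1 + (d : ℝ)) / t) ^ t / k) ^ (1 : ℝ) := by
    rw [rpow_one]
    have h1 : x / y ≤ (1 + (d : ℝ)) / t := by
      rw [div_le_div_iff₀ hy0 ht0]
      calc x * t ≤ ((1 + d) * k) * t := by gcongr; linarith
        _ = (1 + d) * (t * k) := by ring
        _ ≤ (1 + d) * y := by gcongr
    have h2 : (x / y) ^ t ≤ ((1 + (d : ℝ)) / t) ^ t := rpow_le_rpow (by positivity) h1 ht0.le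
    have h3 : t / y ≤ 1 / k := by
      rw [div_le_div_iff₀ hy0 hk0]
      linarith
    calc (x / y) ^ t * (t / y) ≤ ((1 + (d : ℝ)) / t) ^ t * (1 / k) := by gcongr
      _ = _ := by ring
  have e12 : |rhoMB d t k l - (x / y) ^ t| ≤
      ((1 / t) / k) ^ t + (((1 + (d : ℝ)) / t) ^ t / k) ^ (1 : ℝ) := by
    have p1 : 0 ≤ ((1 / t) / k) ^ t := by positivity
    have p2 : 0 ≤ (((1 + (d : ℝ)) / t) ^ t / k) ^ (1 : ℝ) := by positivity
    have q1 : (x / y) ^ t * (x / (x + t)) = (x / y) ^ t - (x / y) ^ t * (t / (x + t)) := by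
      field_simp
      ring
    have q2 : (x / y) ^ t * ((y + t) / y) = (x / y) ^ t + (x / y) ^ t * (t / y) := by
      field_simp
    rw [abs_le]
    constructor <;> linarith
  -- (ii)
  have e3 : |x / y - m| ≤ ((1 + (1 + (d : ℝ)) * c) / t + d) / k := by
    have h1 : |x / y - l / k| ≤ ((1 + (1 + (d : ℝ)) * c) / t) / k := by
      rw [div_sub_div _ _ hy0.ne' hk0.ne', abs_div, abs_of_pos (mul_pos hy0 hk0),
        div_le_div_iff₀ (mul_pos hy0 hk0) hk0]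
      have g1 : |x * k - y * l| ≤ k * (1 + (1 + (d : ℝ)) * c) := by
        have : x * k - y * l = k * (1 - t) - l * (c - t) := by rw [hxdef, hydef]; ring
        rw [this, abs_le]
        constructor <;> nlinarith
      have g2 : k * (1 + (1 + (d : ℝ)) * c) ≤ (1 + (1 + (d : ℝ)) * c) / t * y := by
        rw [div_mul_eq_mul_div, le_div_iff₀ ht0]
        have : 0 ≤ 1 + (1 + (d : ℝ)) * c := by positivity
        nlinarith
      calc |x * k - y * l| * k ≤ ((1 + (1 + (d : ℝ)) * c) / t * y) * k := by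
            gcongr
            exact g1.trans g2
        _ = _ := by ring
    have h2 : |(l : ℝ) / k - m| ≤ d / k := by
      rw [hm]
      rcases le_total (((l : ℝ) - d) / k) 0 with h | h
      · rw [max_eq_right h, sub_zero, abs_of_nonneg (by positivity)]
        have : (l : ℝ) - d ≤ 0 := by
          by_contra hcon
          exact absurd h (not_le.mpr (div_pos (not_le.mp hcon) hk0))
        exact div_le_div_of_nonneg_right (by linarith) hk0.le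
      · rw [max_eq_left h]
        have : (l : ℝ) / k - (l - d) / k = d / k := by ring
        rw [this, abs_of_nonneg (by positivity)]
    calc |x / y - m| ≤ |x / y - l / k| + |(l : ℝ) / k - m| := abs_sub_le _ _ _
      _ ≤ ((1 + (1 + (d : ℝ)) * c) / t) / k + d / k := add_le_add h1 h2
      _ = _ := by ring
  have e4 : |(x / y) ^ t - m ^ t| ≤ (((1 + (1 + (d : ℝ)) * c) / t + d) / k) ^ t :=
    (gc_abs_rpow_sub_le _ _ t (by positivity) hm0 ht0.le ht1.le).trans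
      (rpow_le_rpow (abs_nonneg _) e3 ht0.le)
  calc |rhoMB d t k l - m ^ t| ≤ |rhoMB d t k l - (x / y) ^ t| + |(x / y) ^ t - m ^ t| :=
        abs_sub_le _ _ _
    _ ≤ _ := add_le_add e12 e4

/-- uniform convergence to the `t`-th power of the positive part of the star eigenvalue -/
theorem rhoMB_unif (d : ℕ) (hd : 1 ≤ d) (t : ℝ) (ht0 : 0 < t) (ht1 : t < 1) (ε : ℝ) (hε : 0 < ε) :
    ∃ k₀ : ℕ, ∀ k l : ℕ, k₀ ≤ k → 1 ≤ l → l ≤ k + d →
      |rhoMB d t k l - (max (((l : ℝ) - d) / k) 0) ^ t| ≤ ε := by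
  have hc1 : 1 ≤ cMB d t := gc_cMB_ge_one d hd t ht0
  have hc0 : 0 < cMB d t := by linarith
  obtain ⟨k1, hk1, H1⟩ := gc_small (1 / t) t (ε / 3) (by positivity) ht0 (by positivity)
  obtain ⟨k2, _, H2⟩ := gc_small (((1 + (d : ℝ)) / t) ^ t) 1 (ε / 3) (by positivity) one_pos
    (by positivity)
  obtain ⟨k3, _, H3⟩ := gc_small ((1 + (1 + (d : ℝ)) * cMB d t) / t + d) t (ε / 3) (by positivity)
    ht0 (by positivity)
  refine ⟨max k1 (max k2 k3), ?_⟩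
  intro k l hk hl hlk
  have a1 : k1 ≤ k := le_trans (le_max_left _ _) hk
  have a2 : k2 ≤ k := le_trans (le_trans (le_max_left _ _) (le_max_right _ _)) hk
  have a3 : k3 ≤ k := le_trans (le_trans (le_max_right _ _) (le_max_right _ _)) hk
  have := gc_rho_sub_le d hd t ht0 ht1 k l (hk1.trans a1) hl hlk
  have b1 := H1 k a1
  have b2 := H2 k a2
  have b3 := H3 k a3
  linarith

/-- `(l/k) ρ^{-2} ≤ C² (l/k)^{1-2t}` -/
theorem gc_inv_sq_le (d : ℕ) (hd : 1 ≤ d) (t : ℝ) (ht0 : 0 < t) (ht1 : t < 1 / 2) :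
    ∃ C : ℝ, 0 < C ∧ ∀ k l : ℕ, 1 ≤ k → 1 ≤ l → l ≤ k + d →
      ((l : ℝ) / k) * (rhoMB d t k l)⁻¹ ^ 2 ≤ C * ((l : ℝ) / k) ^ (1 - 2 * t) := by
  obtain ⟨C, hC, H⟩ := rhoMB_bounds d hd t ht0 (by linarith)
  refine ⟨C ^ 2, by positivity, ?_⟩
  intro k l hk hl hlk
  have hkR : (1 : ℝ) ≤ k := by exact_mod_cast hk
  have hlR : (1 : ℝ) ≤ l := by exact_mod_cast hl
  have hu : 0 < (l : ℝ) / k := by positivity
  have hρ := rhoMB_pos d hd t ht0 (by linarith) k l hk hl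
  have h1 := (H k l hk hl hlk).1
  have hut : 0 < ((l : ℝ) / k) ^ t := rpow_pos_of_pos hu t
  have h2 : (rhoMB d t k l)⁻¹ ≤ C * (((l : ℝ) / k) ^ t)⁻¹ := by
    rw [inv_le_comm₀ hρ (by positivity), mul_inv, inv_inv]
    exact h1
  have h3 : (rhoMB d t k l)⁻¹ ^ 2 ≤ (C * (((l : ℝ) / k) ^ t)⁻¹) ^ 2 :=
    pow_le_pow_left₀ (by positivity) h2 2
  have h4 : ((l : ℝ) / k) ^ (1 - 2 * t) = ((l : ℝ) / k) * ((((l : ℝ) / k) ^ t)⁻¹) ^ 2 := by
    rw [rpow_sub hu, rpow_one, two_mul, rpow_add hu]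
    field_simp
  calc ((l : ℝ) / k) * (rhoMB d t k l)⁻¹ ^ 2 ≤ ((l : ℝ) / k) * (C * (((l : ℝ) / k) ^ t)⁻¹) ^ 2 := by
        gcongr
    _ = C ^ 2 * ((l : ℝ) / k) ^ (1 - 2 * t) := by rw [h4]; ring

/-- second moment of the inverse ratio against the branch weights -/
theorem rhoMB_inv_sq (d : ℕ) (hd : 1 ≤ d) (t : ℝ) (ht0 : 0 < t) (ht1 : t < 1 / 2) :
    ∃ C : ℝ, 0 < C ∧ ∀ k l : ℕ, 1 ≤ k → 1 ≤ l → l ≤ k + d →
      ((l : ℝ) / k) * (rhoMB d t k l)⁻¹ ^ 2 ≤ C := by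
  obtain ⟨C, hC, H⟩ := gc_inv_sq_le d hd t ht0 ht1
  refine ⟨C * (1 + (d : ℝ)) ^ (1 - 2 * t), by positivity, ?_⟩
  intro k l hk hl hlk
  have hkR : (1 : ℝ) ≤ k := by exact_mod_cast hk
  have hlkR : (l : ℝ) ≤ k + d := by exact_mod_cast hlk
  have hd0 : (0 : ℝ) ≤ d := Nat.cast_nonneg d
  have h1 : (l : ℝ) / k ≤ 1 + d := by
    rw [div_le_iff₀ (by linarith)]
    nlinarith
  refine (H k l hk hl hlk).trans ?_
  gcongr
  linarith

/-- the clipped inverse (scalar form of replicas:R-inverse) -/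
theorem rhoMB_clip (d : ℕ) (hd : 1 ≤ d) (t : ℝ) (ht0 : 0 < t) (ht1 : t < 1 / 2) :
    ∃ C : ℝ, 0 < C ∧ ∀ δ : ℝ, 0 < δ → δ < 1 → ∀ ε : ℝ, 0 < ε →
      ∃ k₀ : ℕ, ∀ k l : ℕ, k₀ ≤ k → 1 ≤ l → l ≤ k + d →
        ((l : ℝ) / k) * ((rhoMB d t k l)⁻¹ - (max (((l : ℝ) - d) / k) δ) ^ (-t)) ^ 2
          ≤ C * δ ^ (1 - 2 * t) + ε := by
  obtain ⟨C0, hC0, H0⟩ := gc_inv_sq_le d hd t ht0 ht1
  refine ⟨C0 + 1, by positivity, ?_⟩
  intro δ hδ0 hδ1 ε hε
  have hd0 : (0 : ℝ) ≤ d := Nat.cast_nonneg d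
  set D2 : ℝ := δ ^ t with hD2
  have hD2pos : 0 < D2 := rpow_pos_of_pos hδ0 t
  set s : ℝ := Real.sqrt (ε / (4 * (1 + (d : ℝ)))) with hs
  have hspos : 0 < s := Real.sqrt_pos.mpr (by positivity)
  have hs2 : s ^ 2 = ε / (4 * (1 + (d : ℝ))) := Real.sq_sqrt (by positivity)
  set ε' : ℝ := min (D2 / 2) (s * D2 ^ 2) with hε'
  have hε'pos : 0 < ε' := lt_min (by positivity) (by positivity)
  obtain ⟨kA, HA⟩ := rhoMB_unif d hd t ht0 (by linarith) ε' hε'pos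
  obtain ⟨kB1, hkB1, HB1⟩ := gc_small d (1 - 2 * t) (ε / (2 * C0)) hd0 (by linarith) (by positivity)
  obtain ⟨kB2, _, HB2⟩ := gc_small (d * (δ ^ (-t)) ^ 2) 1 (ε / 2) (by positivity) one_pos
    (by positivity)
  refine ⟨max kA (max kB1 kB2), ?_⟩
  intro k l hk hl hlk
  have a1 : kA ≤ k := le_trans (le_max_left _ _) hk
  have a2 : kB1 ≤ k := le_trans (le_trans (le_max_left _ _) (le_max_right _ _)) hk
  have a3 : kB2 ≤ k := le_trans (le_trans (le_max_right _ _) (le_max_right _ _)) hk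
  have hk1 : 1 ≤ k := hkB1.trans a2
  have hkR : (1 : ℝ) ≤ k := by exact_mod_cast hk1
  have hk0 : (0 : ℝ) < k := by linarith
  have hlR : (1 : ℝ) ≤ l := by exact_mod_cast hl
  have hlkR : (l : ℝ) ≤ k + d := by exact_mod_cast hlk
  have hu0 : 0 < (l : ℝ) / k := by positivity
  have hρ := rhoMB_pos d hd t ht0 (by linarith) k l hk1 hl
  have hδpow : 0 < δ ^ (1 - 2 * t) := rpow_pos_of_pos hδ0 _
  rcases le_total δ (((l : ℝ) - d) / k) with h | h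
  · -- the eigenvalue is at least `δ`
    rw [max_eq_left h]
    set m : ℝ := ((l : ℝ) - d) / k with hm
    have hm0 : 0 < m := lt_of_lt_of_le hδ0 h
    have h1 := HA k l a1 hl hlk
    rw [max_eq_left hm0.le] at h1
    have hmt : D2 ≤ m ^ t := rpow_le_rpow hδ0.le h ht0.le
    have hmt0 : 0 < m ^ t := rpow_pos_of_pos hm0 t
    have h1' := abs_le.mp h1
    have e1 : ε' ≤ D2 / 2 := min_le_left _ _
    have e2 : ε' ≤ s * D2 ^ 2 := min_le_right _ _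
    have hρlo : D2 / 2 ≤ rhoMB d t k l := by linarith
    have h2 : (rhoMB d t k l)⁻¹ - m ^ (-t) = (m ^ t - rhoMB d t k l) / (rhoMB d t k l * m ^ t) := by
      rw [rpow_neg hm0.le]
      field_simp
    have h3 : |(rhoMB d t k l)⁻¹ - m ^ (-t)| ≤ 2 * s := by
      rw [h2, abs_div, abs_of_pos (mul_pos hρ hmt0), div_le_iff₀ (mul_pos hρ hmt0), abs_sub_comm]
      calc |rhoMB d t k l - m ^ t| ≤ s * D2 ^ 2 := h1.trans e2
        _ = 2 * s * (D2 / 2 * D2) := by ring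
        _ ≤ 2 * s * (rhoMB d t k l * m ^ t) := by gcongr
    have h4 : ((rhoMB d t k l)⁻¹ - m ^ (-t)) ^ 2 ≤ (2 * s) ^ 2 := by
      rw [← sq_abs]
      exact pow_le_pow_left₀ (abs_nonneg _) h3 2
    have h5 : (l : ℝ) / k ≤ 1 + d := by
      rw [div_le_iff₀ hk0]
      nlinarith
    calc ((l : ℝ) / k) * ((rhoMB d t k l)⁻¹ - m ^ (-t)) ^ 2 ≤ (1 + d) * (2 * s) ^ 2 := by gcongr
      _ = ε := by
          rw [mul_pow, hs2]
          field_simp
          ring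
      _ ≤ (C0 + 1) * δ ^ (1 - 2 * t) + ε := by
          have : 0 ≤ (C0 + 1) * δ ^ (1 - 2 * t) := by positivity
          linarith
  · -- the eigenvalue is below `δ`
    rw [max_eq_right h]
    have hu1 : (l : ℝ) / k ≤ δ + d / k := by
      have : (l : ℝ) / k = ((l : ℝ) - d) / k + d / k := by ring
      linarith
    have hb0 : 0 < δ ^ (-t) := rpow_pos_of_pos hδ0 _
    have hρi : 0 < (rhoMB d t k l)⁻¹ := inv_pos.mpr hρ
    have h1 : ((rhoMB d t k l)⁻¹ - δ ^ (-t)) ^ 2 ≤ (rhoMB d t k l)⁻¹ ^ 2 + (δ ^ (-t)) ^ 2 := by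
      nlinarith [mul_pos hρi hb0]
    have h2 : ((l : ℝ) / k) * (rhoMB d t k l)⁻¹ ^ 2 ≤
        C0 * δ ^ (1 - 2 * t) + C0 * ((d : ℝ) / k) ^ (1 - 2 * t) := by
      calc ((l : ℝ) / k) * (rhoMB d t k l)⁻¹ ^ 2 ≤ C0 * ((l : ℝ) / k) ^ (1 - 2 * t) :=
            H0 k l hk1 hl hlk
        _ ≤ C0 * (δ + d / k) ^ (1 - 2 * t) := by
            gcongr
            linarith
        _ ≤ C0 * (δ ^ (1 - 2 * t) + ((d : ℝ) / k) ^ (1 - 2 * t)) := by
            gcongr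
            exact rpow_add_le_add_rpow hδ0.le (by positivity) (by linarith) (by linarith)
        _ = _ := by ring
    have h3 : δ * (δ ^ (-t)) ^ 2 = δ ^ (1 - 2 * t) := by
      rw [← rpow_natCast (δ ^ (-t)) 2, ← rpow_mul hδ0.le]
      nth_rewrite 1 [← rpow_one δ]
      rw [← rpow_add hδ0]
      congr 1
      push_cast
      ring
    have h4 : ((l : ℝ) / k) * (δ ^ (-t)) ^ 2 ≤ δ ^ (1 - 2 * t) + (d * (δ ^ (-t)) ^ 2) / k := by
      calc ((l : ℝ) / k) * (δ ^ (-t)) ^ 2 ≤ (δ + d / k) * (δ ^ (-t)) ^ 2 := by gcongr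
        _ = δ * (δ ^ (-t)) ^ 2 + (d * (δ ^ (-t)) ^ 2) / k := by ring
        _ = _ := by rw [h3]
    have b1 := HB1 k a2
    have b2 := HB2 k a3
    rw [rpow_one] at b2
    have b1' : C0 * ((d : ℝ) / k) ^ (1 - 2 * t) ≤ ε / 2 := by
      calc C0 * ((d : ℝ) / k) ^ (1 - 2 * t) ≤ C0 * (ε / (2 * C0)) := by gcongr
        _ = ε / 2 := by field_simp
    calc ((l : ℝ) / k) * ((rhoMB d t k l)⁻¹ - δ ^ (-t)) ^ 2
        ≤ ((l : ℝ) / k) * ((rhoMB d t k l)⁻¹ ^ 2 + (δ ^ (-t)) ^ 2) := by gcongr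
      _ = ((l : ℝ) / k) * (rhoMB d t k l)⁻¹ ^ 2 + ((l : ℝ) / k) * (δ ^ (-t)) ^ 2 := by ring
      _ ≤ (C0 + 1) * δ ^ (1 - 2 * t) + ε := by linarith

end Claimed.Agent.R296.Rep
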