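import Claimed.Agent.R296.Rep.Branch
import Claimed.Agent.R296.Rep.GammaC

/-!
# BB_Rep L4-R: FINAL INTERFACE of Lemma `replicas:metric` of P1 Sec. 5

Everything is stated on one index type (`tRep α κ`, `card α ≤ d`) or for tracial states of the group
algebra.  For a symmetric unit vector `z` of the full replica space, `φ b := ⟨z, U_Q(b) z⟩` is a
`TrState` (tracial because `U_Q(σ) z = U_{Q^c}(σ⁻¹) z`), and
`‖U_Q(x) z‖² = φ (gstar x * x)`.

* `wIrr_compare`          : (replicas:W-comparison);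
* `W_mixture` (Mixture)   : (replicas:W-integral);
* `norm_R_le`, `R_forward`: (replicas:R-forward), with the functional calculus of `J` replaced by an
                            arbitrary polynomial approximant of `u ↦ u_+^t` on `[-1,1]`;
* `Rinv_bound`            : `‖R⁻¹ z‖ ≤ C`;
* `Rinv_clip`, `clip_poly`: (replicas:R-inverse).

All statements of this file are proved (helper167); open inputs: Branch, GammaB, GammaC, FrobB/C.
-/

set_option autoImplicit false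
set_option linter.unusedSectionVars false

namespace Claimed.Agent.R296.Rep

open Matrix Real Equiv
open scoped Matrix.Norms.L2Operator

/-- tracial states of `ℂ[Perm κ]` carried by the blocks with at most `d` rows -/
structure TrState {κ : Type} [Fintype κ] [DecidableEq κ] (d : ℕ)
    (φ : GA (Perm κ) →ₗ[ℂ] ℂ) : Prop where
  tracial : ∀ a b, φ (a * b) = φ (b * a)
  nonneg : ∀ i, 0 ≤ (φ (idem i)).re ∧ (φ (idem i)).im = 0
  total : φ 1 = 1
  labelled : ∀ i, ¬ IsLabelled d i → φ (idem i) = 0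

theorem dimI_blk_eq_dimLab (d : ℕ) {κ : Type} [Fintype κ] [DecidableEq κ] (lam : Fin d → ℕ)
    (hl : IsLab d (Fintype.card κ) lam) :
    (dimI (blk d lam : Irr (Perm κ)) : ℝ) = dimLab d lam := by
  have h := dimI_blk_formula (κ := κ) d lam hl
  have hne : (∏ i, ((sh d lam i).factorial : ℝ)) ≠ 0 :=
    Finset.prod_ne_zero_iff.mpr fun i _ => by exact_mod_cast (Nat.factorial_pos _).ne'
  rw [dimLab, eq_div_iff hne, hl.2]
  exact_mod_cast h

/-- (replicas:W-comparison) on abstract blocks -/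
theorem wIrr_compare (d : ℕ) (hd : 1 ≤ d) (t : ℝ) (ht0 : 0 < t) (ht1 : t ≤ 1) :
    ∃ (C : ℝ) (m : ℕ), 0 < C ∧ ∀ (κ : Type) [Fintype κ] [DecidableEq κ] (i : Irr (Perm κ)),
      (C * ((Fintype.card κ : ℝ) + 1) ^ m)⁻¹ * (dimI i : ℝ) ^ (-t) ≤ wIrr d t i ∧
      wIrr d t i ≤ C * ((Fintype.card κ : ℝ) + 1) ^ m * (dimI i : ℝ) ^ (-t) := by
  obtain ⟨C, m, hC, h⟩ := wLab_compare d hd t ht0 ht1
  refine ⟨max C 1, m, lt_of_lt_of_le hC (le_max_left _ _), ?_⟩
  intro κ _ _ i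
  have hk1 : (1 : ℝ) ≤ ((Fintype.card κ : ℝ) + 1) ^ m :=
    one_le_pow₀ (by have : (0 : ℝ) ≤ (Fintype.card κ : ℝ) := Nat.cast_nonneg _; linarith)
  have hkpos : (0 : ℝ) < ((Fintype.card κ : ℝ) + 1) ^ m := lt_of_lt_of_le one_pos hk1
  have hx : 0 ≤ (dimI i : ℝ) ^ (-t) := Real.rpow_nonneg (Nat.cast_nonneg _) _
  have hle : C * ((Fintype.card κ : ℝ) + 1) ^ m ≤ max C 1 * ((Fintype.card κ : ℝ) + 1) ^ m :=
    mul_le_mul_of_nonneg_right (le_max_left _ _) hkpos.le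
  have hone : 1 ≤ max C 1 * ((Fintype.card κ : ℝ) + 1) ^ m := by
    calc (1 : ℝ) = 1 * 1 := by ring
      _ ≤ max C 1 * ((Fintype.card κ : ℝ) + 1) ^ m :=
        mul_le_mul (le_max_right _ _) hk1 zero_le_one (le_trans zero_le_one (le_max_right _ _))
  by_cases hi : IsLabelled d i
  · obtain ⟨lam, hl, rfl⟩ := hi
    rw [wIrr_blk d t lam hl, dimI_blk_eq_dimLab d lam hl]
    rw [dimI_blk_eq_dimLab d lam hl] at hx
    obtain ⟨h1, h2⟩ := h _ lam hl
    constructor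
    · refine le_trans (mul_le_mul_of_nonneg_right ?_ hx) h1
      exact inv_anti₀ (mul_pos hC hkpos) hle
    · exact le_trans h2 (mul_le_mul_of_nonneg_right hle hx)
  · rw [wIrr, dif_neg hi]
    constructor
    · calc (max C 1 * ((Fintype.card κ : ℝ) + 1) ^ m)⁻¹ * (dimI i : ℝ) ^ (-t)
          ≤ 1 * (dimI i : ℝ) ^ (-t) := mul_le_mul_of_nonneg_right (inv_le_one_of_one_le₀ hone) hx
        _ = _ := one_mul _
    · calc (dimI i : ℝ) ^ (-t) = 1 * (dimI i : ℝ) ^ (-t) := (one_mul _).symm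
        _ ≤ _ := mul_le_mul_of_nonneg_right hone hx

theorem wIrr_pos (d : ℕ) (hd : 1 ≤ d) (t : ℝ) (ht0 : 0 < t) {κ : Type} [Fintype κ]
    [DecidableEq κ] (i : Irr (Perm κ)) : 0 < wIrr d t i := by
  rw [wIrr]
  split_ifs with h
  · exact wLab_pos d hd t ht0 _
  · exact Real.rpow_pos_of_pos (by exact_mod_cast dimI_pos i) _

theorem Wpow_add (d : ℕ) (hd : 1 ≤ d) (t : ℝ) (ht0 : 0 < t) (κ : Type) [Fintype κ]
    [DecidableEq κ] (s s' : ℝ) : Wpow κ d t s * Wpow κ d t s' = Wpow κ d t (s + s') := by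
  rw [Wpow, Wpow, Wpow, cfun_mul]
  congr 1
  funext i
  rw [Real.rpow_add (wIrr_pos d hd t ht0 i)]
  push_cast
  rfl

theorem Wpow_zero (d : ℕ) (t : ℝ) (κ : Type) [Fintype κ] [DecidableEq κ] :
    Wpow κ d t 0 = 1 := by
  rw [Wpow]
  simp only [Real.rpow_zero, Complex.ofReal_one]
  exact cfun_one

theorem Wpow_comm (d : ℕ) (t s : ℝ) (κ : Type) [Fintype κ] [DecidableEq κ] (a : GA (Perm κ)) :
    Wpow κ d t s * a = a * Wpow κ d t s := cfun_comm _ a

theorem gstar_Wpow (d : ℕ) (t s : ℝ) (κ : Type) [Fintype κ] [DecidableEq κ] :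
    gstar (Wpow κ d t s) = Wpow κ d t s := by
  rw [Wpow, gstar_cfun]
  congr 1
  funext i
  exact Complex.conj_ofReal _

theorem Rel_mul_RelInv (d : ℕ) (hd : 1 ≤ d) (t : ℝ) (ht0 : 0 < t) {κ : Type} [Fintype κ]
    [DecidableEq κ] (j₀ : κ) : Rel d t j₀ * RelInv d t j₀ = 1 := by
  rw [Rel, RelInv]
  calc Wpow κ d t 1 * gsub j₀ (Wpow {j // j ≠ j₀} d t (-1))
        * (Wpow κ d t (-1) * gsub j₀ (Wpow {j // j ≠ j₀} d t 1))
      = Wpow κ d t 1 * (gsub j₀ (Wpow {j // j ≠ j₀} d t (-1)) * Wpow κ d t (-1))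
          * gsub j₀ (Wpow {j // j ≠ j₀} d t 1) := by simp only [mul_assoc]
    _ = Wpow κ d t 1 * (Wpow κ d t (-1) * gsub j₀ (Wpow {j // j ≠ j₀} d t (-1)))
          * gsub j₀ (Wpow {j // j ≠ j₀} d t 1) := by
        rw [Wpow_comm d t (-1) κ (gsub j₀ (Wpow {j // j ≠ j₀} d t (-1)))]
    _ = (Wpow κ d t 1 * Wpow κ d t (-1))
          * (gsub j₀ (Wpow {j // j ≠ j₀} d t (-1)) * gsub j₀ (Wpow {j // j ≠ j₀} d t 1)) := by
        simp only [mul_assoc]
    _ = 1 := by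
        rw [Wpow_add d hd t ht0, ← map_mul, Wpow_add d hd t ht0]
        simp [Wpow_zero]

theorem gstar_RelInv (d : ℕ) (t : ℝ) {κ : Type} [Fintype κ] [DecidableEq κ] (j₀ : κ) :
    gstar (RelInv d t j₀) = RelInv d t j₀ := by
  rw [RelInv, gstar_mul, gstar_Wpow, gstar_gsub, gstar_Wpow, Wpow_comm]


theorem removable_sh_pos {d : ℕ} {lam : Fin d → ℕ} {i : Fin d} (hi : Removable lam i) :
    1 ≤ sh d lam i := by
  have := hi.1
  simp only [sh]
  omega

/-- uniform bound of the forward ratio -/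
theorem norm_R_le (d : ℕ) (hd : 1 ≤ d) (t : ℝ) (ht0 : 0 < t) (ht1 : t < 1) :
    ∃ C : ℝ, ∀ (κ : Type) [Fintype κ] [DecidableEq κ] (j₀ : κ)
      (α : Type) [Fintype α] [DecidableEq α], Fintype.card α ≤ d →
      ‖tRep α κ (Rel d t j₀)‖ ≤ C := by
  obtain ⟨C, hC, h⟩ := rhoMB_bounds d hd t ht0 ht1
  refine ⟨C * (1 + (d : ℝ)) ^ t, ?_⟩
  intro κ _ _ j₀ α _ _ hα
  have hk : 1 ≤ Fintype.card κ := Fintype.card_pos_iff.mpr ⟨j₀⟩
  have hkR : (1 : ℝ) ≤ (Fintype.card κ : ℝ) := by exact_mod_cast hk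
  rw [tRep_Rel d hd hα t ht0 j₀]
  refine norm_tRep_brOp_le d j₀ _ _ (by positivity) fun lam i hl hi => ?_
  have hl1 := removable_sh_pos hi
  have hle := sh_le d _ lam hl i
  rw [Complex.norm_real, Real.norm_of_nonneg (rhoMB_pos d hd t ht0 ht1 _ _ hk hl1).le]
  refine le_trans (h _ _ hk hl1 hle).2 (mul_le_mul_of_nonneg_left ?_ hC.le)
  refine Real.rpow_le_rpow (by positivity) ?_ ht0.le
  rw [div_le_iff₀ (by linarith)]
  have h2 : (sh d lam i : ℝ) ≤ (Fintype.card κ : ℝ) + d := by exact_mod_cast hle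
  have hd0 : (0 : ℝ) ≤ (d : ℝ) := Nat.cast_nonneg _
  nlinarith

/-- (replicas:R-forward) -/
theorem R_forward (d : ℕ) (hd : 1 ≤ d) (t : ℝ) (ht0 : 0 < t) (ht1 : t < 1) (ε : ℝ) (hε : 0 < ε) :
    ∃ k₀ : ℕ, ∀ (κ : Type) [Fintype κ] [DecidableEq κ] (j₀ : κ)
      (α : Type) [Fintype α] [DecidableEq α], Fintype.card α ≤ d → k₀ ≤ Fintype.card κ →
      ∀ (p : Polynomial ℝ) (η : ℝ), (∀ u ∈ Set.Icc (-1 : ℝ) 1, |p.eval u - (max u 0) ^ t| ≤ η) →
        ‖tRep α κ (Rel d t j₀) - Polynomial.aeval (tRep α κ (Jel j₀)) p‖ ≤ η + ε := by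
  obtain ⟨k₀, h⟩ := rhoMB_unif d hd t ht0 ht1 ε hε
  refine ⟨k₀, ?_⟩
  intro κ _ _ j₀ α _ _ hα hk p η hp
  have hη : 0 ≤ η := le_trans (abs_nonneg _) (hp 0 (by constructor <;> norm_num))
  rw [tRep_Rel d hd hα t ht0 j₀, aeval_tRep_Jel d hα j₀ p, ← map_sub, brOp_sub]
  refine norm_tRep_brOp_le d j₀ _ _ (by positivity) fun lam i hl hi => ?_
  have hl1 := removable_sh_pos hi
  have hle := sh_le d _ lam hl i
  have h1 := h _ _ hk hl1 hle
  have h2 := hp _ (star_eigenvalue_mem d _ lam hl i hi)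
  rw [← Complex.ofReal_sub, Complex.norm_real, Real.norm_eq_abs]
  calc |rhoMB d t (Fintype.card κ) (sh d lam i)
        - p.eval (((sh d lam i : ℝ) - d) / Fintype.card κ)|
      = |(rhoMB d t (Fintype.card κ) (sh d lam i)
          - (max (((sh d lam i : ℝ) - d) / Fintype.card κ) 0) ^ t)
        - (p.eval (((sh d lam i : ℝ) - d) / Fintype.card κ)
          - (max (((sh d lam i : ℝ) - d) / Fintype.card κ) 0) ^ t)| := by ring_nf
    _ ≤ ε + η := le_trans (abs_sub _ _) (add_le_add h1 h2)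
    _ = η + ε := add_comm _ _

/-- the clipped inverse power of the star operator, in the branch calculus -/
noncomputable def clipOp (d : ℕ) (t δ : ℝ) {κ : Type} [Fintype κ] [DecidableEq κ] (j₀ : κ) :
    GA (Perm κ) :=
  brOp d j₀ fun lam i => (((max (((sh d lam i : ℝ) - d) / Fintype.card κ) δ) ^ (-t) : ℝ) : ℂ)

/-- the clipped inverse power is approximated in norm by polynomials in the star operator -/
theorem clip_poly (d : ℕ) (t δ : ℝ) {κ : Type} [Fintype κ] [DecidableEq κ] (j₀ : κ)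
    {α : Type} [Fintype α] [DecidableEq α] (hα : Fintype.card α ≤ d)
    (p : Polynomial ℝ) (η : ℝ) (hη : 0 ≤ η)
    (h : ∀ u ∈ Set.Icc (-1 : ℝ) 1, |p.eval u - (max u δ) ^ (-t)| ≤ η) :
    ‖tRep α κ (clipOp d t δ j₀) - Polynomial.aeval (tRep α κ (Jel j₀)) p‖ ≤ η := by
  rw [clipOp, aeval_tRep_Jel d hα j₀ p, ← map_sub, brOp_sub]
  refine norm_tRep_brOp_le d j₀ _ _ hη fun lam i hl hi => ?_
  have h2 := h _ (star_eigenvalue_mem d _ lam hl i hi)
  rw [← Complex.ofReal_sub, Complex.norm_real, Real.norm_eq_abs, abs_sub_comm]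
  exact h2


section tracial

variable {κ : Type} [Fintype κ] [DecidableEq κ]

/-- a tracial state carried by the labelled blocks does not see the other blocks -/
theorem TrState.apply_mul_E {d : ℕ} {φ : GA (Perm κ) →ₗ[ℂ] ℂ} (hφ : TrState d φ) (j₀ : κ)
    (a : GA (Perm κ)) : φ (a * brOp d j₀ (fun _ _ => 1)) = φ a := by
  classical
  rw [brOp_one, Finset.mul_sum, map_sum]
  conv_rhs => rw [← mul_one a, ← sum_idem, Finset.mul_sum, map_sum]
  rw [← Finset.sum_image (f := fun i : Irr (Perm κ) => φ (a * idem i))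
    (fun x hx y hy h => blk_injOn d x y (mem_labels.mp hx) (mem_labels.mp hy) h)]
  refine Finset.sum_subset (Finset.subset_univ _) fun i _ hi => ?_
  have hnl : ¬ IsLabelled d i := by
    rintro ⟨lam, hl, rfl⟩
    exact hi (Finset.mem_image.mpr ⟨lam, mem_labels.mpr hl, rfl⟩)
  rw [hφ.tracial, tracial_eq φ hφ.tracial, hφ.labelled i hnl]
  simp

theorem RelInv_mul_brOp (d : ℕ) (hd : 1 ≤ d) (t : ℝ) (ht0 : 0 < t) (j₀ : κ)
    (c : (Fin d → ℕ) → Fin d → ℂ) :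
    RelInv d t j₀ * brOp d j₀ c = brOp d j₀ (fun lam i =>
      (((rhoMB d t (Fintype.card κ) (sh d lam i))⁻¹ : ℝ) : ℂ) * c lam i) := by
  classical
  rw [brOp, brOp, Finset.mul_sum]
  refine Finset.sum_congr rfl fun lam hlam => ?_
  rw [Finset.mul_sum]
  refine Finset.sum_congr rfl fun i _ => ?_
  split_ifs with hi
  · rw [mul_smul_comm, RelInv_mul_brIdem d hd t ht0 j₀ lam (mem_labels.mp hlam) i hi, smul_smul,
      mul_comm]
  · rw [mul_zero]

theorem TrState.sum_re {d : ℕ} {φ : GA (Perm κ) →ₗ[ℂ] ℂ} (hφ : TrState d φ) (j₀ : κ) :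
    ∑ lam ∈ labels d (Fintype.card κ), (φ (idem (blk d lam))).re = 1 := by
  have h := hφ.apply_mul_E j₀ 1
  rw [one_mul, brOp_one, map_sum, hφ.total] at h
  have h2 := congrArg Complex.re h
  rw [Complex.re_sum, Complex.one_re] at h2
  exact h2

/-- the basic estimate for tracial states on the branch calculus -/
theorem TrState.brOp_re_le {d : ℕ} {φ : GA (Perm κ) →ₗ[ℂ] ℂ} (hφ : TrState d φ) (j₀ : κ)
    (y : (Fin d → ℕ) → Fin d → ℝ) (B : ℝ) (hB : 0 ≤ B) (hy0 : ∀ lam i, 0 ≤ y lam i)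
    (hy : ∀ lam i, IsLab d (Fintype.card κ) lam → Removable lam i →
      ((sh d lam i : ℝ) / Fintype.card κ) * y lam i ≤ B) :
    (φ (brOp d j₀ fun lam i => ((y lam i : ℝ) : ℂ))).re ≤ d * 2 ^ d * B := by
  classical
  rw [tracial_brOp d j₀ _ φ hφ.tracial, Complex.re_sum]
  have hterm : ∀ lam ∈ labels d (Fintype.card κ),
      (φ (idem (blk d lam)) * ∑ i, (if Removable lam i then ((y lam i : ℝ) : ℂ) *
        ((dimI (blk d (subBox lam i) : Irr (Perm {j // j ≠ j₀})) : ℂ)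
          / dimI (blk d lam : Irr (Perm κ))) else 0)).re
      ≤ (φ (idem (blk d lam))).re * (d * 2 ^ d * B) := by
    intro lam hlam
    have hl := mem_labels.mp hlam
    have hreal : (∑ i, (if Removable lam i then ((y lam i : ℝ) : ℂ) *
        ((dimI (blk d (subBox lam i) : Irr (Perm {j // j ≠ j₀})) : ℂ)
          / dimI (blk d lam : Irr (Perm κ))) else 0))
        = ((∑ i, (if Removable lam i then y lam i *
        ((dimI (blk d (subBox lam i) : Irr (Perm {j // j ≠ j₀})) : ℝ)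
          / dimI (blk d lam : Irr (Perm κ))) else 0) : ℝ) : ℂ) := by
      push_cast
      refine Finset.sum_congr rfl fun i _ => ?_
      split_ifs <;> simp
    rw [hreal, Complex.re_mul_ofReal]
    refine mul_le_mul_of_nonneg_left ?_ (hφ.nonneg _).1
    have hb : ∀ i ∈ (Finset.univ : Finset (Fin d)), (if Removable lam i then y lam i *
        ((dimI (blk d (subBox lam i) : Irr (Perm {j // j ≠ j₀})) : ℝ)
          / dimI (blk d lam : Irr (Perm κ))) else 0) ≤ 2 ^ d * B := by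
      intro i _
      split_ifs with hi
      · calc y lam i * ((dimI (blk d (subBox lam i) : Irr (Perm {j // j ≠ j₀})) : ℝ)
              / dimI (blk d lam : Irr (Perm κ)))
            ≤ y lam i * (2 ^ d * (sh d lam i : ℝ) / Fintype.card κ) :=
              mul_le_mul_of_nonneg_left (branch_prob_le d lam hl j₀ i hi) (hy0 lam i)
          _ = 2 ^ d * (((sh d lam i : ℝ) / Fintype.card κ) * y lam i) := by ring
          _ ≤ 2 ^ d * B := mul_le_mul_of_nonneg_left (hy lam i hl hi) (by positivity)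
      · positivity
    calc _ ≤ ∑ _i : Fin d, 2 ^ d * B := Finset.sum_le_sum hb
      _ = d * 2 ^ d * B := by
        rw [Finset.sum_const, Finset.card_univ, Fintype.card_fin, nsmul_eq_mul]; ring
  refine le_trans (Finset.sum_le_sum hterm) ?_
  rw [← Finset.sum_mul, hφ.sum_re j₀, one_mul]

end tracial

/-- inverse vector bound: `‖R⁻¹ z‖² ≤ C` on symmetric unit vectors -/
theorem Rinv_bound (d : ℕ) (hd : 1 ≤ d) (t : ℝ) (ht0 : 0 < t) (ht1 : t < 1 / 2) :
    ∃ C : ℝ, ∀ (κ : Type) [Fintype κ] [DecidableEq κ] (j₀ : κ)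
      (φ : GA (Perm κ) →ₗ[ℂ] ℂ), TrState d φ →
      (φ (RelInv d t j₀ * RelInv d t j₀)).re ≤ C := by
  obtain ⟨C, hC, h⟩ := rhoMB_inv_sq d hd t ht0 ht1
  refine ⟨d * 2 ^ d * C, ?_⟩
  intro κ _ _ j₀ φ hφ
  have hk : 1 ≤ Fintype.card κ := Fintype.card_pos_iff.mpr ⟨j₀⟩
  rw [← hφ.apply_mul_E j₀, mul_assoc, RelInv_mul_brOp d hd t ht0, RelInv_mul_brOp d hd t ht0]
  have hc : (fun (lam : Fin d → ℕ) (i : Fin d) =>
      (((rhoMB d t (Fintype.card κ) (sh d lam i))⁻¹ : ℝ) : ℂ)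
        * ((((rhoMB d t (Fintype.card κ) (sh d lam i))⁻¹ : ℝ) : ℂ) * 1))
      = fun lam i => ((((rhoMB d t (Fintype.card κ) (sh d lam i))⁻¹ ^ 2 : ℝ)) : ℂ) := by
    funext lam i
    push_cast
    ring
  rw [hc]
  refine hφ.brOp_re_le j₀ _ C hC.le (fun lam i => by positivity) fun lam i hl hi => ?_
  exact h _ _ hk (removable_sh_pos hi) (sh_le d _ lam hl i)

/-- (replicas:R-inverse): `limsup sup_z ‖(R⁻¹ - max(J,δ)^{-t}) z‖² ≤ C δ^{1-2t}` -/
theorem Rinv_clip (d : ℕ) (hd : 1 ≤ d) (t : ℝ) (ht0 : 0 < t) (ht1 : t < 1 / 2) :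
    ∃ C : ℝ, 0 < C ∧ ∀ δ : ℝ, 0 < δ → δ < 1 → ∀ ε : ℝ, 0 < ε →
      ∃ k₀ : ℕ, ∀ (κ : Type) [Fintype κ] [DecidableEq κ] (j₀ : κ), k₀ ≤ Fintype.card κ →
        ∀ (φ : GA (Perm κ) →ₗ[ℂ] ℂ), TrState d φ →
          (φ ((RelInv d t j₀ - clipOp d t δ j₀) * (RelInv d t j₀ - clipOp d t δ j₀))).re
            ≤ C * δ ^ (1 - 2 * t) + ε := by
  obtain ⟨C, hC, h⟩ := rhoMB_clip d hd t ht0 ht1
  have hD : (0 : ℝ) < d * 2 ^ d := by
    have : (0 : ℝ) < (d : ℝ) := by exact_mod_cast hd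
    positivity
  refine ⟨d * 2 ^ d * C, by positivity, ?_⟩
  intro δ hδ0 hδ1 ε hε
  obtain ⟨k₀, hk₀⟩ := h δ hδ0 hδ1 (ε / (d * 2 ^ d)) (by positivity)
  refine ⟨k₀, ?_⟩
  intro κ _ _ j₀ hk φ hφ
  set x : (Fin d → ℕ) → Fin d → ℝ := fun lam i =>
    (rhoMB d t (Fintype.card κ) (sh d lam i))⁻¹
      - (max (((sh d lam i : ℝ) - d) / Fintype.card κ) δ) ^ (-t) with hx
  have hXmul : ∀ c : (Fin d → ℕ) → Fin d → ℂ,
      (RelInv d t j₀ - clipOp d t δ j₀) * brOp d j₀ c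
        = brOp d j₀ (fun lam i => ((x lam i : ℝ) : ℂ) * c lam i) := by
    intro c
    rw [sub_mul, RelInv_mul_brOp d hd t ht0, clipOp, brOp_mul, brOp_sub]
    congr 1
    funext lam i
    rw [hx]
    push_cast
    ring
  rw [← hφ.apply_mul_E j₀, mul_assoc, hXmul, hXmul]
  have hc : (fun (lam : Fin d → ℕ) (i : Fin d) =>
      ((x lam i : ℝ) : ℂ) * (((x lam i : ℝ) : ℂ) * 1))
      = fun lam i => (((x lam i) ^ 2 : ℝ) : ℂ) := by
    funext lam i
    push_cast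
    ring
  rw [hc]
  have hB : 0 ≤ C * δ ^ (1 - 2 * t) + ε / (d * 2 ^ d) := by
    have : 0 ≤ δ ^ (1 - 2 * t) := Real.rpow_nonneg hδ0.le _
    positivity
  have := hφ.brOp_re_le j₀ (fun lam i => (x lam i) ^ 2) _ hB (fun lam i => by positivity)
    fun lam i hl hi => hk₀ _ _ hk (removable_sh_pos hi) (sh_le d _ lam hl i)
  refine le_trans this (le_of_eq ?_)
  field_simp

end Claimed.Agent.R296.Rep
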