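import Claimed.Agent.R296.Rep.BlockC

/-!
# BB_Rep L0-S: invariant densities (`lem:schur` (5)), abstract form

`inv_density_le`: an invariant positive matrix of trace `≤ 1` is `≤ d_i⁻¹` on the block `i`
("every eigenvalue is repeated `d_i` times").
Proof: let `u` be an eigenvalue of `ρ` and `P` its spectral projection (a polynomial in `ρ`, hence
commuting with `U`); if `P' = P * U(idem i) ≠ 0` then `d_i ≤ Tr P'` (`dimI_le_trace`), so
`u d_i ≤ u Tr P' ≤ Tr ρ ≤ 1`.  Sum over the eigenvalues.
-/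

set_option autoImplicit false

namespace Claimed.Agent.R296.Rep

open Matrix
open scoped ComplexOrder

variable {G : Type} [Group G] [Fintype G]
variable {n : Type} [Fintype n] [DecidableEq n]

/-- spectral projection of a Hermitian matrix at the eigenvalue number `k` -/
theorem s5_spectral_proj (M : Matrix n n ℂ) (hM : M.IsHermitian) (k : n) :
    ∃ P : Matrix n n ℂ, P * P = P ∧ Pᴴ = P ∧ M * P = ((hM.eigenvalues k : ℝ) : ℂ) • P ∧ P ≠ 0 ∧
      ∀ X : Matrix n n ℂ, X * M = M * X → X * P = P * X := by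
  set V : Matrix n n ℂ := (hM.eigenvectorUnitary : Matrix n n ℂ) with hV
  set W : Matrix n n ℂ := star V with hW
  have hVW : V * W = 1 := Unitary.mul_star_self_of_mem hM.eigenvectorUnitary.2
  have hWV : W * V = 1 := Unitary.star_mul_self_of_mem hM.eigenvectorUnitary.2
  set D : Matrix n n ℂ := diagonal (fun j => ((hM.eigenvalues j : ℝ) : ℂ)) with hD
  set d : Matrix n n ℂ := diagonal (fun j => if hM.eigenvalues j = hM.eigenvalues k then (1:ℂ) else 0)
    with hd
  have hspec : M = V * D * W := by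
    have := hM.spectral_theorem
    rw [Unitary.conjStarAlgAut_apply] at this
    exact this
  have hdd : d * d = d := by
    rw [hd, diagonal_mul_diagonal]
    congr 1
    funext j
    split_ifs <;> simp
  have hDd : D * d = ((hM.eigenvalues k : ℝ) : ℂ) • d := by
    rw [hd, hD, diagonal_mul_diagonal, ← diagonal_smul]
    congr 1
    funext j
    by_cases h : hM.eigenvalues j = hM.eigenvalues k
    · simp [h]
    · simp [h]
  refine ⟨V * d * W, ?_, ?_, ?_, ?_, ?_⟩
  · calc V * d * W * (V * d * W) = V * d * (W * V) * d * W := by simp only [Matrix.mul_assoc]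
      _ = V * (d * d) * W := by rw [hWV]; simp only [Matrix.mul_assoc, Matrix.mul_one]
      _ = V * d * W := by rw [hdd]
  · have hds : dᴴ = d := by
      rw [hd, diagonal_conjTranspose]
      congr 1
      funext j
      by_cases h : hM.eigenvalues j = hM.eigenvalues k
      · simp [h]
      · simp [h]
    rw [conjTranspose_mul, conjTranspose_mul, hds, hW, star_eq_conjTranspose,
      conjTranspose_conjTranspose, Matrix.mul_assoc]
  · calc M * (V * d * W) = V * D * (W * V) * d * W := by rw [hspec]; simp only [Matrix.mul_assoc]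
      _ = V * (D * d) * W := by rw [hWV]; simp only [Matrix.mul_assoc, Matrix.mul_one]
      _ = ((hM.eigenvalues k : ℝ) : ℂ) • (V * d * W) := by
          rw [hDd, Matrix.mul_smul, Matrix.smul_mul]
  · intro h0
    have h1 : d = 0 := by
      calc d = (W * V) * d * (W * V) := by rw [hWV, Matrix.one_mul, Matrix.mul_one]
        _ = W * (V * d * W) * V := by simp only [Matrix.mul_assoc]
        _ = 0 := by rw [h0, Matrix.mul_zero, Matrix.zero_mul]
    have h2 := congrFun (congrFun h1 k) k
    simp [hd] at h2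
  · intro X hX
    set Y : Matrix n n ℂ := W * X * V with hY
    have hXY : X = V * Y * W := by
      calc X = (V * W) * X * (V * W) := by rw [hVW, Matrix.one_mul, Matrix.mul_one]
        _ = V * Y * W := by rw [hY]; simp only [Matrix.mul_assoc]
    have hYD : Y * D = D * Y := by
      calc Y * D = W * X * (V * D * W) * V := by
            rw [hY]
            calc W * X * V * D = W * X * V * D * (W * V) := by rw [hWV, Matrix.mul_one]
              _ = _ := by simp only [Matrix.mul_assoc]
        _ = W * (X * M) * V := by rw [← hspec]; simp only [Matrix.mul_assoc]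
        _ = W * (V * D * W * X) * V := by rw [hX, ← hspec]
        _ = (W * V) * D * Y := by rw [hY]; simp only [Matrix.mul_assoc]
        _ = D * Y := by rw [hWV, Matrix.one_mul]
    have hYd : Y * d = d * Y := by
      ext a b
      have h := congrFun (congrFun hYD a) b
      rw [hD, mul_diagonal, diagonal_mul] at h
      rw [hd, mul_diagonal, diagonal_mul]
      by_cases hab : hM.eigenvalues a = hM.eigenvalues b
      · rw [hab, mul_comm]
      · have h0 : Y a b = 0 := by
          have h3 : Y a b * (((hM.eigenvalues b : ℝ) : ℂ) - ((hM.eigenvalues a : ℝ) : ℂ)) = 0 := by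
            rw [mul_sub, h]; ring
          rcases mul_eq_zero.1 h3 with h4 | h4
          · exact h4
          · exfalso
            apply hab
            have := sub_eq_zero.1 h4
            exact_mod_cast this.symm
        rw [h0, zero_mul, mul_zero]
    calc X * (V * d * W) = V * Y * (W * V) * d * W := by rw [hXY]; simp only [Matrix.mul_assoc]
      _ = V * (Y * d) * W := by rw [hWV]; simp only [Matrix.mul_assoc, Matrix.mul_one]
      _ = V * d * (W * V) * Y * W := by rw [hYd, hWV]; simp only [Matrix.mul_assoc, Matrix.mul_one]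
      _ = V * d * W * X := by rw [hXY]; simp only [Matrix.mul_assoc]

theorem s5_comm_repAlg (U : G →* Matrix n n ℂ) (ρ : Matrix n n ℂ)
    (hc : ∀ g, ρ * U g = U g * ρ) (a : GA G) : ρ * repAlg U a = repAlg U a * ρ := by
  rw [repAlg_eq_sum, Finset.mul_sum, Finset.sum_mul]
  refine Finset.sum_congr rfl fun g _ => ?_
  rw [Matrix.mul_smul, Matrix.smul_mul, hc]

/-- `F_Q ≤ L_ρ` in multiplicative form -/
theorem inv_density_le (U : G →* Matrix n n ℂ) (hU : ∀ g, (U g)ᴴ = U g⁻¹) (ρ : Matrix n n ℂ)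
    (hρ : ρ.PosSemidef) (htr : (trace ρ).re ≤ 1) (hc : ∀ g, ρ * U g = U g * ρ) (i : Irr G) :
    (((dimI i : ℂ))⁻¹ • repAlg U (idem i) - ρ * repAlg U (idem i)).PosSemidef := by
  set E : Matrix n n ℂ := repAlg U (idem i) with hE
  have hEH : Eᴴ = E := (repAlg_idem_isHermitian U hU i).eq
  have hEE : E * E = E := repAlg_idem_sq U i
  have hcA := s5_comm_repAlg U ρ hc
  have hρE : ρ * E = E * ρ := hcA _
  have hdpos : (0 : ℝ) < dimI i := by exact_mod_cast dimI_pos i
  set M : Matrix n n ℂ := ((dimI i : ℂ))⁻¹ • E - ρ * E with hMdef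
  have hM : M.IsHermitian := by
    rw [Matrix.IsHermitian, hMdef, conjTranspose_sub, conjTranspose_smul, conjTranspose_mul, hEH,
      hρ.isHermitian.eq, ← hρE]
    simp
  rw [hM.posSemidef_iff_eigenvalues_nonneg]
  intro k
  by_contra hneg
  have hμ : hM.eigenvalues k < 0 := not_le.1 hneg
  set μ : ℝ := hM.eigenvalues k with hμdef
  obtain ⟨P, hPP, hPH, hMP, hP0, hPc⟩ := s5_spectral_proj M hM k
  have hME : M * E = M := by
    rw [hMdef, Matrix.sub_mul, Matrix.smul_mul, Matrix.mul_assoc, hEE]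
  have hEM : E * M = M := by
    rw [hMdef, Matrix.mul_sub, Matrix.mul_smul, ← Matrix.mul_assoc, ← hρE, Matrix.mul_assoc, hEE]
  have hEP : E * P = P * E := hPc E (by rw [hEM, hME])
  have hρP : ρ * P = P * ρ := hPc ρ (by
    rw [hMdef, Matrix.mul_sub, Matrix.sub_mul, Matrix.mul_smul, Matrix.smul_mul, hρE,
      Matrix.mul_assoc, ← Matrix.mul_assoc ρ E ρ, hρE, Matrix.mul_assoc])
  have hUP : ∀ a, P * repAlg U a = repAlg U a * P := fun a => (hPc _ (by
    have h1 : repAlg U a * E = E * repAlg U a := by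
      rw [hE, ← map_mul, ← map_mul, idem_comm]
    rw [hMdef, Matrix.mul_sub, Matrix.sub_mul, Matrix.mul_smul, Matrix.smul_mul, h1,
      ← Matrix.mul_assoc, ← hcA a, Matrix.mul_assoc, h1, Matrix.mul_assoc])).symm
  have hμC : ((μ : ℝ) : ℂ) ≠ 0 := by exact_mod_cast hμ.ne
  have hPE : P * E = P := by
    have h1 : ((μ : ℝ) : ℂ) • (P * E) = ((μ : ℝ) : ℂ) • P := by
      calc ((μ : ℝ) : ℂ) • (P * E) = (M * P) * E := by rw [hMP, Matrix.smul_mul]
        _ = M * E * P := by rw [Matrix.mul_assoc, ← hEP, Matrix.mul_assoc]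
        _ = ((μ : ℝ) : ℂ) • P := by rw [hME, hMP]
    exact smul_right_injective _ hμC h1
  have hdim := dimI_le_trace (repAlg U) P hPP hUP i hPE hP0
  have hρP' : ρ * P = (((dimI i : ℂ))⁻¹ - ((μ : ℝ) : ℂ)) • P := by
    have h1 : M * P = ((dimI i : ℂ))⁻¹ • P - ρ * P := by
      rw [hMdef, Matrix.sub_mul, Matrix.smul_mul, Matrix.mul_assoc, hEP, hPE]
    rw [hMP] at h1
    rw [sub_smul, h1]
    abel
  have htr1 : (trace (ρ * P)).re = ((dimI i : ℝ)⁻¹ - μ) * (trace P).re := by
    rw [hρP', trace_smul, smul_eq_mul]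
    have : (((dimI i : ℂ))⁻¹ - ((μ : ℝ) : ℂ)) = (((dimI i : ℝ)⁻¹ - μ : ℝ) : ℂ) := by
      push_cast; ring
    rw [this, Complex.re_ofReal_mul]
  have htr2 : (trace (ρ * P)).re ≤ (trace ρ).re := by
    have h1 : ((1 - P)ᴴ * ρ * (1 - P)).PosSemidef := hρ.conjTranspose_mul_mul_same _
    have h2 : (1 - P)ᴴ * ρ * (1 - P) = ρ - ρ * P := by
      rw [conjTranspose_sub, conjTranspose_one, hPH]
      calc (1 - P) * ρ * (1 - P) = ρ - ρ * P - P * ρ + P * ρ * P := by noncomm_ring
        _ = ρ - ρ * P - ρ * P + ρ * (P * P) := by rw [← hρP, Matrix.mul_assoc]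
        _ = ρ - ρ * P := by rw [hPP]; abel
    rw [h2] at h1
    have h3 := h1.trace_nonneg
    rw [trace_sub] at h3
    have h4 := (Complex.le_def.1 h3).1
    simp at h4
    exact h4
  have h5 : 1 < ((dimI i : ℝ)⁻¹ - μ) * (trace P).re := by
    have h6 : 0 < (dimI i : ℝ)⁻¹ - μ := by
      have := inv_pos.2 hdpos
      linarith
    calc (1:ℝ) < ((dimI i : ℝ)⁻¹ - μ) * dimI i := by
          rw [sub_mul, inv_mul_cancel₀ hdpos.ne']
          nlinarith
      _ ≤ _ := mul_le_mul_of_nonneg_left hdim h6.le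
  linarith

/-- vector form: for a unit vector `v` in the block `i`, `⟨v, ρ v⟩ ≤ 1/d_i` -/
theorem inv_density_quad_le (U : G →* Matrix n n ℂ) (hU : ∀ g, (U g)ᴴ = U g⁻¹) (ρ : Matrix n n ℂ)
    (hρ : ρ.PosSemidef) (htr : (trace ρ).re ≤ 1) (hc : ∀ g, ρ * U g = U g * ρ) (i : Irr G)
    (v : n → ℂ) (hv : repAlg U (idem i) *ᵥ v = v) :
    (star v ⬝ᵥ (ρ *ᵥ v)).re ≤ (dimI i : ℝ)⁻¹ * (star v ⬝ᵥ v).re := by
  have h := (inv_density_le U hU ρ hρ htr hc i).re_dotProduct_nonneg v
  rw [Matrix.sub_mulVec, Matrix.smul_mulVec, ← Matrix.mulVec_mulVec, hv, dotProduct_sub,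
    dotProduct_smul, smul_eq_mul] at h
  have h2 : (((dimI i : ℂ))⁻¹ * (star v ⬝ᵥ v)).re = (dimI i : ℝ)⁻¹ * (star v ⬝ᵥ v).re := by
    have : ((dimI i : ℂ))⁻¹ = (((dimI i : ℝ)⁻¹ : ℝ) : ℂ) := by push_cast; ring
    rw [this, Complex.re_ofReal_mul]
  simp only [RCLike.re_to_complex, Complex.sub_re] at h
  rw [h2] at h
  linarith

end Claimed.Agent.R296.Rep
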