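import Claimed.Agent.R296.Rep.FrobC

/-!
# BB_Rep L1-D: Jucys-Murphy eigenvalues   (`lem:schur` (6), second half)

* `tsum_mul_idem_blk`: `tsum κ` is central, `central_mul_idem`, `chi_eq_sum`, `theta_swap`,
  `dimI_blk`.
* `jm_eq`: every transposition of `κ` either moves `j₀` or is `ofSubtype` of a transposition.
* `jm_mul_branch`: `jm_eq`, `tsum_mul_idem_blk` for `κ` and for `κ ∖ j₀`, `contentSum_sub`.
-/

set_option autoImplicit false

namespace Claimed.Agent.R296.Rep

open MvPolynomial Equiv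

variable {κ : Type} [Fintype κ] [DecidableEq κ]

set_option linter.unusedSectionVars false

/-! ### Jucys-Murphy -/

/-- sum of all transpositions -/
noncomputable def tsum (κ : Type) [Fintype κ] [DecidableEq κ] : GA (Perm κ) :=
  (2 : ℂ)⁻¹ • ∑ a : κ, ∑ b : κ, if a ≠ b then MonoidAlgebra.of ℂ (Perm κ) (swap a b) else 0

/-- the (unnormalised) Jucys-Murphy element `∑_{j ≠ j₀} (j j₀)`; the paper's star operator is
`J = k⁻¹ U_Q(jm j₀)` -/
noncomputable def jm (j₀ : κ) : GA (Perm κ) :=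
  ∑ j : κ, if j ≠ j₀ then MonoidAlgebra.of ℂ (Perm κ) (swap j j₀) else 0

/-- the summand of `tsum` -/
noncomputable def fd_F (a b : κ) : GA (Perm κ) :=
  if a ≠ b then MonoidAlgebra.of ℂ (Perm κ) (swap a b) else 0

theorem fd_tsum_eq : tsum κ = (2 : ℂ)⁻¹ • ∑ a : κ, ∑ b : κ, fd_F a b := rfl

theorem fd_F_of_comm (g : Perm κ) (a b : κ) :
    MonoidAlgebra.of ℂ (Perm κ) g * fd_F a b = fd_F (g a) (g b) * MonoidAlgebra.of ℂ (Perm κ) g := by
  unfold fd_F
  by_cases h : a = b
  · subst h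
    simp
  · have h' : g a ≠ g b := fun e => h (g.injective e)
    rw [if_pos h, if_pos h', ← map_mul, ← map_mul, mul_swap_eq_swap_mul]

theorem fd_tsum_of_comm (g : Perm κ) :
    tsum κ * MonoidAlgebra.of ℂ (Perm κ) g = MonoidAlgebra.of ℂ (Perm κ) g * tsum κ := by
  rw [fd_tsum_eq, smul_mul_assoc, mul_smul_comm, Finset.sum_mul, Finset.mul_sum]
  congr 1
  symm
  refine Fintype.sum_equiv g _ _ fun a => ?_
  rw [Finset.sum_mul, Finset.mul_sum]
  refine Fintype.sum_equiv g _ _ fun b => ?_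
  exact fd_F_of_comm g a b

theorem tsum_central (a : GA (Perm κ)) : tsum κ * a = a * tsum κ := by
  conv_lhs => rw [ga_eq_sum_coeff a]
  conv_rhs => rw [ga_eq_sum_coeff a]
  rw [Finset.mul_sum, Finset.sum_mul]
  refine Finset.sum_congr rfl fun g _ => ?_
  rw [mul_smul_comm, smul_mul_assoc, fd_tsum_of_comm]

theorem fd_contentSum_zero (d k : ℕ) (lam : Fin d → ℕ) (hl : IsLab d k lam) (hk : k ≤ 1) :
    contentSum lam = 0 := by
  unfold contentSum
  refine Finset.sum_eq_zero fun i _ => ?_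
  have h1 : lam i ≤ 1 := by
    have := Finset.single_le_sum (f := lam) (fun j _ => Nat.zero_le _) (Finset.mem_univ i)
    rw [hl.2] at this
    omega
  rcases Nat.le_one_iff_eq_zero_or_eq_one.1 h1 with h0 | h0
  · rw [h0]
    simp
  · have hi : (i : ℕ) = 0 := by
      by_contra hne
      have hd : 0 < d := lt_of_le_of_lt (Nat.zero_le _) i.2
      set z : Fin d := ⟨0, hd⟩ with hz
      have hzi : z ≠ i := by
        intro e
        apply hne
        rw [← e]
      have h2 : lam i ≤ lam z := hl.1 (Fin.mk_le_of_le_val (Nat.zero_le _))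
      have h3 : lam i + ∑ j ∈ Finset.univ.erase i, lam j = ∑ j, lam j :=
        Finset.add_sum_erase _ _ (Finset.mem_univ i)
      have h4 : lam z ≤ ∑ j ∈ Finset.univ.erase i, lam j :=
        Finset.single_le_sum (f := lam) (fun j _ => Nat.zero_le _)
          (Finset.mem_erase.2 ⟨hzi, Finset.mem_univ z⟩)
      rw [hl.2] at h3
      omega
    rw [h0, hi]
    simp

theorem fd_sum_ne_const {M : Type} [AddCommMonoid M] (x : M) :
    ∑ a : κ, ∑ b : κ, (if a ≠ b then x else 0)
      = (Fintype.card κ * (Fintype.card κ - 1)) • x := by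
  have h : ∀ a : κ, ∑ b : κ, (if a ≠ b then x else 0) = (Fintype.card κ - 1) • x := by
    intro a
    rw [← Finset.sum_filter, Finset.sum_const, Finset.filter_ne,
      Finset.card_erase_of_mem (Finset.mem_univ a), Finset.card_univ]
  rw [Finset.sum_congr rfl fun a _ => h a, Finset.sum_const, Finset.card_univ, mul_smul]

theorem fd_chi_tsum (i : Irr (Perm κ)) :
    chi i (tsum κ) = (2 : ℂ)⁻¹ * ∑ a : κ, ∑ b : κ, if a ≠ b then chiG i (swap a b) else 0 := by
  rw [tsum, map_smul, smul_eq_mul, map_sum]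
  congr 1
  refine Finset.sum_congr rfl fun a _ => ?_
  rw [map_sum]
  refine Finset.sum_congr rfl fun b _ => ?_
  split_ifs
  · rfl
  · rw [map_zero]

theorem fd_sum_theta_swap (d : ℕ) (lam : Fin d → ℕ) (hl : IsLab d (Fintype.card κ) lam) :
    ∑ a : κ, ∑ b : κ, (if a ≠ b then theta d lam (swap a b) else 0)
      = 2 * contentSum lam * theta d lam (1 : Perm κ) := by
  by_cases hk : Fintype.card κ ≤ 1
  · rw [fd_contentSum_zero d _ lam hl hk, mul_zero, zero_mul]
    refine Finset.sum_eq_zero fun a _ => Finset.sum_eq_zero fun b _ => ?_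
    rw [if_neg]
    intro hab
    exact hab (Fintype.card_le_one_iff.1 hk a b)
  · have hk2 : 2 ≤ Fintype.card κ := by omega
    have hpos : (0 : ℤ) < (Fintype.card κ : ℤ) * ((Fintype.card κ : ℤ) - 1) := by
      have : (2 : ℤ) ≤ Fintype.card κ := by exact_mod_cast hk2
      apply mul_pos <;> linarith
    apply mul_left_cancel₀ hpos.ne'
    rw [Finset.mul_sum]
    have h1 : ∀ a : κ, (Fintype.card κ : ℤ) * ((Fintype.card κ : ℤ) - 1) *
        ∑ b : κ, (if a ≠ b then theta d lam (swap a b) else 0)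
        = ∑ b : κ, (if a ≠ b then 2 * contentSum lam * theta d lam (1 : Perm κ) else 0) := by
      intro a
      rw [Finset.mul_sum]
      refine Finset.sum_congr rfl fun b _ => ?_
      by_cases hab : a = b
      · simp [hab]
      · rw [if_pos hab, if_pos hab, theta_swap d lam hl a b hab]
    rw [Finset.sum_congr rfl fun a _ => h1 a, fd_sum_ne_const, nsmul_eq_mul]
    congr 1
    rw [Nat.cast_mul, Nat.cast_sub (by omega), Nat.cast_one]

theorem tsum_mul_idem_blk (d : ℕ) (lam : Fin d → ℕ) (hl : IsLab d (Fintype.card κ) lam) :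
    tsum κ * idem (blk d lam) = (contentSum lam : ℂ) • idem (blk d lam : Irr (Perm κ)) := by
  rw [central_mul_idem _ tsum_central, fd_chi_tsum]
  congr 1
  have h1 : (∑ a : κ, ∑ b : κ, if a ≠ b then chiG (blk d lam : Irr (Perm κ)) (swap a b) else 0)
      = ((∑ a : κ, ∑ b : κ, (if a ≠ b then theta d lam (swap a b) else 0) : ℤ) : ℂ) := by
    push_cast
    refine Finset.sum_congr rfl fun a _ => Finset.sum_congr rfl fun b _ => ?_
    split_ifs
    · rw [chiG_blk d lam hl]
    · rfl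
  rw [h1, fd_sum_theta_swap d lam hl, ← dimI_blk d lam hl]
  have hd : (dimI (blk d lam : Irr (Perm κ)) : ℂ) ≠ 0 := by
    exact_mod_cast (dimI_pos _).ne'
  push_cast
  field_simp

theorem fd_gsub_tsum (j₀ : κ) :
    gsub j₀ (tsum {j // j ≠ j₀})
      = (2 : ℂ)⁻¹ • ∑ a : {j // j ≠ j₀}, ∑ b : {j // j ≠ j₀}, fd_F a.1 b.1 := by
  rw [tsum, map_smul, map_sum]
  congr 1
  refine Finset.sum_congr rfl fun a _ => ?_
  rw [map_sum]
  refine Finset.sum_congr rfl fun b _ => ?_
  unfold fd_F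
  by_cases h : a = b
  · subst h
    simp
  · have h' : a.1 ≠ b.1 := fun e => h (Subtype.ext e)
    rw [if_pos h, if_pos h', gsub, gmap_of]
    congr 1
    exact Perm.ofSubtype_swap_eq a b

theorem fd_jm_eq (j₀ : κ) : jm j₀ = ∑ a : {j // j ≠ j₀}, fd_F a.1 j₀ := by
  rw [jm, Fintype.sum_eq_add_sum_subtype_ne _ j₀, if_neg (by simp), zero_add]
  rfl

theorem fd_F_comm (a b : κ) : fd_F a b = fd_F b a := by
  unfold fd_F
  by_cases h : a = b
  · subst h
    rfl
  · rw [if_pos h, if_pos (Ne.symm h), swap_comm]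

theorem fd_F_self (a : κ) : fd_F a a = 0 := by
  unfold fd_F
  simp

theorem jm_eq (j₀ : κ) : jm j₀ = tsum κ - gsub j₀ (tsum {j // j ≠ j₀}) := by
  rw [fd_gsub_tsum, fd_tsum_eq, ← smul_sub]
  have h1 : ∑ a : κ, ∑ b : κ, fd_F a b
      = (jm j₀ + jm j₀) + ∑ a : {j // j ≠ j₀}, ∑ b : {j // j ≠ j₀}, fd_F a.1 b.1 := by
    rw [Fintype.sum_eq_add_sum_subtype_ne _ j₀, Fintype.sum_eq_add_sum_subtype_ne _ j₀,
      fd_F_self, zero_add]
    have h2 : ∀ a : {j // j ≠ j₀}, ∑ b : κ, fd_F a.1 b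
        = fd_F a.1 j₀ + ∑ b : {j // j ≠ j₀}, fd_F a.1 b.1 := fun a =>
      Fintype.sum_eq_add_sum_subtype_ne _ j₀
    rw [Finset.sum_congr rfl fun a _ => h2 a, Finset.sum_add_distrib, ← fd_jm_eq,
      Finset.sum_congr rfl fun (b : {j // j ≠ j₀}) _ => fd_F_comm j₀ b.1, ← fd_jm_eq, add_assoc]
  rw [h1, add_sub_cancel_right, ← two_smul ℂ, smul_smul]
  norm_num

theorem contentSum_sub (d : ℕ) (lam : Fin d → ℕ) (i : Fin d) (hi : 1 ≤ lam i) :
    contentSum lam - contentSum (subBox lam i) = (lam i : ℤ) - 1 - i := by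
  unfold contentSum
  rw [← Finset.sum_sub_distrib, Finset.sum_eq_single i]
  · rw [subBox, Function.update_self]
    obtain ⟨n, hn⟩ : ∃ n, lam i = n + 1 := ⟨lam i - 1, by omega⟩
    rw [hn, Nat.add_sub_cancel, Nat.choose_succ_succ' n 1, Nat.choose_one_right]
    push_cast
    ring
  · intro j _ hj
    rw [subBox, Function.update_of_ne hj, sub_self]
  · intro h
    exact absurd (Finset.mem_univ _) h

/-- **Jucys-Murphy eigenvalue** on a branch: the content `λ_i - 1 - i` (rows from `0`) -/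
theorem jm_mul_branch (d : ℕ) (lam : Fin d → ℕ) (hl : IsLab d (Fintype.card κ) lam) (j₀ : κ)
    (i : Fin d) (hi : Removable lam i) :
    jm j₀ * (idem (blk d lam) * gsub j₀ (idem (blk d (subBox lam i))))
      = (((lam i : ℤ) - 1 - i : ℤ) : ℂ) •
          (idem (blk d lam) * gsub j₀ (idem (blk d (subBox lam i)))) := by
  rw [jm_eq, sub_mul, ← mul_assoc, tsum_mul_idem_blk d lam hl, ← mul_assoc,
    ← idem_comm, mul_assoc, ← map_mul, tsum_mul_idem_blk d _ (fc_isLab d lam hl j₀ i hi),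
    map_smul, mul_smul_comm, smul_mul_assoc, ← sub_smul, ← contentSum_sub d lam i hi.1]
  push_cast
  rfl

end Claimed.Agent.R296.Rep
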