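import Claimed.Agent.R296.Rep.TensorA
import Claimed.Agent.R296.Rep.FrobD

/-!
# BB_Rep L2-B: the labelled blocks on tensor space (Schur-Weyl, character side)

* `schurC d κ lam x := (k!)⁻¹ ∑_π theta lam π * pfix π (x)` is the Schur polynomial.
* `schurC_mul_vdm`: `vdm_mul_pfix` + `theta_orth`.
* `trace_idem_blk_tpow`: `idem_coeff`, `chiG_blk`, `thetaSh_inv`, `trace_tU_mul_tpow_diagonal`.
* `weyl_dim`: principal specialisation.  In `ℤ[u]` (or `ℂ[u]`): `alt m (1, u, .., u^{d-1})` is a
  Vandermonde determinant in the `u^{m_i}`; divide `u^a - u^b = u^b (u - 1) [a-b]_u`, cancel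
  `(u-1)^{d(d-1)/2}` and put `u = 1`.
* `tRep_idem_eq_zero`: `trace (tRep (idem i)) = (d_i/k!) ∑_π χ_i(π⁻¹) pfix π (1^{|α|},0..)`; expand
  `pfix π (x) Δ(x) = ∑ theta lam π alt(..)(x)` ... simplest: for generic `x` (`Δ(x) ≠ 0`) the function
  `x ↦ trace (tRep (idem i) * tpow (diagonal x))` vanishes by `chiG_orth`; it is a polynomial, hence
  vanishes at `x = 1`; an idempotent (`map` of an idempotent) of trace `0` is `0`.
-/

set_option autoImplicit false

namespace Claimed.Agent.R296.Rep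

open Matrix Equiv MvPolynomial
open scoped ComplexOrder

variable {α : Type} [Fintype α] [DecidableEq α] (κ : Type) [Fintype κ] [DecidableEq κ]

noncomputable def schurC (d : ℕ) (lam : Fin d → ℕ) (x : Fin d → ℂ) : ℂ :=
  ((Fintype.card κ).factorial : ℂ)⁻¹ * ∑ π : Perm κ, (theta d lam π : ℂ) * aeval x (pfix d π)

variable {κ}

theorem tb_aeval_pfix (d : ℕ) (x : Fin d → ℂ) (π : Perm κ) :
    aeval x (pfix d π) = ∑ f : κ → Fin d, if f ∘ π = f then ∏ j, x (f j) else 0 := by
  simp only [pfix, map_sum]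
  refine Finset.sum_congr rfl fun f _ => ?_
  split_ifs <;> simp

theorem schurC_mul_vdm (d : ℕ) (lam : Fin d → ℕ) (hl : IsLab d (Fintype.card κ) lam)
    (x : Fin d → ℂ) : schurC κ d lam x * aeval x (vdm d) = aeval x (alt d (sh d lam)) := by
  have hk : ((Fintype.card κ).factorial : ℂ) ≠ 0 := by exact_mod_cast Nat.factorial_ne_zero _
  have h1 : ∀ π : Perm κ, aeval x (pfix d π) * aeval x (vdm d)
      = ∑ mu ∈ labels d (Fintype.card κ), (theta d mu π : ℂ) * aeval x (alt d (sh d mu)) := by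
    intro π
    rw [← map_mul, mul_comm, vdm_mul_pfix, map_sum]
    refine Finset.sum_congr rfl fun mu _ => ?_
    rw [zsmul_eq_mul, map_mul]
    simp
  unfold schurC
  rw [mul_assoc, Finset.sum_mul]
  have h0 : ∑ π : Perm κ, (theta d lam π : ℂ) * aeval x (pfix d π) * aeval x (vdm d)
      = ∑ mu ∈ labels d (Fintype.card κ), ∑ π : Perm κ,
          (theta d lam π : ℂ) * ((theta d mu π : ℂ) * aeval x (alt d (sh d mu))) := by
    simp_rw [mul_assoc, h1, Finset.mul_sum]
    rw [Finset.sum_comm]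
  rw [h0]
  have h2 : ∀ mu ∈ labels d (Fintype.card κ),
      ∑ π : Perm κ, (theta d lam π : ℂ) * ((theta d mu π : ℂ) * aeval x (alt d (sh d mu)))
        = if lam = mu then ((Fintype.card κ).factorial : ℂ) * aeval x (alt d (sh d mu)) else 0 := by
    intro mu hmu
    have := theta_orth (κ := κ) d lam mu hl (mem_labels.1 hmu).1
    have h3 : ∑ π : Perm κ, (theta d lam π : ℂ) * (theta d mu π : ℂ)
        = if lam = mu then ((Fintype.card κ).factorial : ℂ) else 0 := by
      have := congrArg (fun z : ℤ => (z : ℂ)) this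
      push_cast at this
      rw [this]
    simp_rw [← mul_assoc]
    rw [← Finset.sum_mul, h3]
    split_ifs <;> simp
  rw [Finset.sum_congr rfl h2, Finset.sum_ite_eq, if_pos (mem_labels.2 hl), ← mul_assoc,
    inv_mul_cancel₀ hk, one_mul]

theorem schurC_homogeneous (d : ℕ) (lam : Fin d → ℕ) (c : ℂ) (x : Fin d → ℂ) :
    schurC κ d lam (fun i => c * x i) = c ^ Fintype.card κ * schurC κ d lam x := by
  have h : ∀ π : Perm κ, aeval (fun i => c * x i) (pfix d π)
      = c ^ Fintype.card κ * aeval x (pfix d π) := by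
    intro π
    rw [tb_aeval_pfix, tb_aeval_pfix, Finset.mul_sum]
    refine Finset.sum_congr rfl fun f _ => ?_
    split_ifs
    · rw [Finset.prod_mul_distrib]; simp
    · simp
  unfold schurC
  simp_rw [h]
  rw [Finset.mul_sum, Finset.mul_sum, Finset.mul_sum]
  refine Finset.sum_congr rfl fun π _ => ?_
  ring


theorem tb_theta_inv (d : ℕ) (lam : Fin d → ℕ) (π : Perm κ) : theta d lam π⁻¹ = theta d lam π :=
  thetaSh_inv d _ π

/-- trace of a group algebra element against a diagonal tensor power -/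
theorem trace_tRep_mul_tpow_diagonal (d : ℕ) (a : GA (Perm κ)) (x : Fin d → ℂ) :
    trace (tRep (Fin d) κ a * tpow κ (diagonal x)) = ∑ π, a.coeff π * aeval x (pfix d π) := by
  unfold tRep
  rw [repAlg_eq_sum, Finset.sum_mul, trace_sum]
  refine Finset.sum_congr rfl fun π _ => ?_
  rw [smul_mul_assoc, trace_smul, trace_tU_mul_tpow_diagonal, smul_eq_mul]

theorem trace_idem_blk_tpow (d : ℕ) (lam : Fin d → ℕ) (hl : IsLab d (Fintype.card κ) lam)
    (x : Fin d → ℂ) :
    trace (tRep (Fin d) κ (idem (blk d lam)) * tpow κ (diagonal x))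
      = (dimI (blk d lam : Irr (Perm κ)) : ℂ) * schurC κ d lam x := by
  rw [trace_tRep_mul_tpow_diagonal]
  unfold schurC
  rw [Finset.mul_sum, Finset.mul_sum]
  refine Finset.sum_congr rfl fun π _ => ?_
  rw [idem_coeff, chiG_blk d lam hl, tb_theta_inv, Fintype.card_perm]
  ring

theorem tb_aeval_vdm (d : ℕ) (x : Fin d → ℂ) :
    aeval x (vdm d) = ∏ i : Fin d, ∏ j ∈ Finset.Ioi i, (x i - x j) := by
  simp [vdm, map_prod]

theorem tb_aeval_alt (d : ℕ) (m : Fin d → ℕ) (x : Fin d → ℂ) :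
    aeval x (alt d m) = ∑ w : Perm (Fin d), ((Perm.sign w : ℤ) : ℂ) * ∏ i, x (w i) ^ m i := by
  simp [alt, map_sum, map_prod, zsmul_eq_mul]

/-- principal specialisation of an alternant -/
theorem tb_aeval_alt_principal (d : ℕ) (m : Fin d → ℕ) (u : ℂ) :
    aeval (fun j : Fin d => u ^ (j : ℕ)) (alt d m)
      = ∏ i : Fin d, ∏ j ∈ Finset.Ioi i, (u ^ m j - u ^ m i) := by
  rw [tb_aeval_alt, ← Matrix.det_vandermonde, ← Matrix.det_transpose, Matrix.det_apply]
  refine Finset.sum_congr rfl fun w _ => ?_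
  rw [Units.smul_def, zsmul_eq_mul]
  congr 1
  refine Finset.prod_congr rfl fun i _ => ?_
  simp [Matrix.vandermonde_apply, Matrix.transpose_apply, ← pow_mul, mul_comm]


theorem continuous_schurC_principal (d : ℕ) (lam : Fin d → ℕ) :
    Continuous fun u : ℂ => schurC κ d lam (fun j : Fin d => u ^ (j : ℕ)) := by
  unfold schurC
  simp_rw [tb_aeval_pfix]
  refine continuous_const.mul (continuous_finsetSum _ fun π _ => continuous_const.mul
    (continuous_finsetSum _ fun f _ => ?_))
  split_ifs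
  · fun_prop
  · fun_prop

/-- **Weyl dimension formula** -/
theorem weyl_dim (d : ℕ) (lam : Fin d → ℕ) (hl : IsLab d (Fintype.card κ) lam) :
    schurC κ d lam (fun _ => 1)
      = ∏ i : Fin d, ∏ j ∈ Finset.Ioi i, (((sh d lam i : ℂ) - sh d lam j) / ((j : ℂ) - i)) := by
  have hanti : StrictAnti (sh d lam) := sh_strictAnti d lam hl.1
  set l := sh d lam with hldef
  let G : ℕ → ℂ → ℂ := fun n u => ∑ m ∈ Finset.range n, u ^ m
  have hG : ∀ n u, G n u * (1 - u) = 1 - u ^ n := fun n u => geom_sum_mul_neg u n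
  have hGc : ∀ n, Continuous (G n) := fun n => by
    show Continuous fun u : ℂ => ∑ m ∈ Finset.range n, u ^ m
    fun_prop
  let F : ℂ → ℂ := fun u => schurC κ d lam (fun j : Fin d => u ^ (j : ℕ))
  have hmain : ∀ u : ℂ, u ∈ ({1}ᶜ : Set ℂ) →
      F u * ∏ i : Fin d, ∏ j ∈ Finset.Ioi i, (u ^ (i : ℕ) * G ((j : ℕ) - i) u)
        = ∏ i : Fin d, ∏ j ∈ Finset.Ioi i, (u ^ l j * G (l i - l j) u) := by
    intro u hu
    have hu1 : (1 : ℂ) - u ≠ 0 := by
      intro h
      exact hu (by simp [sub_eq_zero.1 h |>.symm])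
    have h0 := schurC_mul_vdm (κ := κ) d lam hl (fun j : Fin d => u ^ (j : ℕ))
    rw [tb_aeval_vdm, tb_aeval_alt_principal] at h0
    have e1 : ∏ i : Fin d, ∏ j ∈ Finset.Ioi i, (u ^ (i : ℕ) - u ^ (j : ℕ))
        = (∏ i : Fin d, ∏ j ∈ Finset.Ioi i, (u ^ (i : ℕ) * G ((j : ℕ) - i) u))
          * ∏ i : Fin d, ∏ j ∈ Finset.Ioi i, (1 - u) := by
      rw [← Finset.prod_mul_distrib]
      refine Finset.prod_congr rfl fun i _ => ?_
      rw [← Finset.prod_mul_distrib]
      refine Finset.prod_congr rfl fun j hj => ?_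
      have hij : (i : ℕ) ≤ j := le_of_lt (Fin.lt_def.1 (Finset.mem_Ioi.1 hj))
      rw [mul_assoc, hG, mul_sub, mul_one, ← pow_add, Nat.add_sub_cancel' hij]
    have e2 : ∏ i : Fin d, ∏ j ∈ Finset.Ioi i, (u ^ l j - u ^ l i)
        = (∏ i : Fin d, ∏ j ∈ Finset.Ioi i, (u ^ l j * G (l i - l j) u))
          * ∏ i : Fin d, ∏ j ∈ Finset.Ioi i, (1 - u) := by
      rw [← Finset.prod_mul_distrib]
      refine Finset.prod_congr rfl fun i _ => ?_
      rw [← Finset.prod_mul_distrib]
      refine Finset.prod_congr rfl fun j hj => ?_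
      have hij : l j ≤ l i := le_of_lt (hanti (Finset.mem_Ioi.1 hj))
      rw [mul_assoc, hG, mul_sub, mul_one, ← pow_add, Nat.add_sub_cancel' hij]
    rw [e1, e2, ← mul_assoc] at h0
    refine mul_right_cancel₀ ?_ h0
    exact Finset.prod_ne_zero_iff.2 fun i _ => Finset.prod_ne_zero_iff.2 fun j _ => hu1
  have hcL : Continuous fun u : ℂ =>
      F u * ∏ i : Fin d, ∏ j ∈ Finset.Ioi i, (u ^ (i : ℕ) * G ((j : ℕ) - i) u) := by
    refine (continuous_schurC_principal d lam).mul (continuous_finsetProd _ fun i _ =>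
      continuous_finsetProd _ fun j _ => (continuous_pow _).mul (hGc _))
  have hcR : Continuous fun u : ℂ =>
      ∏ i : Fin d, ∏ j ∈ Finset.Ioi i, (u ^ l j * G (l i - l j) u) := by
    refine continuous_finsetProd _ fun i _ =>
      continuous_finsetProd _ fun j _ => (continuous_pow _).mul (hGc _)
  have hall := Continuous.ext_on (dense_compl_singleton (1 : ℂ)) hcL hcR hmain
  have h1 := congrFun hall 1
  have hG1 : ∀ n, G n 1 = n := fun n => by simp [G]
  simp only [F, one_pow, one_mul, hG1] at h1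
  have hden : (∏ i : Fin d, ∏ j ∈ Finset.Ioi i, ((j : ℂ) - i)) ≠ 0 := by
    refine Finset.prod_ne_zero_iff.2 fun i _ => Finset.prod_ne_zero_iff.2 fun j hj => ?_
    have hij : (i : ℕ) < j := Fin.lt_def.1 (Finset.mem_Ioi.1 hj)
    rw [sub_ne_zero]
    exact_mod_cast hij.ne'
  have e3 : ∏ i : Fin d, ∏ j ∈ Finset.Ioi i, (((j : ℕ) - (i : ℕ) : ℕ) : ℂ)
      = ∏ i : Fin d, ∏ j ∈ Finset.Ioi i, ((j : ℂ) - i) := by
    refine Finset.prod_congr rfl fun i _ => Finset.prod_congr rfl fun j hj => ?_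
    have hij : (i : ℕ) ≤ j := le_of_lt (Fin.lt_def.1 (Finset.mem_Ioi.1 hj))
    rw [Nat.cast_sub hij]
  have e4 : ∏ i : Fin d, ∏ j ∈ Finset.Ioi i, ((l i - l j : ℕ) : ℂ)
      = ∏ i : Fin d, ∏ j ∈ Finset.Ioi i, ((l i : ℂ) - l j) := by
    refine Finset.prod_congr rfl fun i _ => Finset.prod_congr rfl fun j hj => ?_
    have hij : l j ≤ l i := le_of_lt (hanti (Finset.mem_Ioi.1 hj))
    rw [Nat.cast_sub hij]
  rw [e3, e4] at h1
  simp_rw [Finset.prod_div_distrib]
  rw [eq_div_iff hden]
  exact h1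


/-- the Weyl dimension as a real number -/
theorem weyl_dim_real (d : ℕ) (lam : Fin d → ℕ) (hl : IsLab d (Fintype.card κ) lam) :
    schurC κ d lam (fun _ => 1)
      = ((∏ i : Fin d, ∏ j ∈ Finset.Ioi i,
          (((sh d lam i : ℝ) - sh d lam j) / ((j : ℝ) - i)) : ℝ) : ℂ) := by
  rw [weyl_dim d lam hl]
  push_cast
  rfl

theorem weyl_factor_pos (d : ℕ) (lam : Fin d → ℕ) (hl : Antitone lam) (i j : Fin d)
    (hj : j ∈ Finset.Ioi i) : 0 < ((sh d lam i : ℝ) - sh d lam j) / ((j : ℝ) - i) := by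
  have hij : i < j := Finset.mem_Ioi.1 hj
  have h1 : sh d lam j < sh d lam i := sh_strictAnti d lam hl hij
  have h2 : (i : ℕ) < j := Fin.lt_def.1 hij
  have h1' : (sh d lam j : ℝ) < sh d lam i := by exact_mod_cast h1
  have h2' : ((i : ℕ) : ℝ) < ((j : ℕ) : ℝ) := by exact_mod_cast h2
  exact div_pos (by linarith) (by linarith)

theorem weyl_dim_pos (d : ℕ) (lam : Fin d → ℕ) (hl : IsLab d (Fintype.card κ) lam) :
    0 < (schurC κ d lam (fun _ => 1)).re ∧ (schurC κ d lam (fun _ => 1)).im = 0 := by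
  rw [weyl_dim_real d lam hl]
  refine ⟨?_, Complex.ofReal_im _⟩
  rw [Complex.ofReal_re]
  exact Finset.prod_pos fun i _ => Finset.prod_pos fun j hj => weyl_factor_pos d lam hl.1 i j hj

theorem tb_sum_card_Ioi (d : ℕ) : ∑ i : Fin d, (Finset.Ioi i).card = d * (d - 1) / 2 := by
  have h := sum_sh d (fun _ => 0)
  simp only [Finset.sum_const_zero, zero_add] at h
  rw [← h]
  refine Finset.sum_congr rfl fun i _ => ?_
  simp [sh, stair, Fin.card_Ioi]

theorem weyl_dim_le (d : ℕ) (lam : Fin d → ℕ) (hl : IsLab d (Fintype.card κ) lam) :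
    (schurC κ d lam (fun _ => 1)).re ≤ ((Fintype.card κ + d : ℕ) : ℝ) ^ (d * (d - 1) / 2) := by
  rw [weyl_dim_real d lam hl, Complex.ofReal_re, ← tb_sum_card_Ioi d, ← Finset.prod_pow_eq_pow_sum]
  refine Finset.prod_le_prod (fun i _ => (Finset.prod_pos fun j hj =>
    weyl_factor_pos d lam hl.1 i j hj).le) fun i _ => ?_
  rw [← Finset.prod_const]
  refine Finset.prod_le_prod (fun j hj => (weyl_factor_pos d lam hl.1 i j hj).le) fun j hj => ?_
  have hij : i < j := Finset.mem_Ioi.1 hj
  have h2 : (i : ℕ) < j := Fin.lt_def.1 hij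
  have h2' : ((i : ℕ) : ℝ) + 1 ≤ ((j : ℕ) : ℝ) := by exact_mod_cast h2
  have h3 : lam i ≤ Fintype.card κ := by
    rw [← hl.2]
    exact Finset.single_le_sum (f := lam) (fun _ _ => Nat.zero_le _) (Finset.mem_univ i)
  have h4 : sh d lam i ≤ Fintype.card κ + d := by
    unfold sh stair
    omega
  have h4' : (sh d lam i : ℝ) ≤ ((Fintype.card κ + d : ℕ) : ℝ) := by exact_mod_cast h4
  have h5 : (0 : ℝ) ≤ sh d lam j := Nat.cast_nonneg _
  rw [div_le_iff₀ (by linarith)]
  have h6 : (0 : ℝ) ≤ ((Fintype.card κ + d : ℕ) : ℝ) := Nat.cast_nonneg _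
  nlinarith


theorem tb_map_vdm_ne_zero (d : ℕ) : map (Int.castRingHom ℂ) (vdm d) ≠ 0 := by
  simp only [vdm, map_prod, map_sub, map_X]
  refine Finset.prod_ne_zero_iff.2 fun i _ => Finset.prod_ne_zero_iff.2 fun j hj => ?_
  rw [sub_ne_zero]
  intro h
  have := MvPolynomial.X_injective (R := ℂ) h
  exact (Finset.mem_Ioi.1 hj).ne this

theorem tb_aeval_eq_eval_map_int (d : ℕ) (x : Fin d → ℂ) (p : MvPolynomial (Fin d) ℤ) :
    aeval x p = eval x (map (Int.castRingHom ℂ) p) := by
  rw [aeval_def, eval₂_eq_eval_map]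
  rfl

/-- a class-function combination of the `pfix π` orthogonal to all `theta mu` vanishes -/
theorem sum_coeff_aeval_pfix_eq_zero (d : ℕ) (c : Perm κ → ℂ)
    (hc : ∀ mu ∈ labels d (Fintype.card κ), ∑ π, c π * (theta d mu π : ℂ) = 0) (x : Fin d → ℂ) :
    ∑ π, c π * aeval x (pfix d π) = 0 := by
  let P : MvPolynomial (Fin d) ℂ := ∑ π, C (c π) * map (Int.castRingHom ℂ) (pfix d π)
  have hP : P * map (Int.castRingHom ℂ) (vdm d) = 0 := by
    have h1 : ∀ π : Perm κ, map (Int.castRingHom ℂ) (pfix d π) * map (Int.castRingHom ℂ) (vdm d)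
        = ∑ mu ∈ labels d (Fintype.card κ),
            C ((theta d mu π : ℂ)) * map (Int.castRingHom ℂ) (alt d (sh d mu)) := by
      intro π
      rw [← map_mul, mul_comm, vdm_mul_pfix, map_sum]
      refine Finset.sum_congr rfl fun mu _ => ?_
      rw [zsmul_eq_mul, map_mul]
      simp
    simp only [P, Finset.sum_mul, mul_assoc, h1, Finset.mul_sum]
    rw [Finset.sum_comm]
    refine Finset.sum_eq_zero fun mu hmu => ?_
    simp_rw [← mul_assoc, ← C_mul]
    rw [← Finset.sum_mul, ← map_sum, hc mu hmu]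
    simp
  have hP0 : P = 0 := (mul_eq_zero.1 hP).resolve_right (tb_map_vdm_ne_zero d)
  have := congrArg (eval x) hP0
  simpa [P, map_sum, tb_aeval_eq_eval_map_int] using this

/-- blocks with more than `d` rows do not occur in `(ℂ^α)^{⊗κ}`, `card α ≤ d` -/
theorem tRep_idem_eq_zero (d : ℕ) (hα : Fintype.card α ≤ d) (i : Irr (Perm κ))
    (hi : ¬ IsLabelled d i) : tRep α κ (idem i) = 0 := by
  obtain ⟨e⟩ : Nonempty (α ↪ Fin d) := by
    apply Function.Embedding.nonempty_of_card_le
    simpa using hα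
  classical
  let x : Fin d → ℂ := fun j => if j ∈ Set.range e then 1 else 0
  have hx1 : (diagonal fun a => x (e a)) = (1 : Matrix α α ℂ) := by
    have : (fun a => x (e a)) = fun _ => (1 : ℂ) := by
      funext a
      simp [x]
    rw [this, diagonal_one]
  have htr : trace (tRep α κ (idem i)) = 0 := by
    have h1 : trace (tRep α κ (idem i)) = ∑ π, (idem i).coeff π * aeval x (pfix d π) := by
      unfold tRep
      rw [repAlg_eq_sum, trace_sum]
      refine Finset.sum_congr rfl fun π _ => ?_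
      rw [trace_smul, smul_eq_mul,
        ← trace_tU_mul_tpow_diagonal' d e e.injective x (fun j hj => if_neg hj) π, hx1,
        tpow_one, mul_one]
    rw [h1]
    refine sum_coeff_aeval_pfix_eq_zero d _ (fun mu hmu => ?_) x
    have hmu' := mem_labels.1 hmu
    have hne : (blk d mu : Irr (Perm κ)) ≠ i := fun h => hi ⟨mu, hmu', h⟩
    have := chiG_orth (blk d mu : Irr (Perm κ)) i
    rw [if_neg hne] at this
    simp_rw [idem_coeff, ← chiG_blk d mu hmu']
    calc ∑ π : Perm κ, (dimI i : ℂ) / (Fintype.card (Perm κ)) * chiG i π⁻¹ * chiG (blk d mu) π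
        = (dimI i : ℂ) / (Fintype.card (Perm κ)) * ∑ π : Perm κ, chiG (blk d mu) π * chiG i π⁻¹ := by
          rw [Finset.mul_sum]
          refine Finset.sum_congr rfl fun π _ => by ring
      _ = 0 := by rw [this, mul_zero]
  refine idempotent_eq_zero_of_trace _ ?_ htr
  rw [← map_mul, idem_mul_idem, if_pos rfl]


theorem sum_tRep_idem_blk (d : ℕ) (hα : Fintype.card α ≤ d) :
    ∑ lam ∈ labels d (Fintype.card κ), tRep α κ (idem (blk d lam)) = 1 := by
  classical
  have h1 : ∑ i : Irr (Perm κ), tRep α κ (idem i) = 1 := by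
    rw [← map_sum, sum_idem, map_one]
  rw [← h1, ← Finset.sum_image (f := fun i => tRep α κ (idem i))
    (g := fun lam => (blk d lam : Irr (Perm κ)))]
  · refine Finset.sum_subset (Finset.subset_univ _) fun i _ hi => tRep_idem_eq_zero d hα i ?_
    rintro ⟨lam, hl, rfl⟩
    exact hi (Finset.mem_image_of_mem _ (mem_labels.2 hl))
  · intro a ha b hb h
    exact blk_injOn d a b (mem_labels.1 ha) (mem_labels.1 hb) h

theorem trace_tRep_idem_blk (d : ℕ) (lam : Fin d → ℕ) (hl : IsLab d (Fintype.card κ) lam) :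
    trace (tRep (Fin d) κ (idem (blk d lam)))
      = (dimI (blk d lam : Irr (Perm κ)) : ℂ) * schurC κ d lam (fun _ => 1) := by
  have := trace_idem_blk_tpow (κ := κ) d lam hl (fun _ => 1)
  rwa [diagonal_one, tpow_one, mul_one] at this

/-- every label occurs in dimension `d` -/
theorem tRep_idem_blk_ne_zero (d : ℕ) (lam : Fin d → ℕ) (hl : IsLab d (Fintype.card κ) lam) :
    tRep (Fin d) κ (idem (blk d lam)) ≠ 0 := by
  intro h
  have h1 := trace_tRep_idem_blk (κ := κ) d lam hl
  rw [h, trace_zero] at h1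
  have h2 := (weyl_dim_pos (κ := κ) d lam hl).1
  have h3 : (dimI (blk d lam : Irr (Perm κ)) : ℂ) ≠ 0 := by
    exact_mod_cast (dimI_pos _).ne'
  rcases mul_eq_zero.1 h1.symm with h4 | h4
  · exact h3 h4
  · rw [h4] at h2
    simp at h2

theorem card_labels_le (d k : ℕ) : (labels d k).card ≤ (k + 1) ^ d := by
  classical
  have hsub : labels d k ⊆ Fintype.piFinset fun _ : Fin d => Finset.range (k + 1) := by
    intro lam hlam
    have hl := mem_labels.1 hlam
    rw [Fintype.mem_piFinset]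
    intro i
    rw [Finset.mem_range, Nat.lt_succ_iff, ← hl.2]
    exact Finset.single_le_sum (f := lam) (fun _ _ => Nat.zero_le _) (Finset.mem_univ i)
  refine (Finset.card_le_card hsub).trans ?_
  simp

theorem tRep_idem_posSemidef (i : Irr (Perm κ)) : (tRep α κ (idem i)).PosSemidef :=
  repAlg_idem_posSemidef (tU α κ) (fun π => tU_conjTranspose π) i

/-- the trace of a block decreases under restriction of the one-copy basis -/
theorem trace_tRep_idem_le_of_injective {β : Type} [Fintype β] [DecidableEq β] (e : α → β)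
    (he : Function.Injective e) (i : Irr (Perm κ)) :
    (trace (tRep α κ (idem i))).re ≤ (trace (tRep β κ (idem i))).re := by
  classical
  rw [← tRep_submatrix e he]
  simp only [trace, diag_apply, submatrix_apply, Complex.re_sum]
  have hinj : Function.Injective fun f : κ → α => e ∘ f := fun f g h => by
    funext j
    exact he (congrFun h j)
  rw [← Finset.sum_image (f := fun g : κ → β => (tRep β κ (idem i) g g).re)
    (g := fun f : κ → α => e ∘ f) (fun a _ b _ h => hinj h)]
  refine Finset.sum_le_sum_of_subset_of_nonneg (Finset.subset_univ _) fun g _ _ => ?_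
  have := (tRep_idem_posSemidef (α := β) i).diag_nonneg (i := g)
  exact (Complex.le_def.1 this).1

/-- polynomial bound on the general-linear multiplicities -/
theorem trace_tRep_idem_blk_le (d : ℕ) (hα : Fintype.card α ≤ d) (lam : Fin d → ℕ)
    (hl : IsLab d (Fintype.card κ) lam) :
    (trace (tRep α κ (idem (blk d lam)))).re
      ≤ dimI (blk d lam : Irr (Perm κ)) * ((Fintype.card κ + d : ℕ) : ℝ) ^ (d * (d - 1) / 2) := by
  obtain ⟨e⟩ : Nonempty (α ↪ Fin d) := by
    apply Function.Embedding.nonempty_of_card_le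
    simpa using hα
  refine (trace_tRep_idem_le_of_injective e e.injective _).trans ?_
  rw [trace_tRep_idem_blk d lam hl, Complex.mul_re, Complex.natCast_re, Complex.natCast_im,
    zero_mul, sub_zero]
  exact mul_le_mul_of_nonneg_left (weyl_dim_le d lam hl) (Nat.cast_nonneg _)

/-- a Specht dimension occurring in `(ℂ^α)^{⊗κ}` is at most `(card α)^k` -/
theorem dimI_le_card_pow (i : Irr (Perm κ)) (hi : tRep α κ (idem i) ≠ 0) :
    dimI i ≤ Fintype.card α ^ Fintype.card κ := by
  have hP : tRep α κ (idem i) * tRep α κ (idem i) = tRep α κ (idem i) := by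
    rw [← map_mul, idem_mul_idem, if_pos rfl]
  have h1 := dimI_le_trace (tRep α κ) (tRep α κ (idem i)) hP
    (fun a => by rw [← map_mul, ← map_mul, idem_comm]) i hP hi
  obtain ⟨m, hm⟩ := trace_idempotent_nat _ hP
  have h2 := trace_idempotent_le _ hP m hm
  rw [hm] at h1
  simp only [Complex.natCast_re] at h1
  have h3 : dimI i ≤ m := by exact_mod_cast h1
  refine h3.trans (h2.trans ?_)
  simp

/-- the same bound for an arbitrary block -/
theorem trace_tRep_idem_le (d : ℕ) (hα : Fintype.card α ≤ d) (i : Irr (Perm κ)) :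
    (trace (tRep α κ (idem i))).re
      ≤ dimI i * ((Fintype.card κ + d : ℕ) : ℝ) ^ (d * (d - 1) / 2) := by
  by_cases hi : IsLabelled d i
  · obtain ⟨lam, hl, rfl⟩ := hi
    exact trace_tRep_idem_blk_le d hα lam hl
  · rw [tRep_idem_eq_zero d hα i hi, trace_zero, Complex.zero_re]
    positivity

open Classical in
/-- the number of blocks occurring in `(ℂ^α)^{⊗κ}` is polynomial in `k` -/
theorem card_occurring_le (d : ℕ) (hα : Fintype.card α ≤ d) :
    (Finset.univ.filter fun i : Irr (Perm κ) => tRep α κ (idem i) ≠ 0).card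
      ≤ (Fintype.card κ + 1) ^ d := by
  refine le_trans ?_ (card_labels_le d (Fintype.card κ))
  refine le_trans (Finset.card_le_card ?_) (Finset.card_image_le
    (s := labels d (Fintype.card κ)) (f := fun lam => (blk d lam : Irr (Perm κ))))
  intro i hi
  rw [Finset.mem_filter] at hi
  by_contra hcon
  refine hi.2 (tRep_idem_eq_zero d hα i ?_)
  rintro ⟨lam, hl, rfl⟩
  exact hcon (Finset.mem_image_of_mem _ (mem_labels.2 hl))

end Claimed.Agent.R296.Rep
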