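import Claimed.Agent.R296.Rep.TensorB

/-!
# BB_Rep: merge moments (replicas:merge-moment), (comparator:merge-moments)

Owner: helper116.  Prefix `mg_` for auxiliary lemmas.

* `kronMult_le_mult`  : if `i` occurs in `(ℂ^α)^{⊗κ}` and `j` occurs in `(ℂ^β)^{⊗κ}`, the Kronecker
                        multiplicity `g_{ijl}` is at most the multiplicity of `l` in `(ℂ^{α×β})^{⊗κ}`;
* `sum_kronMult_le`   : `∑_l g_{ijl} ≤ (k+1)^d (k+d)^{d(d-1)/2}`, `card α * card β ≤ d`;
* `merge_quad`        : `⟨v, π¹_i π²_j π¹²_l v⟩ = ⟨v, π¹_i π²_j v⟩ g_{ijl} d_l / (d_i d_j)` for a vector whose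
                        form `(a,b) ↦ ⟨v, U₁(a) U₂(b) v⟩` is tracial in both arguments;
* `merge_moment`      : `∑_{ijl} (d_i d_j / d_l)^b ⟨v, π¹_i π²_j π¹²_l v⟩ ≤ K ‖v‖²`, `0 ≤ b ≤ 1`.
-/

set_option autoImplicit false
set_option linter.unusedSectionVars false

namespace Claimed.Agent.R296.Rep

open Matrix Equiv
open scoped Kronecker ComplexOrder

section Kron

variable {κ : Type} [Fintype κ] [DecidableEq κ] {α β : Type} [Fintype α] [DecidableEq α]
  [Fintype β] [DecidableEq β]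

/-- `π ↦ U_α(π) ⊗ 1` -/
def mgU1 (α β κ : Type) [Fintype κ] [DecidableEq κ] [Fintype α] [DecidableEq α] [Fintype β]
    [DecidableEq β] : Perm κ →* Matrix ((κ → α) × (κ → β)) ((κ → α) × (κ → β)) ℂ where
  toFun π := tU α κ π ⊗ₖ (1 : Matrix (κ → β) (κ → β) ℂ)
  map_one' := by rw [map_one, kroneckerMap_one_one _ (fun _ => zero_mul _) (fun _ => mul_zero _) (one_mul _)]
  map_mul' π σ := by rw [map_mul, ← mul_kronecker_mul, Matrix.one_mul]

/-- `π ↦ 1 ⊗ U_β(π)` -/
def mgU2 (α β κ : Type) [Fintype κ] [DecidableEq κ] [Fintype α] [DecidableEq α] [Fintype β]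
    [DecidableEq β] : Perm κ →* Matrix ((κ → α) × (κ → β)) ((κ → α) × (κ → β)) ℂ where
  toFun π := (1 : Matrix (κ → α) (κ → α) ℂ) ⊗ₖ tU β κ π
  map_one' := by rw [map_one, kroneckerMap_one_one _ (fun _ => zero_mul _) (fun _ => mul_zero _) (one_mul _)]
  map_mul' π σ := by rw [map_mul, ← mul_kronecker_mul, Matrix.one_mul]

theorem mg_comm (g h : Perm κ) : mgU1 α β κ g * mgU2 α β κ h = mgU2 α β κ h * mgU1 α β κ g := by
  show tU α κ g ⊗ₖ (1 : Matrix (κ → β) (κ → β) ℂ) * ((1 : Matrix (κ → α) (κ → α) ℂ) ⊗ₖ tU β κ h)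
    = ((1 : Matrix (κ → α) (κ → α) ℂ) ⊗ₖ tU β κ h) * (tU α κ g ⊗ₖ (1 : Matrix (κ → β) (κ → β) ℂ))
  rw [← mul_kronecker_mul, ← mul_kronecker_mul, Matrix.one_mul, Matrix.one_mul, Matrix.mul_one,
    Matrix.mul_one]

theorem mg_repAlg_U1 (a : GA (Perm κ)) :
    repAlg (mgU1 α β κ) a = tRep α κ a ⊗ₖ (1 : Matrix (κ → β) (κ → β) ℂ) := by
  have h1 : tRep α κ a = ∑ σ, a.coeff σ • tU α κ σ := repAlg_eq_sum (tU α κ) a
  rw [repAlg_eq_sum, h1]
  ext p q
  simp only [Matrix.sum_apply, Matrix.smul_apply, kroneckerMap_apply, Finset.sum_mul, smul_eq_mul]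
  refine Finset.sum_congr rfl fun σ _ => ?_
  show a.coeff σ * (tU α κ σ p.1 q.1 * (1 : Matrix (κ → β) (κ → β) ℂ) p.2 q.2) = _
  ring

theorem mg_repAlg_U2 (a : GA (Perm κ)) :
    repAlg (mgU2 α β κ) a = (1 : Matrix (κ → α) (κ → α) ℂ) ⊗ₖ tRep β κ a := by
  have h1 : tRep β κ a = ∑ σ, a.coeff σ • tU β κ σ := repAlg_eq_sum (tU β κ) a
  rw [repAlg_eq_sum, h1]
  ext p q
  simp only [Matrix.sum_apply, Matrix.smul_apply, kroneckerMap_apply, Finset.mul_sum, smul_eq_mul]
  refine Finset.sum_congr rfl fun σ _ => ?_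
  show a.coeff σ * ((1 : Matrix (κ → α) (κ → α) ℂ) p.1 q.1 * tU β κ σ p.2 q.2) = _
  ring

theorem mg_trace_tU_prod (π : Perm κ) :
    trace (tU (α × β) κ π) = trace (tU α κ π) * trace (tU β κ π) := by
  simp only [trace, diag_apply, tU_apply]
  rw [Finset.sum_mul_sum, ← Finset.sum_product']
  refine Fintype.sum_equiv (Equiv.arrowProdEquivProdArrow κ (fun _ => α) (fun _ => β)) _ _ fun f => ?_
  have h : f ∘ π = f ↔ ((fun j => (f j).1) ∘ π = fun j => (f j).1)
      ∧ ((fun j => (f j).2) ∘ π = fun j => (f j).2) := by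
    constructor
    · intro h
      exact ⟨funext fun j => congrArg Prod.fst (congrFun h j),
        funext fun j => congrArg Prod.snd (congrFun h j)⟩
    · rintro ⟨h1, h2⟩
      funext j
      exact Prod.ext (congrFun h1 j) (congrFun h2 j)
  show (if f ∘ π = f then (1 : ℂ) else 0)
    = (if (fun j => (f j).1) ∘ π = (fun j => (f j).1) then (1 : ℂ) else 0)
      * (if (fun j => (f j).2) ∘ π = (fun j => (f j).2) then (1 : ℂ) else 0)
  by_cases h1 : (fun j => (f j).1) ∘ π = fun j => (f j).1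
  · by_cases h2 : (fun j => (f j).2) ∘ π = fun j => (f j).2
    · rw [if_pos (h.2 ⟨h1, h2⟩), if_pos h1, if_pos h2, mul_one]
    · rw [if_neg (fun hh => h2 (h.1 hh).2), if_neg h2, mul_zero]
  · rw [if_neg (fun hh => h1 (h.1 hh).1), if_neg h1, zero_mul]

theorem mg_trace_mulRep (a : GA (Perm κ)) :
    trace (repAlg (mulRep (mgU1 α β κ) (mgU2 α β κ) mg_comm) a) = trace (tRep (α × β) κ a) := by
  have h1 : tRep (α × β) κ a = ∑ σ, a.coeff σ • tU (α × β) κ σ := repAlg_eq_sum _ a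
  rw [repAlg_eq_sum, h1, trace_sum, trace_sum]
  refine Finset.sum_congr rfl fun σ _ => ?_
  rw [trace_smul, trace_smul, mulRep_apply, mg_trace_tU_prod]
  congr 1
  show trace (tU α κ σ ⊗ₖ (1 : Matrix (κ → β) (κ → β) ℂ)
    * ((1 : Matrix (κ → α) (κ → α) ℂ) ⊗ₖ tU β κ σ)) = _
  rw [← mul_kronecker_mul, Matrix.mul_one, Matrix.one_mul, trace_kronecker]

theorem mg_dimI_le_trace (i : Irr (Perm κ)) (hi : tRep α κ (idem i) ≠ 0) :
    (dimI i : ℝ) ≤ (trace (tRep α κ (idem i))).re := by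
  have hP : tRep α κ (idem i) * tRep α κ (idem i) = tRep α κ (idem i) := by
    rw [← map_mul, idem_mul_idem, if_pos rfl]
  exact dimI_le_trace (tRep α κ) (tRep α κ (idem i)) hP
    (fun a => by rw [← map_mul, ← map_mul, idem_comm]) i hP hi

theorem mg_trace_idem_real (i : Irr (Perm κ)) :
    trace (tRep α κ (idem i)) = (((trace (tRep α κ (idem i))).re : ℝ) : ℂ) := by
  have hP : tRep α κ (idem i) * tRep α κ (idem i) = tRep α κ (idem i) := by
    rw [← map_mul, idem_mul_idem, if_pos rfl]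
  obtain ⟨m, hm⟩ := trace_idempotent_nat _ hP
  rw [hm]
  simp

/-- Kronecker multiplicities of blocks occurring in small dimensions -/
theorem kronMult_le_mult (i j l : Irr (Perm κ)) (hi : tRep α κ (idem i) ≠ 0)
    (hj : tRep β κ (idem j) ≠ 0) :
    (kronMult i j l).re ≤ (trace (tRep (α × β) κ (idem l))).re / dimI l := by
  have h := kronMult_le (mgU1 α β κ) (mgU2 α β κ) mg_comm i j l
  rw [mg_trace_mulRep, mg_repAlg_U1, mg_repAlg_U2, ← mul_kronecker_mul, Matrix.mul_one,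
    Matrix.one_mul, trace_kronecker, mg_trace_idem_real (α := α) i, mg_trace_idem_real (α := β) j,
    ← Complex.ofReal_mul, Complex.ofReal_re] at h
  refine le_trans ?_ h
  obtain ⟨m, hm⟩ := kronMult_nat i j l
  have hg : 0 ≤ (kronMult i j l).re := by rw [hm]; simp
  have hdi : (0 : ℝ) < dimI i := by exact_mod_cast dimI_pos i
  have hdj : (0 : ℝ) < dimI j := by exact_mod_cast dimI_pos j
  have h1 := mg_dimI_le_trace (α := α) i hi
  have h2 := mg_dimI_le_trace (α := β) j hj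
  rw [le_div_iff₀ (mul_pos hdi hdj)]
  exact mul_le_mul_of_nonneg_left (mul_le_mul h1 h2 hdj.le (hdi.le.trans h1)) hg

/-- the sum of the Kronecker multiplicities is polynomial in `k` -/
theorem sum_kronMult_le (d : ℕ) (hd : Fintype.card α * Fintype.card β ≤ d) (i j : Irr (Perm κ))
    (hi : tRep α κ (idem i) ≠ 0) (hj : tRep β κ (idem j) ≠ 0) :
    ∑ l, (kronMult i j l).re
      ≤ ((Fintype.card κ : ℝ) + 1) ^ d * ((Fintype.card κ : ℝ) + d) ^ (d * (d - 1) / 2) := by
  classical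
  have hαβ : Fintype.card (α × β) ≤ d := by rwa [Fintype.card_prod]
  set M : ℝ := ((Fintype.card κ : ℝ) + d) ^ (d * (d - 1) / 2) with hM
  have hM0 : 0 ≤ M := by positivity
  have hb : ∀ l : Irr (Perm κ), (kronMult i j l).re
      ≤ if tRep (α × β) κ (idem l) ≠ 0 then M else 0 := by
    intro l
    have hdl : (0 : ℝ) < dimI l := by exact_mod_cast dimI_pos l
    refine (kronMult_le_mult (α := α) (β := β) i j l hi hj).trans ?_
    split_ifs with h0
    · rw [div_le_iff₀ hdl, mul_comm]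
      have := trace_tRep_idem_le (α := α × β) d hαβ l
      simpa [hM] using this
    · rw [not_not] at h0
      rw [h0, trace_zero, Complex.zero_re, zero_div]
  refine (Finset.sum_le_sum fun l _ => hb l).trans ?_
  rw [← Finset.sum_filter, Finset.sum_const, nsmul_eq_mul]
  refine mul_le_mul_of_nonneg_right ?_ hM0
  have := card_occurring_le (α := α × β) (κ := κ) d hαβ
  exact_mod_cast this

end Kron

section Abstract

variable {G : Type} [Group G] [Fintype G] {n : Type} [Fintype n] [DecidableEq n]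

/-- the form `(a, b) ↦ ⟨v, U₁(a) U₂(b) v⟩` -/
noncomputable def mgForm (U₁ U₂ : G →* Matrix n n ℂ) (v : n → ℂ) : GA G →ₗ[ℂ] GA G →ₗ[ℂ] ℂ :=
  LinearMap.mk₂ ℂ (fun a b => star v ⬝ᵥ ((repAlg U₁ a * repAlg U₂ b) *ᵥ v))
    (fun a a' b => by rw [map_add, Matrix.add_mul, Matrix.add_mulVec, dotProduct_add])
    (fun c a b => by rw [map_smul, Matrix.smul_mul, Matrix.smul_mulVec, dotProduct_smul])
    (fun a b b' => by rw [map_add, Matrix.mul_add, Matrix.add_mulVec, dotProduct_add])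
    (fun c a b => by rw [map_smul, Matrix.mul_smul, Matrix.smul_mulVec, dotProduct_smul])

theorem mgForm_apply (U₁ U₂ : G →* Matrix n n ℂ) (v : n → ℂ) (a b : GA G) :
    mgForm U₁ U₂ v a b = star v ⬝ᵥ ((repAlg U₁ a * repAlg U₂ b) *ᵥ v) := rfl

/-- conditional law of the merged label -/
theorem merge_quad (U₁ U₂ : G →* Matrix n n ℂ) (hc : ∀ g h, U₁ g * U₂ h = U₂ h * U₁ g)
    (v : n → ℂ)
    (h1 : ∀ a a' b, mgForm U₁ U₂ v (a * a') b = mgForm U₁ U₂ v (a' * a) b)
    (h2 : ∀ a b b', mgForm U₁ U₂ v a (b * b') = mgForm U₁ U₂ v a (b' * b)) (i j l : Irr G) :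
    star v ⬝ᵥ ((repAlg U₁ (idem i) * repAlg U₂ (idem j) * repAlg (mulRep U₁ U₂ hc) (idem l)) *ᵥ v)
      = mgForm U₁ U₂ v (idem i) (idem j) * (kronMult i j l * dimI l / ((dimI i : ℂ) * dimI j)) := by
  rw [← bitracial_merge (mgForm U₁ U₂ v) h1 h2 i j l, repAlg_eq_sum (mulRep U₁ U₂ hc),
    Finset.mul_sum, Matrix.sum_mulVec, dotProduct_sum]
  refine Finset.sum_congr rfl fun g _ => ?_
  rw [Matrix.mul_smul, Matrix.smul_mulVec, dotProduct_smul, smul_eq_mul, mgForm_apply, map_mul,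
    map_mul, repAlg_of, repAlg_of, mulRep_apply]
  congr 3
  have hcomm : repAlg U₂ (idem j) * U₁ g = U₁ g * repAlg U₂ (idem j) := by
    have := repAlg_commute U₁ U₂ hc (MonoidAlgebra.of ℂ G g) (idem j)
    rw [repAlg_of] at this
    exact this.symm
  calc repAlg U₁ (idem i) * repAlg U₂ (idem j) * (U₁ g * U₂ g)
      = repAlg U₁ (idem i) * (repAlg U₂ (idem j) * U₁ g) * U₂ g := by simp only [Matrix.mul_assoc]
    _ = repAlg U₁ (idem i) * U₁ g * (repAlg U₂ (idem j) * U₂ g) := by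
        rw [hcomm]; simp only [Matrix.mul_assoc]

theorem mg_pair_posSemidef (U₁ U₂ : G →* Matrix n n ℂ) (hU₁ : ∀ g, (U₁ g)ᴴ = U₁ g⁻¹)
    (hU₂ : ∀ g, (U₂ g)ᴴ = U₂ g⁻¹) (hc : ∀ g h, U₁ g * U₂ h = U₂ h * U₁ g) (i j : Irr G) :
    (repAlg U₁ (idem i) * repAlg U₂ (idem j)).PosSemidef := by
  set P := repAlg U₁ (idem i) * repAlg U₂ (idem j) with hP
  have hH : Pᴴ = P := by
    rw [hP, conjTranspose_mul, (repAlg_idem_isHermitian U₁ hU₁ i).eq,
      (repAlg_idem_isHermitian U₂ hU₂ j).eq, repAlg_commute U₁ U₂ hc]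
  have hPP : P * P = P := merge_pair_idempotent U₁ U₂ hc i j
  have : P = Pᴴ * P := by rw [hH, hPP]
  rw [this]
  exact posSemidef_conjTranspose_mul_self P

/-- **merge moment** -/
theorem merge_moment (U₁ U₂ : G →* Matrix n n ℂ) (hU₁ : ∀ g, (U₁ g)ᴴ = U₁ g⁻¹)
    (hU₂ : ∀ g, (U₂ g)ᴴ = U₂ g⁻¹) (hc : ∀ g h, U₁ g * U₂ h = U₂ h * U₁ g) (v : n → ℂ)
    (h1 : ∀ a a' b, mgForm U₁ U₂ v (a * a') b = mgForm U₁ U₂ v (a' * a) b)
    (h2 : ∀ a b b', mgForm U₁ U₂ v a (b * b') = mgForm U₁ U₂ v a (b' * b))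
    (K : ℝ) (hK : ∀ i j, repAlg U₁ (idem i) * repAlg U₂ (idem j) ≠ 0 →
      ∑ l, (kronMult i j l).re ≤ K)
    (b : ℝ) (hb1 : b ≤ 1) :
    ∑ i, ∑ j, ∑ l, ((dimI i : ℝ) * dimI j / dimI l) ^ b *
        (star v ⬝ᵥ ((repAlg U₁ (idem i) * repAlg U₂ (idem j)
          * repAlg (mulRep U₁ U₂ hc) (idem l)) *ᵥ v)).re
      ≤ K * (star v ⬝ᵥ v).re := by
  -- the probabilities of the pairs
  set p : Irr G → Irr G → ℝ := fun i j => (mgForm U₁ U₂ v (idem i) (idem j)).re with hp
  have hpC : ∀ i j, mgForm U₁ U₂ v (idem i) (idem j) = (p i j : ℂ) := by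
    intro i j
    have h := (mg_pair_posSemidef U₁ U₂ hU₁ hU₂ hc i j).dotProduct_mulVec_nonneg v
    have h' := Complex.le_def.mp h
    apply Complex.ext
    · simp [hp]
    · simpa [mgForm_apply] using h'.2.symm
  have hp0 : ∀ i j, 0 ≤ p i j := fun i j =>
    (Complex.le_def.mp ((mg_pair_posSemidef U₁ U₂ hU₁ hU₂ hc i j).dotProduct_mulVec_nonneg v)).1
  have hpsum : ∑ i, ∑ j, p i j = (star v ⬝ᵥ v).re := by
    simp only [hp, ← Complex.re_sum, ← map_sum, ← LinearMap.sum_apply]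
    rw [sum_idem, mgForm_apply, map_one, map_one, Matrix.one_mul, Matrix.one_mulVec]
  have hpz : ∀ i j, repAlg U₁ (idem i) * repAlg U₂ (idem j) = 0 → p i j = 0 := by
    intro i j h0
    simp [hp, mgForm_apply, h0]
  have hterm : ∀ i j, ∑ l, ((dimI i : ℝ) * dimI j / dimI l) ^ b *
        (star v ⬝ᵥ ((repAlg U₁ (idem i) * repAlg U₂ (idem j)
          * repAlg (mulRep U₁ U₂ hc) (idem l)) *ᵥ v)).re ≤ K * p i j := by
    intro i j
    by_cases h0 : repAlg U₁ (idem i) * repAlg U₂ (idem j) = 0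
    · rw [hpz i j h0, mul_zero]
      refine le_of_eq (Finset.sum_eq_zero fun l _ => ?_)
      rw [h0, Matrix.zero_mul, Matrix.zero_mulVec, dotProduct_zero, Complex.zero_re, mul_zero]
    · have hdi : (0 : ℝ) < dimI i := by exact_mod_cast dimI_pos i
      have hdj : (0 : ℝ) < dimI j := by exact_mod_cast dimI_pos j
      calc ∑ l, ((dimI i : ℝ) * dimI j / dimI l) ^ b *
            (star v ⬝ᵥ ((repAlg U₁ (idem i) * repAlg U₂ (idem j)
              * repAlg (mulRep U₁ U₂ hc) (idem l)) *ᵥ v)).re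
          ≤ ∑ l, p i j * (kronMult i j l).re := by
            refine Finset.sum_le_sum fun l _ => ?_
            have hdl : (0 : ℝ) < dimI l := by exact_mod_cast dimI_pos l
            obtain ⟨m, hm⟩ := kronMult_nat i j l
            rw [merge_quad U₁ U₂ hc v h1 h2 i j l, hpC, hm]
            have e : ((p i j : ℂ) * ((m : ℂ) * dimI l / ((dimI i : ℂ) * dimI j))).re
                = p i j * (m * (dimI l / ((dimI i : ℝ) * dimI j))) := by
              have : ((p i j : ℂ) * ((m : ℂ) * dimI l / ((dimI i : ℂ) * dimI j)))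
                  = ((p i j * (m * (dimI l / ((dimI i : ℝ) * dimI j))) : ℝ) : ℂ) := by
                push_cast
                ring
              rw [this, Complex.ofReal_re]
            rw [e, Complex.natCast_re]
            by_cases hm0 : m = 0
            · simp [hm0]
            · have hk : kronMult i j l ≠ 0 := by
                rw [hm]
                exact_mod_cast hm0
              have hle : (dimI l : ℝ) ≤ (dimI i : ℝ) * dimI j := by
                exact_mod_cast kron_dim_le i j l hk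
              set r : ℝ := (dimI i : ℝ) * dimI j / dimI l with hr
              have hr1 : 1 ≤ r := by
                rw [hr, le_div_iff₀ hdl, one_mul]
                exact hle
              have hr0 : 0 < r := lt_of_lt_of_le one_pos hr1
              have hinv : (dimI l : ℝ) / ((dimI i : ℝ) * dimI j) = r⁻¹ := by
                rw [hr, inv_div]
              rw [hinv]
              have h3 : r ^ b * r⁻¹ ≤ 1 := by
                rw [← Real.rpow_neg_one, ← Real.rpow_add hr0]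
                exact Real.rpow_le_one_of_one_le_of_nonpos hr1 (by linarith)
              have hm' : (0 : ℝ) ≤ m := Nat.cast_nonneg m
              calc r ^ b * (p i j * (m * r⁻¹)) = (p i j * m) * (r ^ b * r⁻¹) := by ring
                _ ≤ (p i j * m) * 1 :=
                    mul_le_mul_of_nonneg_left h3 (mul_nonneg (hp0 i j) hm')
                _ = p i j * m := mul_one _
        _ = p i j * ∑ l, (kronMult i j l).re := by rw [Finset.mul_sum]
        _ ≤ p i j * K := mul_le_mul_of_nonneg_left (hK i j h0) (hp0 i j)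
        _ = K * p i j := mul_comm _ _
  calc _ ≤ ∑ i, ∑ j, K * p i j :=
        Finset.sum_le_sum fun i _ => Finset.sum_le_sum fun j _ => hterm i j
    _ = K * (star v ⬝ᵥ v).re := by
        simp only [← Finset.mul_sum]
        rw [hpsum]

end Abstract

end Claimed.Agent.R296.Rep
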