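import Claimed.Agent.R296.Rep.AltDeg

set_option autoImplicit false
set_option linter.unusedSectionVars false

namespace Claimed.Agent.R296.Rep

open MvPolynomial Equiv

variable {κ : Type} [Fintype κ] [DecidableEq κ]

theorem toFs_sub_single {d : ℕ} (l : Fin d → ℕ) (i : Fin d) :
    toFs l - Finsupp.single i 1 = toFs (subBox l i) := by
  ext j
  rw [Finsupp.tsub_apply, toFs_apply, toFs_apply, subBox]
  by_cases h : j = i
  · subst h; simp
  · rw [Function.update_of_ne h, Finsupp.single_apply, if_neg (fun h' => h h'.symm)]; simp

/-- branching = multiplication by `p_1` -/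
theorem thetaSh_ofSubtype_ne (d : ℕ) (l : Fin d → ℕ) (j₀ : κ) (π : Perm {j // j ≠ j₀}) :
    thetaSh d l (Perm.ofSubtype π)
      = ∑ i, if 1 ≤ l i then thetaSh d (subBox l i) π else 0 := by
  have hcard : Fintype.card {j // ¬ j ≠ j₀} = 1 := by
    rw [Fintype.card_eq_one_iff]
    exact ⟨⟨j₀, by simp⟩, fun y => Subtype.ext (by simpa using y.2)⟩
  rw [thetaSh, pfix_ofSubtype, hcard, pow_one, mul_left_comm, Finset.sum_mul, coeff_sum]
  refine Finset.sum_congr rfl fun i _ => ?_
  rw [coeff_X_mul', toFs_sub_single]
  have : i ∈ (toFs l).support ↔ 1 ≤ l i := by
    rw [Finsupp.mem_support_iff, toFs_apply]; omega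
  simp only [this]
  rfl

theorem sh_subBox {d : ℕ} (lam : Fin d → ℕ) (i : Fin d) (h : 1 ≤ lam i) :
    sh d (subBox lam i) = subBox (sh d lam) i := by
  funext j
  simp only [sh, subBox]
  by_cases hj : j = i
  · subst hj; simp only [Function.update_self]; omega
  · rw [Function.update_of_ne hj, Function.update_of_ne hj]; rfl

open Classical in
theorem theta_ofSubtype_ne (d : ℕ) (lam : Fin d → ℕ) (hl : Antitone lam) (j₀ : κ)
    (π : Perm {j // j ≠ j₀}) :
    theta d lam (Perm.ofSubtype π)
      = ∑ i, if Removable lam i then theta d (subBox lam i) π else 0 := by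
  rw [theta, thetaSh_ofSubtype_ne]
  refine Finset.sum_congr rfl fun i _ => ?_
  by_cases hR : Removable lam i
  · rw [if_pos hR, if_pos (by have := hR.1; simp only [sh]; omega), theta, sh_subBox lam i hR.1]
  · rw [if_neg hR]
    split_ifs with h1
    · -- the exponent vector has a repetition
      refine thetaSh_eq_zero_of_not_injective d _ ?_ π
      -- there is a next row with `sh (i+1) = sh i - 1`
      have hnext : (i : ℕ) + 1 < d ∧ ∀ h : (i : ℕ) + 1 < d, lam ⟨i + 1, h⟩ = lam i := by
        by_cases h0 : lam i = 0
        · have hst : 1 ≤ stair d i := by simp only [sh] at h1; omega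
          have hi : (i : ℕ) + 1 < d := by simp only [stair] at hst; omega
          refine ⟨hi, fun h => ?_⟩
          have := hl (show i ≤ ⟨i + 1, h⟩ from by rw [Fin.le_def]; simp)
          omega
        · -- `subBox lam i` is not antitone
          have hna : ¬ Antitone (subBox lam i) := fun ha => hR ⟨by omega, ha⟩
          by_contra hcon
          apply hna
          intro a b hab
          simp only [subBox]
          by_cases hb : b = i
          · subst hb
            by_cases ha : a = b
            · subst ha; exact le_rfl
            · rw [Function.update_self, Function.update_of_ne ha]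
              have := hl hab
              omega
          · rw [Function.update_of_ne hb]
            by_cases ha : a = i
            · subst ha
              rw [Function.update_self]
              have hlt : (a : ℕ) < b := lt_of_le_of_ne hab (fun h => hb (Fin.ext h).symm)
              have hi : (a : ℕ) + 1 < d := by have := b.2; omega
              have h2 : lam ⟨a + 1, hi⟩ ≠ lam a := fun h => hcon ⟨hi, fun _ => h⟩
              have h3 := hl (show a ≤ ⟨a + 1, hi⟩ from by rw [Fin.le_def]; simp)
              have h4 := hl (show (⟨a + 1, hi⟩ : Fin d) ≤ b from by rw [Fin.le_def]; simp; omega)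
              omega
            · rw [Function.update_of_ne ha]
              exact hl hab
      obtain ⟨hi, hlam⟩ := hnext
      intro hinj
      have hne : (⟨i + 1, hi⟩ : Fin d) ≠ i := by
        intro h; have := congrArg Fin.val h; simp at this
      have : subBox (sh d lam) i ⟨i + 1, hi⟩ = subBox (sh d lam) i i := by
        simp only [subBox]
        rw [Function.update_self, Function.update_of_ne hne]
        simp only [sh, stair, hlam hi]
        omega
      exact hne (hinj this)
    · rfl

end Claimed.Agent.R296.Rep
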