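import Mathlib

/-!
# Row 296, BB_Rep, block L1-POLY (owner helper167): weighted Burnside for `Perm κ` on `κ → α`

`alt_burnside` :
`∑ π, ∑ F with F ∘ π = F, ∏ j, z (F j) = (card κ)! • ∑ M ∈ finsuppAntidiag univ (card κ), ∏ a, z a ^ M a`.
-/

namespace Claimed.Agent.R296.Rep

open Finset

set_option linter.unusedSectionVars false

variable {κ α : Type*} [Fintype κ] [DecidableEq κ] [Fintype α] [DecidableEq α]

/-- The content (fibre cardinalities) of a function `κ → α`. -/
noncomputable def altCont (F : κ → α) : α →₀ ℕ :=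
  Finsupp.equivFunOnFinite.symm fun a => #{j | F j = a}

theorem altCont_apply (F : κ → α) (a : α) : altCont F a = #{j | F j = a} := rfl

theorem altCont_mem (F : κ → α) :
    altCont F ∈ finsuppAntidiag (univ : Finset α) (Fintype.card κ) := by
  rw [mem_finsuppAntidiag]
  refine ⟨?_, subset_univ _⟩
  change ∑ a, #{j | F j = a} = Fintype.card κ
  rw [← card_univ (α := κ)]
  exact (card_eq_sum_card_fiberwise (f := F) (s := univ) (t := univ)
    (fun _ _ => mem_coe.mpr (mem_univ _))).symm

theorem altCont_comp_perm (F : κ → α) (τ : Equiv.Perm κ) : altCont (F ∘ τ) = altCont F := by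
  ext a
  rw [altCont_apply, altCont_apply]
  refine card_bij (fun j _ => τ j) ?_ ?_ ?_
  · intro j hj; simpa using hj
  · intro j _ j' _ h; exact τ.injective h
  · intro j hj
    refine ⟨τ.symm j, ?_, by simp⟩
    simpa using hj

theorem alt_prod_eq_cont {A : Type*} [CommMonoid A] (z : α → A) (F : κ → α) :
    ∏ j, z (F j) = ∏ a, z a ^ altCont F a := by
  simp_rw [altCont_apply, ← prod_const]
  exact (prod_fiberwise' univ F z).symm

/-- Two functions with the same content differ by a permutation. -/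
theorem alt_exists_perm_of_cont_eq {F G : κ → α} (h : altCont F = altCont G) :
    ∃ τ : Equiv.Perm κ, F ∘ τ = G := by
  have hc : ∀ a, Nonempty ({j // G j = a} ≃ {j // F j = a}) := by
    intro a
    refine Fintype.card_eq.mp ?_
    rw [Fintype.card_subtype, Fintype.card_subtype]
    have := DFunLike.congr_fun h a
    rw [altCont_apply, altCont_apply] at this
    exact this.symm
  refine ⟨Equiv.ofFiberEquiv fun a => (hc a).some, ?_⟩
  funext j
  exact Equiv.ofFiberEquiv_map (fun a => (hc a).some) j

/-- Every admissible content is realised. -/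
theorem alt_exists_cont {M : α →₀ ℕ}
    (hM : M ∈ finsuppAntidiag (univ : Finset α) (Fintype.card κ)) :
    ∃ F : κ → α, altCont F = M := by
  rw [mem_finsuppAntidiag] at hM
  have hcard : Fintype.card κ = Fintype.card (Σ a : α, Fin (M a)) := by
    rw [Fintype.card_sigma]; simp [hM.1]
  obtain ⟨e⟩ := Fintype.card_eq.mp hcard
  refine ⟨fun j => (e j).1, ?_⟩
  ext a
  rw [altCont_apply]
  have : #{j | (e j).1 = a} = Fintype.card (Fin (M a)) := by
    rw [← card_univ]
    refine (card_bij (fun (i : Fin (M a)) _ => e.symm ⟨a, i⟩) ?_ ?_ ?_).symm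
    · intro i _; simp
    · intro i _ i' _ h
      have := e.symm.injective h
      simpa using this
    · intro j hj
      rw [mem_filter] at hj
      obtain ⟨_, hj⟩ := hj
      subst hj
      exact ⟨(e j).2, mem_univ _, by simp⟩
  rw [this, Fintype.card_fin]

/-- Orbit-stabiliser in counting form. -/
theorem alt_sum_stab {M : α →₀ ℕ}
    (hM : M ∈ finsuppAntidiag (univ : Finset α) (Fintype.card κ)) :
    ∑ F : κ → α with altCont F = M, #{π : Equiv.Perm κ | F ∘ π = F}
      = (Fintype.card κ).factorial := by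
  obtain ⟨F₀, hF₀⟩ := alt_exists_cont (κ := κ) hM
  have h1 : #(univ : Finset (Equiv.Perm κ))
      = ∑ F : κ → α with altCont F = M, #{τ : Equiv.Perm κ | F₀ ∘ τ = F} := by
    refine card_eq_sum_card_fiberwise (f := fun τ : Equiv.Perm κ => F₀ ∘ τ) ?_
    intro τ _
    simp [altCont_comp_perm, hF₀]
  rw [← Fintype.card_perm, ← card_univ, h1]
  refine sum_congr rfl fun F hF => ?_
  rw [mem_filter] at hF
  obtain ⟨τ₀, hτ₀⟩ := alt_exists_perm_of_cont_eq (hF₀.trans hF.2.symm)
  refine card_bij (fun π _ => τ₀ * π) ?_ ?_ ?_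
  · intro π hπ
    rw [mem_filter] at hπ ⊢
    refine ⟨mem_univ _, ?_⟩
    rw [Equiv.Perm.coe_mul, ← Function.comp_assoc, hτ₀]
    exact hπ.2
  · intro π _ π' _ h
    exact mul_left_cancel h
  · intro τ hτ
    rw [mem_filter] at hτ
    refine ⟨τ₀⁻¹ * τ, ?_, by simp⟩
    rw [mem_filter]
    refine ⟨mem_univ _, ?_⟩
    rw [← hτ₀, Function.comp_assoc, ← Equiv.Perm.coe_mul, mul_inv_cancel_left, hτ₀]
    exact hτ.2

/-- Weighted Burnside lemma for the action of `Perm κ` on `κ → α`. -/
theorem alt_burnside {A : Type*} [CommSemiring A] (z : α → A) :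
    ∑ π : Equiv.Perm κ, ∑ F : κ → α with F ∘ π = F, ∏ j, z (F j)
      = ((Fintype.card κ).factorial : A)
        * ∑ M ∈ finsuppAntidiag (univ : Finset α) (Fintype.card κ), ∏ a, z a ^ M a := by
  simp_rw [sum_filter]
  rw [sum_comm]
  simp_rw [← sum_filter, sum_const]
  rw [← sum_fiberwise_of_maps_to (g := altCont) (t := finsuppAntidiag (univ : Finset α)
    (Fintype.card κ)) (fun F _ => altCont_mem F), mul_sum]
  refine sum_congr rfl fun M hM => ?_
  rw [← alt_sum_stab hM, Nat.cast_sum, sum_mul]
  refine sum_congr rfl fun F hF => ?_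
  rw [mem_filter] at hF
  rw [alt_prod_eq_cont, hF.2, nsmul_eq_mul]

end Claimed.Agent.R296.Rep
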