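import Claimed.Agent.R296.Rep.AltCauchy
import Claimed.Agent.R296.Rep.AltBurnside

/-!
# Row 296, BB_Rep, block L1-POLY (owner helper167): the Frobenius formula

`pfixA x π = ∑_{f ∘ π = f} ∏ j, x (f j)` (`= Tr U(π) D(x)^{⊗k}`), in any commutative ring.

* `alt_frob_pair` : `k! * ∑_m altA x m * y^m = ∑_π (Δ(x) pfix_π(x)) (Δ(y) pfix_π(y))`.
-/

namespace Claimed.Agent.R296.Rep

open Finset Matrix

set_option linter.unusedSectionVars false

variable {κ : Type*} [Fintype κ] [DecidableEq κ] {d : ℕ}

/-- `Tr U(π) D(x)^{⊗ κ}`: sum over the `π`-invariant colourings of the product of the colours. -/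
noncomputable def pfixA {A : Type*} [CommRing A] (x : Fin d → A) (π : Equiv.Perm κ) : A :=
  ∑ f : κ → Fin d with f ∘ π = f, ∏ j, x (f j)

theorem pfixA_map {A A' : Type*} [CommRing A] [CommRing A'] (φ : A →+* A') (x : Fin d → A)
    (π : Equiv.Perm κ) : φ (pfixA x π) = pfixA (fun i => φ (x i)) π := by
  simp only [pfixA, map_sum, map_prod]

theorem altA_map {A A' : Type*} [CommRing A] [CommRing A'] (φ : A →+* A') (x : Fin d → A)
    (m : Fin d → ℕ) : φ (altA x m) = altA (fun i => φ (x i)) m := by
  rw [altA, altA, RingHom.map_det]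
  congr 1
  ext i j
  simp

theorem pfixA_mul {A : Type*} [CommRing A] (x y : Fin d → A) (π : Equiv.Perm κ) :
    pfixA x π * pfixA y π
      = ∑ F : κ → Fin d × Fin d with F ∘ π = F, ∏ j, (x (F j).1 * y (F j).2) := by
  rw [pfixA, pfixA, sum_mul_sum, ← sum_product']
  refine sum_bij' (fun p _ => fun j => (p.1 j, p.2 j))
    (fun F _ => (fun j => (F j).1, fun j => (F j).2)) ?_ ?_ ?_ ?_ ?_
  · rintro ⟨f, g⟩ h
    simp only [mem_product, mem_filter, mem_univ, true_and] at h ⊢
    funext j
    have h1 := congrFun h.1 j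
    have h2 := congrFun h.2 j
    simp only [Function.comp_apply] at h1 h2 ⊢
    rw [h1, h2]
  · intro F h
    simp only [mem_product, mem_filter, mem_univ, true_and] at h ⊢
    constructor
    · funext j
      have := congrFun h j
      simp only [Function.comp_apply] at this ⊢
      rw [this]
    · funext j
      have := congrFun h j
      simp only [Function.comp_apply] at this ⊢
      rw [this]
  · rintro ⟨f, g⟩ _; rfl
  · intro F _; rfl
  · rintro ⟨f, g⟩ _
    simp only [prod_mul_distrib]

/-- The two-alphabet Frobenius-Cauchy formula. -/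
theorem alt_frob_pair {A : Type*} [CommRing A] [IsDomain A] (x y : Fin d → A)
    (hy : Function.Injective y) :
    ((Fintype.card κ).factorial : A) *
        ∑ m ∈ finsuppAntidiag (univ : Finset (Fin d)) (Fintype.card κ + ∑ i : Fin d, (i : ℕ)),
          altA x m * ∏ i, y i ^ (m i)
      = ∑ π : Equiv.Perm κ, (altA x (fun i => (i : ℕ)) * pfixA x π)
          * (altA y (fun i => (i : ℕ)) * pfixA y π) := by
  rw [alt_cauchy_graded x y hy, mul_left_comm,
    ← alt_burnside (κ := κ) (fun p : Fin d × Fin d => x p.1 * y p.2), mul_sum]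
  refine sum_congr rfl fun π _ => ?_
  rw [← pfixA_mul]
  ring

open MvPolynomial

variable {R : Type*} [CommRing R]

theorem alt_prod_X_pow (m : Fin d →₀ ℕ) :
    ∏ i, (X i : MvPolynomial (Fin d) R) ^ (m i) = monomial m 1 := by
  rw [MvPolynomial.monomial_eq, Finsupp.prod_fintype _ _ (fun i => by simp)]
  simp

/-- Frobenius' formula: `k! a_l = ∑_π θ_l(π) Δ p_π`. -/
theorem alt_frobenius [IsDomain R] (l : Fin d →₀ ℕ)
    (hl : ∑ i, l i = Fintype.card κ + ∑ i : Fin d, (i : ℕ)) :
    ((Fintype.card κ).factorial : MvPolynomial (Fin d) R) * altA X l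
      = ∑ π : Equiv.Perm κ,
          C (coeff l (altA (X : Fin d → MvPolynomial (Fin d) R) (fun i => (i : ℕ)) * pfixA X π))
            * (altA X (fun i => (i : ℕ)) * pfixA X π) := by
  have h := alt_frob_pair (κ := κ) (A := MvPolynomial (Fin d) (MvPolynomial (Fin d) R))
    (fun i => C (X i)) X (MvPolynomial.X_injective)
  have h2 := congrArg (coeff l) h
  have hx : ∀ m : Fin d → ℕ, altA (fun i => (C (X i) : MvPolynomial (Fin d) (MvPolynomial (Fin d) R))) m
      = C (altA X m) := fun m => (altA_map C X m).symm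
  have hpx : ∀ π : Equiv.Perm κ,
      pfixA (fun i => (C (X i) : MvPolynomial (Fin d) (MvPolynomial (Fin d) R))) π
      = C (pfixA X π) := fun π => (pfixA_map C X π).symm
  have hy : ∀ m : Fin d → ℕ, altA (X : Fin d → MvPolynomial (Fin d) (MvPolynomial (Fin d) R)) m
      = MvPolynomial.map C (altA (X : Fin d → MvPolynomial (Fin d) R) m) := by
    intro m
    rw [altA_map]; simp
  have hpy : ∀ π : Equiv.Perm κ,
      pfixA (X : Fin d → MvPolynomial (Fin d) (MvPolynomial (Fin d) R)) π
      = MvPolynomial.map C (pfixA (X : Fin d → MvPolynomial (Fin d) R) π) := by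
    intro π
    rw [pfixA_map]; simp
  simp only [hx, hpx, hy, hpy, alt_prod_X_pow, ← map_mul, C_mul_monomial, mul_one] at h2
  rw [← map_natCast (C : MvPolynomial (Fin d) R →+* _), coeff_C_mul, coeff_sum, coeff_sum] at h2
  simp only [coeff_monomial, coeff_C_mul, coeff_map] at h2
  rw [sum_ite_eq' , if_pos (by rw [mem_finsuppAntidiag]; exact ⟨hl, subset_univ _⟩)] at h2
  rw [h2]
  refine sum_congr rfl fun π _ => by ring


theorem altA_X_eq_sum (m : Fin d →₀ ℕ) :
    altA (X : Fin d → MvPolynomial (Fin d) R) m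
      = ∑ σ : Equiv.Perm (Fin d), monomial (Finsupp.equivMapDomain σ m)
          ((Equiv.Perm.sign σ : ℤ) : R) := by
  rw [altA_eq_sum]
  refine sum_congr rfl fun σ _ => ?_
  have h1 : ∏ i, (X (σ i) : MvPolynomial (Fin d) R) ^ m i
      = ∏ i, (X i : MvPolynomial (Fin d) R) ^ (Finsupp.equivMapDomain σ m i) := by
    rw [← Equiv.prod_comp σ (fun i => (X i : MvPolynomial (Fin d) R)
      ^ (Finsupp.equivMapDomain σ m i))]
    refine prod_congr rfl fun i _ => ?_
    rw [Finsupp.equivMapDomain_apply, Equiv.symm_apply_apply]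
  rw [h1, alt_prod_X_pow, ← map_intCast (C : R →+* MvPolynomial (Fin d) R), C_mul_monomial,
    mul_one]

theorem alt_perm_eq_one_of_strictMono {l m : Fin d → ℕ} (hl : StrictMono l) (hm : StrictMono m)
    {σ : Equiv.Perm (Fin d)} (h : ∀ i, m (σ.symm i) = l i) : σ = 1 := by
  have hs : StrictMono (σ.symm : Fin d → Fin d) := by
    intro a b hab
    have := hl hab
    rw [← h a, ← h b] at this
    exact hm.lt_iff_lt.mp this
  have h2 : (σ.symm : Fin d → Fin d) = id := by
    refine (StrictMono.range_inj hs strictMono_id).mp ?_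
    rw [σ.symm.surjective.range_eq, Set.range_id]
  ext i
  have := congrFun h2 (σ i)
  simp only [Equiv.symm_apply_apply, id] at this
  simp [← this]

theorem alt_coeff_altA {l m : Fin d →₀ ℕ} (hl : StrictMono l) (hm : StrictMono m) :
    coeff l (altA (X : Fin d → MvPolynomial (Fin d) R) m) = if l = m then 1 else 0 := by
  rw [altA_X_eq_sum, coeff_sum]
  simp only [coeff_monomial]
  rw [sum_eq_single 1]
  · have : Finsupp.equivMapDomain (1 : Equiv.Perm (Fin d)) m = m := by
      ext i; rw [Finsupp.equivMapDomain_apply]; rfl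
    rw [this]
    simp [eq_comm]
  · intro σ _ hσ
    rw [if_neg]
    intro h
    refine hσ (alt_perm_eq_one_of_strictMono hl hm fun i => ?_)
    rw [← h, Finsupp.equivMapDomain_apply]
  · intro h; exact absurd (mem_univ _) h

/-- Orthonormality of the Frobenius class functions. -/
theorem alt_orthonormal [IsDomain R] {l l' : Fin d →₀ ℕ} (hl : StrictMono l) (hl' : StrictMono l')
    (hdeg : ∑ i, l' i = Fintype.card κ + ∑ i : Fin d, (i : ℕ)) :
    ∑ π : Equiv.Perm κ,
        coeff l (altA (X : Fin d → MvPolynomial (Fin d) R) (fun i => (i : ℕ)) * pfixA X π)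
        * coeff l' (altA (X : Fin d → MvPolynomial (Fin d) R) (fun i => (i : ℕ)) * pfixA X π)
      = if l = l' then ((Fintype.card κ).factorial : R) else 0 := by
  have h := congrArg (coeff l) (alt_frobenius (κ := κ) (R := R) l' hdeg)
  rw [← map_natCast (C : R →+* MvPolynomial (Fin d) R), coeff_C_mul, alt_coeff_altA hl hl',
    coeff_sum] at h
  simp only [coeff_C_mul] at h
  rw [mul_ite, mul_one, mul_zero] at h
  rw [h]
  refine sum_congr rfl fun π _ => by ring

end Claimed.Agent.R296.Rep
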