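import Claimed.Agent.R296.Rep.Frob
import Claimed.Agent.R296.Rep.AltFrob

set_option autoImplicit false
set_option linter.unusedSectionVars false

namespace Claimed.Agent.R296.Rep

open MvPolynomial Equiv

variable {κ : Type} [Fintype κ] [DecidableEq κ]

/-! ### bridge to the `Alt*` files -/

theorem alt_eq_altA (d : ℕ) (m : Fin d → ℕ) :
    alt d m = altA (X : Fin d → MvPolynomial (Fin d) ℤ) m := by
  rw [alt, altA_eq_sum]
  refine Finset.sum_congr rfl fun w _ => ?_
  rw [zsmul_eq_mul]

theorem pfix_eq_pfixA (d : ℕ) (π : Perm κ) :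
    pfix d π = pfixA (X : Fin d → MvPolynomial (Fin d) ℤ) π := by
  rw [pfix, pfixA, Finset.sum_filter]

theorem altA_stair {A : Type*} [CommRing A] {d : ℕ} (x : Fin d → A) :
    altA x (stair d) = ∏ i : Fin d, ∏ j ∈ Finset.Ioi i, (x i - x j) := by
  have h := Matrix.det_projVandermonde (1 : Fin d → A) x
  have h2 : Matrix.projVandermonde (1 : Fin d → A) x = Matrix.of fun i j => x i ^ stair d j := by
    ext i j
    rw [Matrix.projVandermonde_apply, Matrix.of_apply, Pi.one_apply, one_pow, one_mul,
      Fin.val_rev, stair]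
    congr 1
    omega
  rw [h2] at h
  rw [altA, h]
  refine Finset.prod_congr rfl fun i _ => Finset.prod_congr rfl fun j _ => by simp

theorem altA_comp_perm {A : Type*} [CommRing A] {d : ℕ} (x : Fin d → A) (m : Fin d → ℕ)
    (w : Perm (Fin d)) : altA x (m ∘ w) = ((Perm.sign w : ℤ) : A) * altA x m := by
  rw [altA, altA, ← Matrix.det_permute']
  rfl

theorem stair_comp_rev (d : ℕ) : (stair d ∘ Fin.revPerm) = fun i : Fin d => (i : ℕ) := by
  funext i
  simp only [Function.comp_apply, Fin.revPerm_apply, stair, Fin.val_rev]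
  omega

theorem altA_delta_mul {A : Type*} [CommRing A] {d : ℕ} (x y : Fin d → A) :
    altA x (fun i => (i : ℕ)) * altA y (fun i => (i : ℕ)) = altA x (stair d) * altA y (stair d) := by
  rw [← stair_comp_rev, altA_comp_perm, altA_comp_perm]
  have h : (((Perm.sign (Fin.revPerm : Perm (Fin d)) : ℤ)) : A)
      * ((Perm.sign (Fin.revPerm : Perm (Fin d)) : ℤ) : A) = 1 := by
    rw [← Int.cast_mul, ← Units.val_mul, Int.units_mul_self]; simp
  calc _ = ((((Perm.sign (Fin.revPerm : Perm (Fin d)) : ℤ)) : A)
      * ((Perm.sign (Fin.revPerm : Perm (Fin d)) : ℤ) : A)) * (altA x (stair d) * altA y (stair d)) := by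
        ring
    _ = _ := by rw [h, one_mul]

/-! ### alternants -/

theorem vdm_eq_alt (d : ℕ) : vdm d = alt d (stair d) := by
  rw [alt_eq_altA, altA_stair, vdm]

theorem alt_comp_perm (d : ℕ) (m : Fin d → ℕ) (w : Perm (Fin d)) :
    alt d (m ∘ w) = ((Perm.sign w : ℤ)) • alt d m := by
  rw [alt_eq_altA, alt_eq_altA, altA_comp_perm, zsmul_eq_mul]

theorem alt_perm_eq_one_of_strictAnti {d : ℕ} {l m : Fin d → ℕ} (hl : StrictAnti l)
    (hm : StrictAnti m) {σ : Equiv.Perm (Fin d)} (h : ∀ i, m (σ.symm i) = l i) : σ = 1 := by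
  have hs : StrictMono (σ.symm : Fin d → Fin d) := by
    intro a b hab
    have := hl hab
    rw [← h a, ← h b] at this
    exact hm.lt_iff_gt.mp this
  have h2 : (σ.symm : Fin d → Fin d) = id := by
    refine (StrictMono.range_inj hs strictMono_id).mp ?_
    rw [σ.symm.surjective.range_eq, Set.range_id]
  ext i
  have := congrFun h2 (σ i)
  simp only [Equiv.symm_apply_apply, id] at this
  simp [← this]

theorem toFs_apply {d : ℕ} (l : Fin d → ℕ) (i : Fin d) : toFs l i = l i := rfl

theorem coe_toFs {d : ℕ} (l : Fin d → ℕ) : (toFs l : Fin d → ℕ) = l := rfl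

theorem toFs_injective {d : ℕ} : Function.Injective (toFs (d := d)) :=
  Finsupp.equivFunOnFinite.symm.injective

theorem coeff_alt (d : ℕ) (l m : Fin d → ℕ) (hl : StrictAnti l) (hm : StrictAnti m) :
    coeff (toFs l) (alt d m) = if l = m then 1 else 0 := by
  rw [alt_eq_altA, show altA (X : Fin d → MvPolynomial (Fin d) ℤ) m = altA X (toFs m) from rfl,
    altA_X_eq_sum, coeff_sum]
  simp only [coeff_monomial]
  rw [Finset.sum_eq_single 1]
  · have : Finsupp.equivMapDomain (1 : Equiv.Perm (Fin d)) (toFs m) = toFs m := by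
      ext i; rw [Finsupp.equivMapDomain_apply]; rfl
    rw [this]
    by_cases h : l = m
    · subst h; simp
    · rw [if_neg h, if_neg (fun h' => h (toFs_injective h').symm)]
  · intro σ _ hσ
    rw [if_neg]
    intro h
    refine hσ (alt_perm_eq_one_of_strictAnti hl hm fun i => ?_)
    rw [← toFs_apply l, ← h, Finsupp.equivMapDomain_apply]; rfl
  · intro h; exact absurd (Finset.mem_univ _) h

theorem stair_strictAnti (d : ℕ) : StrictAnti (stair d) := by
  intro a b hab
  have : (a : ℕ) < b := hab
  have hb := b.2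
  simp only [stair]
  omega

theorem sh_strictAnti (d : ℕ) (lam : Fin d → ℕ) (h : Antitone lam) : StrictAnti (sh d lam) := by
  intro a b hab
  have h1 := h hab.le
  have h2 := stair_strictAnti d hab
  simp only [sh]
  omega

theorem sh_injective (d : ℕ) : Function.Injective (sh d) := by
  intro a b h
  funext i
  have := congrFun h i
  simp only [sh] at this
  omega

theorem stair_le_of_strictAnti (d : ℕ) (l : Fin d → ℕ) (h : StrictAnti l) (i : Fin d) :
    stair d i ≤ l i := by
  -- downward induction on `i`
  have key : ∀ n : ℕ, ∀ i : Fin d, d - 1 - (i : ℕ) = n → n ≤ l i := by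
    intro n
    induction n with
    | zero => intro i _; exact Nat.zero_le _
    | succ n ih =>
      intro i hi
      have hi' : (i : ℕ) + 1 < d := by omega
      have h1 := ih ⟨i + 1, hi'⟩ (by simp only []; omega)
      have h2 : l ⟨i + 1, hi'⟩ < l i := h (by
        rw [Fin.lt_def]; simp)
      omega
  exact key _ i rfl

/-- every strictly decreasing exponent vector is a shifted label -/
theorem exists_sh_of_strictAnti (d : ℕ) (l : Fin d → ℕ) (h : StrictAnti l) :
    ∃ lam : Fin d → ℕ, Antitone lam ∧ sh d lam = l := by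
  refine ⟨fun i => l i - stair d i, ?_, ?_⟩
  · -- it suffices to compare neighbours; we use a direct argument
    intro a b hab
    rcases hab.eq_or_lt with rfl | hlt
    · exact le_rfl
    · -- `l a - l b ≥ b - a`
      have key : ∀ n : ℕ, ∀ a b : Fin d, (b : ℕ) = a + n → l b + n ≤ l a := by
        intro n
        induction n with
        | zero =>
          intro a b hb
          have : a = b := Fin.ext (by omega)
          subst this; simp
        | succ n ih =>
          intro a b hb
          have hb' : (a : ℕ) + n < d := by have := b.2; omega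
          have h1 := ih a ⟨a + n, hb'⟩ rfl
          have h2 : l b < l ⟨a + n, hb'⟩ := h (by rw [Fin.lt_def]; simp only []; omega)
          omega
      have h1 := key ((b : ℕ) - a) a b (by have : (a : ℕ) < b := hlt; omega)
      have h2 := stair_le_of_strictAnti d l h a
      have h3 := stair_le_of_strictAnti d l h b
      have : (a : ℕ) < b := hlt
      have hb := b.2
      simp only [stair] at h2 h3 ⊢
      omega
  · funext i
    have := stair_le_of_strictAnti d l h i
    simp only [sh]
    omega

theorem sum_stair (d : ℕ) : ∑ i, stair d i = d * (d - 1) / 2 := by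
  have h : ∑ i : Fin d, stair d i = ∑ i : Fin d, (i : ℕ) := by
    rw [← Equiv.sum_comp Fin.revPerm (stair d)]
    exact Finset.sum_congr rfl fun i _ => congrFun (stair_comp_rev d) i
  rw [h, Fin.sum_univ_eq_sum_range (fun i => i) d, Finset.sum_range_id]

theorem sum_val_eq (d : ℕ) : ∑ i : Fin d, (i : ℕ) = d * (d - 1) / 2 := by
  rw [Fin.sum_univ_eq_sum_range (fun i => i) d, Finset.sum_range_id]

theorem sum_sh (d : ℕ) (lam : Fin d → ℕ) : ∑ i, sh d lam i = ∑ i, lam i + d * (d - 1) / 2 := by
  simp only [sh]
  rw [Finset.sum_add_distrib, sum_stair]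

end Claimed.Agent.R296.Rep
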