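import Mathlib

/-!
# Row 296, BB_Rep, block L1-POLY (owner helper167): the polynomial Cauchy determinant

`alt_cauchy_det` : in a commutative domain, for injective `y`,
`det [∏_{a ≠ j} (1 - x i * y a)]_{i j} = ∏_{i<j} (x j - x i) * ∏_{i<j} (y j - y i)`.
-/

namespace Claimed.Agent.R296.Rep

open Finset Matrix

variable {B : Type*} [CommRing B] {d : ℕ}

/-- The matrix of coefficients of the polynomials `∏_{a ≠ j} (v - u * y a)`. -/
noncomputable def altC (y : Fin d → B) : Matrix (Fin d) (Fin d) B :=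
  Matrix.of fun m j => ∑ t ∈ powersetCard (m : ℕ) (univ.erase j), ∏ a ∈ t, (- y a)

theorem alt_projV_mul (u v y : Fin d → B) :
    projVandermonde u v * altC y =
      Matrix.of fun i j => ∏ a ∈ univ.erase j, (v i - u i * y a) := by
  ext i j
  have hd : 0 < d := lt_of_le_of_lt (Nat.zero_le _) i.2
  have hcard : #(univ.erase j : Finset (Fin d)) = d - 1 := by
    rw [card_erase_of_mem (mem_univ _)]; simp
  have h1 : ∏ a ∈ univ.erase j, (v i - u i * y a)
      = ∏ a ∈ univ.erase j, (u i * (- y a) + v i) := by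
    refine prod_congr rfl fun a _ => by ring
  rw [Matrix.of_apply, h1, Finset.prod_add, Finset.sum_powerset, hcard,
    Nat.sub_add_cancel hd, Matrix.mul_apply, ← Fin.sum_univ_eq_sum_range
      (fun m => ∑ t ∈ powersetCard m (univ.erase j),
        (∏ a ∈ t, u i * (- y a)) * ∏ a ∈ (univ.erase j) \ t, v i) d]
  refine sum_congr rfl fun m _ => ?_
  rw [projVandermonde_apply, altC, Matrix.of_apply, mul_sum]
  refine sum_congr rfl fun t ht => ?_
  rw [mem_powersetCard] at ht
  rw [prod_mul_distrib, prod_const, prod_const, card_sdiff_of_subset ht.1, ht.2, hcard]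
  have : (m.rev : ℕ) = d - 1 - m := by
    rw [Fin.val_rev]; omega
  rw [this]; ring


theorem alt_prod_erase (y : Fin d → B) :
    ∏ j : Fin d, ∏ a ∈ univ.erase j, (y j - y a)
      = (∏ i : Fin d, ∏ j ∈ Ioi i, (y i - y j)) * ∏ i : Fin d, ∏ j ∈ Ioi i, (y j - y i) := by
  have h1 : ∀ j : Fin d, ∏ a ∈ univ.erase j, (y j - y a)
      = (∏ a ∈ Ioi j, (y j - y a)) * ∏ a ∈ Iio j, (y j - y a) := by
    intro j
    rw [← prod_union]
    · refine prod_congr ?_ fun _ _ => rfl
      ext a
      simp only [mem_erase, mem_univ, and_true, mem_union, mem_Ioi, mem_Iio]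
      constructor
      · intro h; exact (lt_or_gt_of_ne h).symm
      · rintro (h | h)
        · exact h.ne'
        · exact h.ne
    · rw [disjoint_left]
      intro a ha hb
      rw [mem_Ioi] at ha; rw [mem_Iio] at hb
      exact absurd ha (not_lt.mpr hb.le)
  simp_rw [h1]
  rw [prod_mul_distrib]
  congr 1
  rw [prod_sigma', prod_sigma']
  refine prod_bij' (fun p _ => ⟨p.2, p.1⟩) (fun p _ => ⟨p.2, p.1⟩) ?_ ?_ ?_ ?_ ?_
  · rintro ⟨j, a⟩ h; simpa using h
  · rintro ⟨j, a⟩ h; simpa using h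
  · rintro ⟨j, a⟩ h; rfl
  · rintro ⟨j, a⟩ h; rfl
  · rintro ⟨j, a⟩ h; rfl

theorem alt_det_altC [IsDomain B] (y : Fin d → B) (hy : Function.Injective y) :
    (altC y).det = ∏ i : Fin d, ∏ j ∈ Ioi i, (y j - y i) := by
  have h2 := congrArg Matrix.det (alt_projV_mul 1 y y)
  have h3 : (Matrix.of fun i j => ∏ a ∈ univ.erase j, (y i - (1 : Fin d → B) i * y a))
      = Matrix.diagonal fun j => ∏ a ∈ univ.erase j, (y j - y a) := by
    ext i j
    by_cases hij : i = j
    · subst hij; simp
    · rw [Matrix.diagonal_apply_ne _ hij, Matrix.of_apply]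
      exact prod_eq_zero (mem_erase.mpr ⟨hij, mem_univ _⟩) (by simp)
  rw [h3, det_mul, det_projVandermonde, det_diagonal, alt_prod_erase] at h2
  have hne : (∏ i : Fin d, ∏ j ∈ Ioi i, (y i - y j)) ≠ 0 := by
    refine prod_ne_zero_iff.mpr fun i _ => prod_ne_zero_iff.mpr fun j hj => ?_
    rw [mem_Ioi] at hj
    exact sub_ne_zero.mpr fun h => hj.ne (hy h)
  refine mul_left_cancel₀ hne ?_
  rw [← h2]
  congr 1
  refine prod_congr rfl fun i _ => prod_congr rfl fun j _ => by simp

theorem alt_cauchy_det [IsDomain B] (x y : Fin d → B) (hy : Function.Injective y) :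
    (Matrix.of fun i j => ∏ a ∈ univ.erase j, (1 - x i * y a)).det
      = (∏ i : Fin d, ∏ j ∈ Ioi i, (x j - x i)) * ∏ i : Fin d, ∏ j ∈ Ioi i, (y j - y i) := by
  have h1 := congrArg Matrix.det (alt_projV_mul x 1 y)
  rw [det_mul, det_projVandermonde, alt_det_altC y hy] at h1
  rw [show (Matrix.of fun i j => ∏ a ∈ univ.erase j, (1 - x i * y a))
    = Matrix.of fun i j => ∏ a ∈ univ.erase j, ((1 : Fin d → B) i - x i * y a) from rfl, ← h1]
  congr 1
  refine prod_congr rfl fun i _ => prod_congr rfl fun j _ => by simp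


variable {A : Type*} [CommRing A] {d : ℕ}

/-- geometric series -/
theorem alt_geo (a : A) :
    (1 - PowerSeries.X * PowerSeries.C a) * PowerSeries.mk (fun m => a ^ m) = 1 := by
  have h := congrArg (PowerSeries.rescale a) (PowerSeries.mk_one_mul_one_sub_eq_one A)
  rw [map_mul, map_sub, map_one, PowerSeries.rescale_X, PowerSeries.rescale_mk] at h
  rw [mul_comm, mul_comm PowerSeries.X]
  simpa using h

theorem alt_sum_card_Ioi (d : ℕ) : ∑ i : Fin d, #(Ioi i) = ∑ i : Fin d, (i : ℕ) := by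
  rw [← Equiv.sum_comp Fin.revPerm (fun i : Fin d => (i : ℕ))]
  refine sum_congr rfl fun i _ => ?_
  rw [Fin.card_Ioi, Fin.revPerm_apply, Fin.val_rev]
  omega

theorem alt_vand_scale (x : Fin d → A) :
    (∏ i : Fin d, ∏ j ∈ Ioi i,
      (PowerSeries.X * PowerSeries.C (x j) - PowerSeries.X * PowerSeries.C (x i)))
      = PowerSeries.X ^ (∑ i : Fin d, (i : ℕ))
        * PowerSeries.C (∏ i : Fin d, ∏ j ∈ Ioi i, (x j - x i)) := by
  rw [← alt_sum_card_Ioi, ← prod_pow_eq_pow_sum, map_prod, ← prod_mul_distrib]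
  refine prod_congr rfl fun i _ => ?_
  rw [map_prod, ← prod_const, ← prod_mul_distrib]
  refine prod_congr rfl fun j _ => ?_
  rw [map_sub]; ring

theorem alt_cauchy_series [IsDomain A] (x y : Fin d → A) (hy : Function.Injective y) :
    (Matrix.of fun i j => PowerSeries.mk (fun m => (x i * y j) ^ m)).det
      = PowerSeries.X ^ (∑ i : Fin d, (i : ℕ))
        * PowerSeries.C ((∏ i : Fin d, ∏ j ∈ Ioi i, (x j - x i))
            * ∏ i : Fin d, ∏ j ∈ Ioi i, (y j - y i))
        * ∏ p : Fin d × Fin d, PowerSeries.mk (fun m => (x p.1 * y p.2) ^ m) := by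
  set G : Fin d → Fin d → PowerSeries A := fun i j => PowerSeries.mk (fun m => (x i * y j) ^ m)
    with hG
  set x' : Fin d → PowerSeries A := fun i => PowerSeries.X * PowerSeries.C (x i) with hx'
  set y' : Fin d → PowerSeries A := fun j => PowerSeries.C (y j) with hy'
  have hgeo : ∀ i j, (1 - x' i * y' j) * G i j = 1 := by
    intro i j
    have := alt_geo (x i * y j)
    rw [map_mul, ← mul_assoc] at this
    exact this
  have hy'inj : Function.Injective y' := fun a b h => hy (PowerSeries.C_injective h)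
  have hrow : (Matrix.of fun i j => (∏ a, (1 - x' i * y' a)) * G i j)
      = Matrix.of fun i j => ∏ a ∈ univ.erase j, (1 - x' i * y' a) := by
    ext i j
    rw [Matrix.of_apply, Matrix.of_apply, ← mul_prod_erase univ _ (mem_univ j),
      mul_right_comm, hgeo, one_mul]
  have hdet := Matrix.det_mul_column (fun i => ∏ a, (1 - x' i * y' a)) (Matrix.of G)
  rw [show (Matrix.of fun i j => (∏ a, (1 - x' i * y' a)) * (Matrix.of G) i j)
    = Matrix.of fun i j => (∏ a, (1 - x' i * y' a)) * G i j from rfl, hrow,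
    alt_cauchy_det x' y' hy'inj] at hdet
  have hP : (∏ i, ∏ a, (1 - x' i * y' a)) * ∏ p : Fin d × Fin d, G p.1 p.2 = 1 := by
    rw [← prod_product', ← Finset.univ_product_univ, ← prod_mul_distrib]
    exact prod_eq_one fun p _ => hgeo p.1 p.2
  have hvy : (∏ i : Fin d, ∏ j ∈ Ioi i, (y' j - y' i))
      = PowerSeries.C (∏ i : Fin d, ∏ j ∈ Ioi i, (y j - y i)) := by
    simp only [hy', map_prod, map_sub]
  calc (Matrix.of G).det = (Matrix.of G).det * ((∏ i, ∏ a, (1 - x' i * y' a))
          * ∏ p : Fin d × Fin d, G p.1 p.2) := by rw [hP, mul_one]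
    _ = ((∏ i, ∏ a, (1 - x' i * y' a)) * (Matrix.of G).det)
          * ∏ p : Fin d × Fin d, G p.1 p.2 := by ring
    _ = _ := by
      rw [← hdet, hvy, alt_vand_scale, map_mul]
      ring


/-- The alternant `det [x i ^ m j]`. -/
noncomputable def altA (x : Fin d → A) (m : Fin d → ℕ) : A :=
  (Matrix.of fun i j => x i ^ m j).det

theorem altA_eq_sum (x : Fin d → A) (m : Fin d → ℕ) :
    altA x m = ∑ σ : Equiv.Perm (Fin d), ((Equiv.Perm.sign σ : ℤ) : A) * ∏ i, x (σ i) ^ m i := by
  rw [altA, Matrix.det_apply']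
  rfl

theorem altA_delta (x : Fin d → A) :
    altA x (fun i => (i : ℕ)) = ∏ i : Fin d, ∏ j ∈ Ioi i, (x j - x i) := by
  rw [← Matrix.det_vandermonde]; rfl

theorem alt_cauchy_graded [IsDomain A] (x y : Fin d → A) (hy : Function.Injective y) (k : ℕ) :
    ∑ m ∈ finsuppAntidiag (univ : Finset (Fin d)) (k + ∑ i : Fin d, (i : ℕ)),
        altA x m * ∏ i, y i ^ (m i)
      = altA x (fun i => (i : ℕ)) * altA y (fun i => (i : ℕ))
        * ∑ M ∈ finsuppAntidiag (univ : Finset (Fin d × Fin d)) k,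
            ∏ p, (x p.1 * y p.2) ^ (M p) := by
  have h := congrArg (PowerSeries.coeff (k + ∑ i : Fin d, (i : ℕ))) (alt_cauchy_series x y hy)
  rw [mul_assoc, PowerSeries.coeff_X_pow_mul, PowerSeries.coeff_C_mul,
    PowerSeries.coeff_prod, Matrix.det_apply', map_sum] at h
  rw [altA_delta, altA_delta]
  simp only [PowerSeries.coeff_mk] at h
  rw [← h]
  simp_rw [altA_eq_sum, sum_mul]
  rw [sum_comm]
  refine sum_congr rfl fun σ _ => ?_
  rw [← map_intCast (PowerSeries.C (R := A)), PowerSeries.coeff_C_mul, PowerSeries.coeff_prod,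
    mul_sum]
  refine sum_congr rfl fun m _ => ?_
  simp only [Matrix.of_apply, PowerSeries.coeff_mk, mul_pow, prod_mul_distrib]
  ring

end Claimed.Agent.R296.Rep
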