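import Claimed.Agent.R296.Rep.AltMisc

set_option autoImplicit false
set_option linter.unusedSectionVars false

namespace Claimed.Agent.R296.Rep

open MvPolynomial Equiv

variable {κ : Type} [Fintype κ] [DecidableEq κ]

theorem pfix_eq_sum_monomial (d : ℕ) (π : Perm κ) :
    pfix d π = ∑ f : κ → Fin d with f ∘ π = f, monomial (altCont f) (1 : ℤ) := by
  rw [pfix_eq_pfixA, pfixA]
  refine Finset.sum_congr rfl fun f _ => ?_
  rw [alt_prod_eq_cont, alt_prod_X_pow]

theorem vdm_eq_sum_monomial (d : ℕ) :
    vdm d = ∑ w : Perm (Fin d), monomial (Finsupp.equivMapDomain w (toFs (stair d)))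
      ((Perm.sign w : ℤ)) := by
  rw [vdm_eq_alt, alt_eq_altA, show altA (X : Fin d → MvPolynomial (Fin d) ℤ) (stair d)
    = altA X (toFs (stair d)) from rfl, altA_X_eq_sum]
  simp

/-- expansion into permutation characters -/
theorem thetaSh_eq_sum (d : ℕ) (l : Fin d → ℕ) (π : Perm κ) :
    thetaSh d l π = ∑ w : Perm (Fin d), (Perm.sign w : ℤ) *
      (Fintype.card {f : κ → Fin d // f ∘ π = f ∧
        ∀ i, Fintype.card {j // f j = i} + stair d (w⁻¹ i) = l i} : ℤ) := by
  rw [thetaSh, vdm_eq_sum_monomial, pfix_eq_sum_monomial, Finset.sum_mul, coeff_sum]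
  refine Finset.sum_congr rfl fun w _ => ?_
  rw [Finset.mul_sum, coeff_sum]
  simp only [monomial_mul, mul_one, coeff_monomial]
  rw [← Finset.sum_filter, Finset.sum_const, Finset.filter_filter, Fintype.card_subtype,
    nsmul_eq_mul, mul_comm]
  congr 2
  refine congrArg Finset.card (Finset.filter_congr fun f _ => ?_)
  refine and_congr_right fun _ => ?_
  constructor
  · intro h i
    have := DFunLike.congr_fun h i
    rw [Finsupp.add_apply, Finsupp.equivMapDomain_apply, altCont_apply, toFs_apply,
      toFs_apply] at this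
    rw [Fintype.card_subtype, Perm.coe_inv]
    omega
  · intro h
    ext i
    have := h i
    rw [Fintype.card_subtype, Perm.coe_inv] at this
    rw [Finsupp.add_apply, Finsupp.equivMapDomain_apply, altCont_apply, toFs_apply,
      toFs_apply]
    omega

end Claimed.Agent.R296.Rep
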