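import Claimed.Agent.R296.Rep.AltChar

set_option autoImplicit false
set_option linter.unusedSectionVars false

namespace Claimed.Agent.R296.Rep

open MvPolynomial Equiv

variable {κ : Type} [Fintype κ] [DecidableEq κ]

/-- coefficients of `p_1 ^ k` -/
theorem coeff_p1_pow (d k : ℕ) (c : Fin d →₀ ℕ) :
    coeff c ((∑ i, X i : MvPolynomial (Fin d) ℤ) ^ k)
      = if ∑ i, c i = k then (Nat.multinomial Finset.univ c : ℤ) else 0 := by
  rw [Finset.sum_pow_eq_sum_piAntidiag, coeff_sum]
  have h1 : ∀ m ∈ Finset.piAntidiag (Finset.univ : Finset (Fin d)) k,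
      coeff c ((Nat.multinomial Finset.univ m : MvPolynomial (Fin d) ℤ) * ∏ i, X i ^ m i)
        = if m = c then (Nat.multinomial Finset.univ m : ℤ) else 0 := by
    intro m _
    rw [show (∏ i, (X i : MvPolynomial (Fin d) ℤ) ^ m i) = ∏ i, X i ^ (toFs m i) from rfl,
      alt_prod_X_pow, ← map_natCast (C : ℤ →+* MvPolynomial (Fin d) ℤ), C_mul_monomial,
      coeff_monomial, mul_one]
    by_cases h : m = c
    · rw [if_pos h, if_pos (by ext i; rw [toFs_apply, h])]
    · rw [if_neg h, if_neg (fun h' => h (by rw [← h']; rfl))]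
  rw [Finset.sum_congr rfl h1, Finset.sum_ite_eq']
  simp only [Finset.mem_piAntidiag, Finset.mem_univ, implies_true, and_true]

/-- determinant of falling factorials -/
theorem det_descFactorial (d : ℕ) (l : Fin d → ℕ) :
    (Matrix.of fun i j : Fin d => ((l i).descFactorial (stair d j) : ℤ)).det
      = ∏ i, ∏ j ∈ Finset.Ioi i, ((l i : ℤ) - l j) := by
  have h := Matrix.det_eval_matrixOfPolynomials_eq_det_vandermonde (fun i => (l i : ℤ))
    (fun j : Fin d => descPochhammer ℤ j) (fun i => descPochhammer_natDegree ℤ i)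
    (fun i => monic_descPochhammer ℤ i)
  simp only [descPochhammer_eval_eq_descFactorial] at h
  have h2 : (Matrix.of fun i j : Fin d => ((l i).descFactorial (stair d j) : ℤ))
      = (Matrix.of fun i j : Fin d => ((l i).descFactorial (j : ℕ) : ℤ)).submatrix id
          (Fin.revPerm : Perm (Fin d)) := by
    ext i j
    simp only [Matrix.of_apply, Matrix.submatrix_apply, id, Fin.revPerm_apply, Fin.val_rev, stair]
    congr 2
    omega
  rw [h2, Matrix.det_permute', ← h, ← altA_stair]
  have h3 := altA_comp_perm (fun i => (l i : ℤ)) (stair d ∘ Fin.revPerm) (Fin.revPerm : Perm (Fin d))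
  have h4 : (stair d ∘ Fin.revPerm) ∘ (Fin.revPerm : Perm (Fin d)) = stair d := by
    funext i; simp
  rw [h4] at h3
  rw [h3, stair_comp_rev]
  simp only [Int.cast_id]
  rfl

/-- Frobenius' degree formula -/
theorem thetaSh_one (d : ℕ) (l : Fin d → ℕ)
    (hs : ∑ i, l i = Fintype.card κ + d * (d - 1) / 2) :
    thetaSh d l (1 : Perm κ) * ∏ i, ((l i).factorial : ℤ)
      = ((Fintype.card κ).factorial : ℤ) * ∏ i, ∏ j ∈ Finset.Ioi i, ((l i : ℤ) - l j) := by
  rw [← det_descFactorial, Matrix.det_apply', thetaSh, pfix_one, vdm_eq_sum_monomial,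
    Finset.sum_mul, coeff_sum, Finset.sum_mul, Finset.mul_sum]
  refine Finset.sum_congr rfl fun w _ => ?_
  rw [coeff_monomial_mul', coeff_p1_pow]
  have hprod : ∏ i, (Matrix.of fun i j : Fin d => ((l i).descFactorial (stair d j) : ℤ)) (w i) i
      = ∏ i, ((l i).descFactorial (stair d (w.symm i)) : ℤ) := by
    rw [← Equiv.prod_comp w (fun i => ((l i).descFactorial (stair d (w.symm i)) : ℤ))]
    refine Finset.prod_congr rfl fun i _ => ?_
    rw [Matrix.of_apply, Equiv.symm_apply_apply]
  rw [hprod]
  set s : Fin d →₀ ℕ := Finsupp.equivMapDomain w (toFs (stair d)) with hsdef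
  have hsi : ∀ i, s i = stair d (w.symm i) := fun i => by
    rw [hsdef, Finsupp.equivMapDomain_apply, toFs_apply]
  have hsum_s : ∑ i, s i = d * (d - 1) / 2 := by
    simp only [hsi]
    rw [Equiv.sum_comp w.symm (stair d), sum_stair]
  by_cases hle : s ≤ toFs l
  · have hle' : ∀ i, s i ≤ l i := fun i => hle i
    rw [if_pos hle]
    have hsum : ∑ i, (toFs l - s) i = Fintype.card κ := by
      have h1 : ∑ i, (toFs l - s) i + ∑ i, s i = ∑ i, l i := by
        rw [← Finset.sum_add_distrib]
        refine Finset.sum_congr rfl fun i _ => ?_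
        rw [Finsupp.tsub_apply, toFs_apply]
        exact Nat.sub_add_cancel (hle' i)
      omega
    rw [if_pos hsum]
    have hm := Nat.multinomial_spec (Finset.univ : Finset (Fin d)) (⇑(toFs l - s))
    rw [hsum] at hm
    have hfac : ∏ i, (l i).factorial
        = (∏ i, ((toFs l - s) i).factorial) * ∏ i, (l i).descFactorial (stair d (w.symm i)) := by
      rw [← Finset.prod_mul_distrib]
      refine Finset.prod_congr rfl fun i _ => ?_
      rw [Finsupp.tsub_apply, toFs_apply, ← hsi]
      exact (Nat.factorial_mul_descFactorial (hle' i)).symm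
    have hfacZ : ∏ i, ((l i).factorial : ℤ)
        = (∏ i, (((toFs l - s) i).factorial : ℤ))
          * ∏ i, ((l i).descFactorial (stair d (w.symm i)) : ℤ) := by
      exact_mod_cast hfac
    have hmZ : (∏ i, (((toFs l - s) i).factorial : ℤ))
        * (Nat.multinomial Finset.univ (toFs l - s) : ℤ) = ((Fintype.card κ).factorial : ℤ) := by
      exact_mod_cast hm
    rw [hfacZ, ← hmZ]
    simp only [Int.cast_id]
    ring
  · rw [if_neg hle, zero_mul]
    have : ∃ i, l i < s i := by
      by_contra hcon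
      push Not at hcon
      exact hle fun i => hcon i
    obtain ⟨i, hi⟩ := this
    rw [Finset.prod_eq_zero (Finset.mem_univ i), mul_zero, mul_zero]
    rw [← hsi, Nat.descFactorial_eq_zero_iff_lt.mpr hi, Nat.cast_zero]

theorem theta_one_pos (d : ℕ) (lam : Fin d → ℕ) (hl : IsLab d (Fintype.card κ) lam) :
    0 < theta d lam (1 : Perm κ) := by
  have h := thetaSh_one (κ := κ) d (sh d lam) (by rw [sum_sh, hl.2])
  have h1 : (0 : ℤ) < ∏ i, (((sh d lam i).factorial : ℕ) : ℤ) :=
    Finset.prod_pos fun i _ => by exact_mod_cast Nat.factorial_pos _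
  have h2 : (0 : ℤ) < ((Fintype.card κ).factorial : ℤ)
      * ∏ i, ∏ j ∈ Finset.Ioi i, ((sh d lam i : ℤ) - sh d lam j) := by
    refine mul_pos (by exact_mod_cast Nat.factorial_pos _) ?_
    refine Finset.prod_pos fun i _ => Finset.prod_pos fun j hj => ?_
    have := sh_strictAnti d lam hl.1 (Finset.mem_Ioi.mp hj)
    omega
  rw [← h] at h2
  exact (pos_iff_pos_of_mul_pos h2).mpr h1

end Claimed.Agent.R296.Rep
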