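import Claimed.Agent.R296.Rep.AltBranch

set_option autoImplicit false
set_option linter.unusedSectionVars false

namespace Claimed.Agent.R296.Rep

open MvPolynomial Equiv

variable {κ : Type} [Fintype κ] [DecidableEq κ]

/-- the Euler operator `x_i ∂_i` -/
noncomputable def eulerT {d : ℕ} (i : Fin d) (Q : MvPolynomial (Fin d) ℤ) :
    MvPolynomial (Fin d) ℤ := X i * pderiv i Q

theorem eulerT_monomial {d : ℕ} (i : Fin d) (s : Fin d →₀ ℕ) (a : ℤ) :
    eulerT i (monomial s a) = monomial s (a * s i) := by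
  rw [eulerT, pderiv_monomial, X, monomial_mul, one_mul]
  by_cases h : s i = 0
  · simp [h]
  · have hs : Finsupp.single i 1 + (s - Finsupp.single i 1) = s := by
      ext j
      rw [Finsupp.add_apply, Finsupp.tsub_apply, Finsupp.single_apply]
      split_ifs with hj
      · subst hj; omega
      · omega
    rw [hs]

theorem eulerT_add {d : ℕ} (i : Fin d) (P Q : MvPolynomial (Fin d) ℤ) :
    eulerT i (P + Q) = eulerT i P + eulerT i Q := by
  rw [eulerT, map_add, mul_add]; rfl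

theorem eulerT_sum {d : ℕ} {ι : Type*} (i : Fin d) (s : Finset ι)
    (Q : ι → MvPolynomial (Fin d) ℤ) : eulerT i (∑ a ∈ s, Q a) = ∑ a ∈ s, eulerT i (Q a) := by
  rw [eulerT, map_sum, Finset.mul_sum]; rfl

theorem coeff_eulerT {d : ℕ} (i : Fin d) (Q : MvPolynomial (Fin d) ℤ) (m : Fin d →₀ ℕ) :
    coeff m (eulerT i Q) = (m i : ℤ) * coeff m Q := by
  induction Q using MvPolynomial.induction_on' with
  | monomial s a =>
    rw [eulerT_monomial, coeff_monomial, coeff_monomial]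
    split_ifs with h
    · subst h; ring
    · simp
  | add P Q hP hQ => rw [eulerT_add, coeff_add, coeff_add, hP, hQ]; ring

theorem eulerT_mul {d : ℕ} (i : Fin d) (P Q : MvPolynomial (Fin d) ℤ) :
    eulerT i (P * Q) = eulerT i P * Q + P * eulerT i Q := by
  rw [eulerT, eulerT, eulerT, pderiv_mul]; ring

theorem pderiv_p1 {d : ℕ} (i : Fin d) :
    pderiv i (∑ j, X j : MvPolynomial (Fin d) ℤ) = 1 := by
  rw [map_sum, Finset.sum_eq_single i]
  · exact pderiv_X_self i
  · intro j _ hj; exact pderiv_X_of_ne hj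
  · intro h; exact absurd (Finset.mem_univ _) h

theorem eulerT_p1_pow {d : ℕ} (i : Fin d) (n : ℕ) :
    eulerT i ((∑ j, X j : MvPolynomial (Fin d) ℤ) ^ (n + 1))
      = ((n : MvPolynomial (Fin d) ℤ) + 1) * (∑ j, X j) ^ n * X i := by
  rw [eulerT, pderiv_pow, pderiv_p1]
  simp only [Nat.add_sub_cancel, Nat.cast_add, Nat.cast_one]
  ring

theorem eulerT_X {d : ℕ} (i : Fin d) : eulerT i (X i : MvPolynomial (Fin d) ℤ) = X i := by
  rw [eulerT, pderiv_X_self, mul_one]

theorem eulerT_natCast_mul {d : ℕ} (i : Fin d) (c : MvPolynomial (Fin d) ℤ)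
    (hc : pderiv i c = 0) (Q : MvPolynomial (Fin d) ℤ) : eulerT i (c * Q) = c * eulerT i Q := by
  rw [eulerT, eulerT, pderiv_mul, hc]; ring

theorem eulerT_eulerT_p1_pow {d : ℕ} (i : Fin d) (n : ℕ) :
    eulerT i (eulerT i ((∑ j, X j : MvPolynomial (Fin d) ℤ) ^ (n + 2)))
      = ((n : MvPolynomial (Fin d) ℤ) + 2) * ((n : MvPolynomial (Fin d) ℤ) + 1)
          * (∑ j, X j) ^ n * X i ^ 2
        + ((n : MvPolynomial (Fin d) ℤ) + 2) * (∑ j, X j) ^ (n + 1) * X i := by
  have hc : pderiv i (((n + 1 : ℕ) : MvPolynomial (Fin d) ℤ) + 1) = 0 := by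
    rw [← Nat.cast_succ, ← map_natCast (C : ℤ →+* MvPolynomial (Fin d) ℤ)]
    exact pderiv_C
  rw [eulerT_p1_pow i (n + 1), mul_assoc, eulerT_natCast_mul i _ hc, eulerT_mul, eulerT_p1_pow,
    eulerT_X]
  push_cast
  ring

/-- logarithmic derivative of a product -/
theorem derivation_prod_log {d : ℕ} {ι : Type*}
    (D : Derivation ℤ (MvPolynomial (Fin d) ℤ) (MvPolynomial (Fin d) ℤ)) (s : Finset ι)
    (f g : ι → MvPolynomial (Fin d) ℤ) (h : ∀ a ∈ s, D (f a) = g a * f a) :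
    D (∏ a ∈ s, f a) = (∑ a ∈ s, g a) * ∏ a ∈ s, f a := by
  classical
  induction s using Finset.induction_on with
  | empty => simp
  | insert a s ha ih =>
    rw [Finset.prod_insert ha, Finset.sum_insert ha, D.leibniz,
      ih (fun b hb => h b (Finset.mem_insert_of_mem hb)), h a (Finset.mem_insert_self _ _)]
    simp only [smul_eq_mul]
    ring

/-- the derivation `∑ x_i² ∂_i` -/
noncomputable def derivSq (d : ℕ) :
    Derivation ℤ (MvPolynomial (Fin d) ℤ) (MvPolynomial (Fin d) ℤ) :=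
  ∑ i : Fin d, (X i ^ 2 : MvPolynomial (Fin d) ℤ) • pderiv i

theorem derivSq_apply (d : ℕ) (Q : MvPolynomial (Fin d) ℤ) :
    derivSq d Q = ∑ i, X i * eulerT i Q := by
  have h : (derivSq d : MvPolynomial (Fin d) ℤ → MvPolynomial (Fin d) ℤ)
      = ∑ i : Fin d, ⇑((X i ^ 2 : MvPolynomial (Fin d) ℤ) • (pderiv i :
          Derivation ℤ (MvPolynomial (Fin d) ℤ) (MvPolynomial (Fin d) ℤ))) := by
    rw [derivSq]
    exact map_sum (Derivation.coeFnAddMonoidHom (R := ℤ) (A := MvPolynomial (Fin d) ℤ)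
      (M := MvPolynomial (Fin d) ℤ)) _ _
  rw [h, Finset.sum_apply]
  refine Finset.sum_congr rfl fun i _ => ?_
  rw [Derivation.smul_apply, smul_eq_mul, eulerT]; ring

theorem derivSq_X (d : ℕ) (j : Fin d) : derivSq d (X j) = X j ^ 2 := by
  rw [derivSq_apply, Finset.sum_eq_single j]
  · rw [eulerT_X]; ring
  · intro i _ hi
    rw [eulerT, pderiv_X_of_ne (Ne.symm hi)]; simp
  · intro h; exact absurd (Finset.mem_univ _) h

theorem sum_Ioi_add (d : ℕ) (x : Fin d → MvPolynomial (Fin d) ℤ) :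
    ∑ i : Fin d, ∑ j ∈ Finset.Ioi i, (x i + x j) = ((d : MvPolynomial (Fin d) ℤ) - 1) * ∑ i, x i := by
  have h1 : ∑ i : Fin d, ∑ j ∈ Finset.Ioi i, x j = ∑ j : Fin d, ∑ i ∈ Finset.Iio j, x j := by
    rw [Finset.sum_sigma', Finset.sum_sigma']
    refine Finset.sum_bij' (fun p _ => ⟨p.2, p.1⟩) (fun p _ => ⟨p.2, p.1⟩) ?_ ?_ ?_ ?_ ?_
    · rintro ⟨j, a⟩ h; simpa using h
    · rintro ⟨j, a⟩ h; simpa using h
    · rintro ⟨j, a⟩ h; rfl
    · rintro ⟨j, a⟩ h; rfl
    · rintro ⟨j, a⟩ h; rfl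
  simp only [Finset.sum_add_distrib]
  rw [h1, ← Finset.sum_add_distrib, Finset.mul_sum]
  refine Finset.sum_congr rfl fun i _ => ?_
  rw [Finset.sum_const, Finset.sum_const, Fin.card_Ioi, Fin.card_Iio, ← add_nsmul, nsmul_eq_mul]
  congr 1
  have : d - 1 - (i : ℕ) + i = d - 1 := by have := i.2; omega
  rw [this, Nat.cast_sub (by have := i.2; omega)]
  simp

theorem derivSq_vdm (d : ℕ) :
    derivSq d (vdm d) = ((d : MvPolynomial (Fin d) ℤ) - 1) * (∑ i, X i) * vdm d := by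
  rw [vdm, ← sum_Ioi_add]
  refine derivation_prod_log _ _ _ _ fun i _ => ?_
  refine derivation_prod_log _ _ _ _ fun j _ => ?_
  rw [map_sub, derivSq_X, derivSq_X]; ring

theorem sum_eulerT_sq_vdm (d : ℕ) :
    ∑ i, eulerT i (eulerT i (vdm d)) = ((∑ j : Fin d, (j : ℤ) ^ 2 : ℤ) : MvPolynomial (Fin d) ℤ) * vdm d := by
  ext m
  rw [coeff_sum, ← map_intCast (C : ℤ →+* MvPolynomial (Fin d) ℤ), coeff_C_mul]
  simp only [coeff_eulerT]
  rw [vdm_eq_sum_monomial, coeff_sum]
  simp only [coeff_monomial]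
  by_cases h : ∃ w : Perm (Fin d), Finsupp.equivMapDomain w (toFs (stair d)) = m
  · obtain ⟨w, hw⟩ := h
    have hm : ∑ x, (m x : ℤ) ^ 2 = ∑ j : Fin d, (j : ℤ) ^ 2 := by
      rw [← hw]
      simp only [Finsupp.equivMapDomain_apply, toFs_apply]
      rw [Equiv.sum_comp w.symm (fun i => (stair d i : ℤ) ^ 2),
        ← Equiv.sum_comp Fin.revPerm (fun i => (stair d i : ℤ) ^ 2)]
      refine Finset.sum_congr rfl fun i _ => ?_
      have := congrFun (stair_comp_rev d) i
      simp only [Function.comp_apply] at this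
      rw [this]
    simp only [Int.cast_id]
    rw [← hm, Finset.sum_mul]
    refine Finset.sum_congr rfl fun x _ => by ring
  · push Not at h
    simp [h]

end Claimed.Agent.R296.Rep
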