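import Claimed.Agent.R296.Rep.AltPfix

set_option autoImplicit false
set_option linter.unusedSectionVars false

namespace Claimed.Agent.R296.Rep

open MvPolynomial Equiv

variable {κ : Type} [Fintype κ] [DecidableEq κ]

/-- sums over `finsuppAntidiag univ` and `piAntidiag univ` agree -/
theorem sum_finsuppAntidiag_eq_piAntidiag {ι M : Type*} [Fintype ι] [DecidableEq ι]
    [AddCommMonoid M] (n : ℕ) (F : (ι → ℕ) → M) :
    ∑ m ∈ Finset.finsuppAntidiag (Finset.univ : Finset ι) n, F m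
      = ∑ m ∈ Finset.piAntidiag (Finset.univ : Finset ι) n, F m := by
  refine Finset.sum_bij' (fun m _ => (m : ι → ℕ)) (fun m _ => Finsupp.equivFunOnFinite.symm m)
    ?_ ?_ ?_ ?_ ?_
  · intro m hm
    rw [Finset.mem_finsuppAntidiag] at hm
    rw [Finset.mem_piAntidiag]
    exact ⟨hm.1, fun _ _ => Finset.mem_univ _⟩
  · intro m hm
    rw [Finset.mem_piAntidiag] at hm
    rw [Finset.mem_finsuppAntidiag]
    exact ⟨hm.1, Finset.subset_univ _⟩
  · intro m _; ext i; rfl
  · intro m _; rfl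
  · intro m _; rfl

/-- weighted Burnside lemma -/
theorem burnside_weighted {ι A : Type} [Fintype ι] [DecidableEq ι] [CommRing A] (u : ι → A) :
    ∑ π : Perm κ, ∑ F : κ → ι, (if F ∘ π = F then ∏ j, u (F j) else 0)
      = (Fintype.card κ).factorial •
          ∑ n ∈ Finset.piAntidiag (Finset.univ : Finset ι) (Fintype.card κ), ∏ i, u i ^ n i := by
  have h := alt_burnside (κ := κ) u
  simp only [Finset.sum_filter] at h
  rw [h, nsmul_eq_mul, sum_finsuppAntidiag_eq_piAntidiag _ (fun n => ∏ i, u i ^ n i)]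

/-- polynomial form of Cauchy's determinant, universal case -/
theorem cauchy_poly_univ (d : ℕ) :
    (Matrix.of fun i j : Fin d => ∏ a ∈ Finset.univ.erase j,
        (1 - (X (Sum.inl i) : MvPolynomial (Fin d ⊕ Fin d) ℤ) * X (Sum.inr a))).det
      = (∏ i : Fin d, ∏ j ∈ Finset.Ioi i, (X (Sum.inl j) - X (Sum.inl i)))
        * ∏ i : Fin d, ∏ j ∈ Finset.Ioi i, (X (Sum.inr j) - X (Sum.inr i)) :=
  alt_cauchy_det (fun i => (X (Sum.inl i) : MvPolynomial (Fin d ⊕ Fin d) ℤ))
    (fun i => X (Sum.inr i)) (fun _ _ h => Sum.inr_injective (X_injective h))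

theorem cauchy_det_general {A : Type*} [CommRing A] (d : ℕ) (x y : Fin d → A) :
    (Matrix.of fun i j : Fin d => ∏ a ∈ Finset.univ.erase j, (1 - x i * y a)).det
      = (∏ i : Fin d, ∏ j ∈ Finset.Ioi i, (x j - x i))
        * ∏ i : Fin d, ∏ j ∈ Finset.Ioi i, (y j - y i) := by
  have h := congrArg (eval₂Hom (Int.castRingHom A) (Sum.elim x y)) (cauchy_poly_univ d)
  rw [RingHom.map_det] at h
  simp only [map_mul, map_prod, map_sub, eval₂Hom_X', Sum.elim_inl, Sum.elim_inr] at h
  rw [← h]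
  congr 1
  ext i j
  simp

theorem prod_Ioi_neg {A : Type*} [CommRing A] (d : ℕ) (x y : Fin d → A) :
    (∏ i : Fin d, ∏ j ∈ Finset.Ioi i, (x j - x i)) * ∏ i : Fin d, ∏ j ∈ Finset.Ioi i, (y j - y i)
      = (∏ i : Fin d, ∏ j ∈ Finset.Ioi i, (x i - x j))
        * ∏ i : Fin d, ∏ j ∈ Finset.Ioi i, (y i - y j) := by
  rw [← Finset.prod_mul_distrib, ← Finset.prod_mul_distrib]
  refine Finset.prod_congr rfl fun i _ => ?_
  rw [← Finset.prod_mul_distrib, ← Finset.prod_mul_distrib]
  refine Finset.prod_congr rfl fun j _ => by ring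

/-- polynomial form of Cauchy's determinant -/
theorem cauchy_poly {A : Type} [CommRing A] (d : ℕ) (x y : Fin d → A) (t : A) :
    ∑ w : Perm (Fin d), ((Perm.sign w : ℤ) : A) *
        ∏ i, ∏ j ∈ Finset.univ.erase (w i), (1 - t * x i * y j)
      = t ^ (d * (d - 1) / 2) * (∏ i, ∏ j ∈ Finset.Ioi i, (x i - x j))
          * ∏ i, ∏ j ∈ Finset.Ioi i, (y i - y j) := by
  have h := cauchy_det_general d (fun i => t * x i) y
  rw [prod_Ioi_neg, ← Matrix.det_transpose, Matrix.det_apply'] at h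
  simp only [Matrix.transpose_apply, Matrix.of_apply] at h
  rw [h]
  congr 1
  have h2 : ∀ i : Fin d, ∏ j ∈ Finset.Ioi i, (t * x i - t * x j)
      = t ^ (Finset.Ioi i).card * ∏ j ∈ Finset.Ioi i, (x i - x j) := by
    intro i
    rw [← Finset.prod_const, ← Finset.prod_mul_distrib]
    exact Finset.prod_congr rfl fun j _ => by ring
  simp only [h2]
  rw [Finset.prod_mul_distrib, Finset.prod_pow_eq_pow_sum, alt_sum_card_Ioi, sum_val_eq]

end Claimed.Agent.R296.Rep
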