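import Claimed.Agent.R296.Rep.AltTheta

set_option autoImplicit false
set_option linter.unusedSectionVars false

namespace Claimed.Agent.R296.Rep

open MvPolynomial Equiv

variable {κ : Type} [Fintype κ] [DecidableEq κ]

theorem pfixA_ofSubtype {A : Type*} [CommRing A] {d : ℕ} (x : Fin d → A) (p : κ → Prop)
    [DecidablePred p] (π : Perm (Subtype p)) :
    pfixA x (Perm.ofSubtype π) = (∑ i, x i) ^ Fintype.card {j // ¬ p j} * pfixA x π := by
  rw [← pfixA_one (κ := {j // ¬ p j}) x, pfixA, pfixA, pfixA, Finset.sum_mul_sum,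
    ← Finset.sum_product']
  refine Finset.sum_bij'
    (fun f _ => ((fun j : {j // ¬ p j} => f j.1), (fun j : {j // p j} => f j.1)))
    (fun gh _ => fun j => if h : p j then gh.2 ⟨j, h⟩ else gh.1 ⟨j, h⟩) ?_ ?_ ?_ ?_ ?_
  · intro f hf
    simp only [Finset.mem_filter, Finset.mem_univ, true_and, Finset.mem_product] at hf ⊢
    refine ⟨rfl, ?_⟩
    funext j
    have := congrFun hf j.1
    simp only [Function.comp_apply, Perm.ofSubtype_apply_coe] at this ⊢
    exact this
  · rintro ⟨g, h⟩ hgh
    simp only [Finset.mem_filter, Finset.mem_univ, true_and, Finset.mem_product] at hgh ⊢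
    funext j
    simp only [Function.comp_apply]
    by_cases hj : p j
    · have h1 : Perm.ofSubtype π j = (π ⟨j, hj⟩ : κ) := Perm.ofSubtype_apply_of_mem π hj
      have h2 : p (Perm.ofSubtype π j) := by rw [h1]; exact (π ⟨j, hj⟩).2
      rw [dif_pos hj, dif_pos h2]
      have h3 := congrFun hgh.2 ⟨j, hj⟩
      simp only [Function.comp_apply] at h3
      rw [← h3]
      congr 1
      exact Subtype.ext h1
    · have h1 : Perm.ofSubtype π j = j := Perm.ofSubtype_apply_of_not_mem π hj
      rw [h1]
  · intro f _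
    funext j
    by_cases hj : p j <;> simp [hj]
  · rintro ⟨g, h⟩ _
    refine Prod.ext ?_ ?_
    · funext j; simp [j.2]
    · funext j; simp [j.2]
  · intro f _
    rw [mul_comm]
    exact (Fintype.prod_subtype_mul_prod_subtype p (fun j => x (f j))).symm

/-- a permutation of a subset of the copies, extended by the identity -/
theorem pfix_ofSubtype (d : ℕ) (p : κ → Prop) [DecidablePred p] (π : Perm (Subtype p)) :
    pfix d (Perm.ofSubtype π) = (∑ i, X i) ^ Fintype.card {j // ¬ p j} * pfix d π := by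
  rw [pfix_eq_pfixA, pfix_eq_pfixA, pfixA_ofSubtype]

theorem pfixA_swap_two {A : Type*} [CommRing A] {d : ℕ} (x : Fin d → A) (a b : κ) (hab : a ≠ b)
    (huniv : (Finset.univ : Finset κ) = {a, b}) :
    pfixA x (swap a b) = ∑ i, x i ^ 2 := by
  rw [pfixA]
  refine Finset.sum_bij' (fun f _ => f a) (fun i _ => fun _ => i) ?_ ?_ ?_ ?_ ?_
  · intro f _; exact Finset.mem_univ _
  · intro i _; rw [Finset.mem_filter]; exact ⟨Finset.mem_univ _, rfl⟩
  · intro f hf
    simp only [Finset.mem_filter, Finset.mem_univ, true_and] at hf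
    funext j
    have hj : j ∈ ({a, b} : Finset κ) := huniv ▸ Finset.mem_univ j
    rw [Finset.mem_insert, Finset.mem_singleton] at hj
    rcases hj with rfl | rfl
    · rfl
    · have := congrFun hf a
      simp only [Function.comp_apply, swap_apply_left] at this
      exact this.symm
  · intro i _; rfl
  · intro f hf
    simp only [Finset.mem_filter, Finset.mem_univ, true_and] at hf
    have := congrFun hf a
    simp only [Function.comp_apply, swap_apply_left] at this
    rw [huniv, Finset.prod_pair hab, this, sq]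

theorem pfixA_swap {A : Type*} [CommRing A] {d : ℕ} (x : Fin d → A) (a b : κ) (hab : a ≠ b) :
    pfixA x (swap a b) = (∑ i, x i ^ 2) * (∑ i, x i) ^ (Fintype.card κ - 2) := by
  let p : κ → Prop := fun j => j = a ∨ j = b
  have hpa : p a := Or.inl rfl
  have hpb : p b := Or.inr rfl
  have h1 : swap a b = Perm.ofSubtype (swap (⟨a, hpa⟩ : Subtype p) ⟨b, hpb⟩) :=
    (Perm.ofSubtype_swap_eq (⟨a, hpa⟩ : Subtype p) ⟨b, hpb⟩).symm
  have hne : (⟨a, hpa⟩ : Subtype p) ≠ ⟨b, hpb⟩ := fun h => hab (congrArg Subtype.val h)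
  have huniv : (Finset.univ : Finset (Subtype p)) = {⟨a, hpa⟩, ⟨b, hpb⟩} := by
    ext ⟨j, hj⟩
    simp only [Finset.mem_univ, Finset.mem_insert, Finset.mem_singleton, Subtype.mk.injEq,
      true_iff]
    exact hj
  have hcard : Fintype.card {j // ¬ p j} = Fintype.card κ - 2 := by
    rw [Fintype.card_subtype_compl, ← Finset.card_univ (α := Subtype p), huniv,
      Finset.card_pair hne]
  rw [h1, pfixA_ofSubtype, pfixA_swap_two x _ _ hne huniv, hcard, mul_comm]

theorem pfix_swap (d : ℕ) (a b : κ) (hab : a ≠ b) :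
    pfix d (swap a b) = (∑ i, X i ^ 2) * (∑ i, X i) ^ (Fintype.card κ - 2) := by
  rw [pfix_eq_pfixA, pfixA_swap _ a b hab]

end Claimed.Agent.R296.Rep
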