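import Claimed.Agent.R296.Rep.AltBridge

set_option autoImplicit false
set_option linter.unusedSectionVars false

namespace Claimed.Agent.R296.Rep

open MvPolynomial Equiv

variable {κ : Type} [Fintype κ] [DecidableEq κ]

/-! ### the fixed-point polynomials -/

theorem pfixA_one {A : Type*} [CommRing A] {d : ℕ} (x : Fin d → A) :
    pfixA x (1 : Perm κ) = (∑ i, x i) ^ Fintype.card κ := by
  rw [pfixA, ← Finset.card_univ, ← Finset.prod_const, Finset.prod_univ_sum,
    Fintype.piFinset_univ]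
  refine Finset.sum_congr ?_ fun _ _ => rfl
  ext f; simp

theorem pfix_one (d : ℕ) : pfix d (1 : Perm κ) = (∑ i, X i) ^ Fintype.card κ := by
  rw [pfix_eq_pfixA, pfixA_one]

theorem pfixA_inv {A : Type*} [CommRing A] {d : ℕ} (x : Fin d → A) (π : Perm κ) :
    pfixA x π⁻¹ = pfixA x π := by
  rw [pfixA, pfixA]
  refine Finset.sum_congr ?_ fun _ _ => rfl
  ext f
  simp only [Finset.mem_filter, Finset.mem_univ, true_and]
  constructor
  · intro h
    funext j
    have := congrFun h (π j)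
    simp only [Function.comp_apply, Perm.coe_inv, Equiv.symm_apply_apply] at this ⊢
    exact this.symm
  · intro h
    funext j
    have := congrFun h (π.symm j)
    simp only [Function.comp_apply, Perm.coe_inv, Equiv.apply_symm_apply] at this ⊢
    exact this.symm

theorem pfix_inv (d : ℕ) (π : Perm κ) : pfix d π⁻¹ = pfix d π := by
  rw [pfix_eq_pfixA, pfix_eq_pfixA, pfixA_inv]

theorem pfixA_conj {A : Type*} [CommRing A] {d : ℕ} (x : Fin d → A) (π σ : Perm κ) :
    pfixA x (σ * π * σ⁻¹) = pfixA x π := by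
  rw [pfixA, pfixA]
  refine Finset.sum_bij' (fun f _ => f ∘ σ) (fun f _ => f ∘ σ.symm) ?_ ?_ ?_ ?_ ?_
  · intro f hf
    simp only [Finset.mem_filter, Finset.mem_univ, true_and] at hf ⊢
    funext j
    have := congrFun hf (σ j)
    simpa using this
  · intro f hf
    simp only [Finset.mem_filter, Finset.mem_univ, true_and] at hf ⊢
    funext j
    have := congrFun hf (σ.symm j)
    simpa using this
  · intro f _; funext j; simp
  · intro f _; funext j; simp
  · intro f _
    exact (Equiv.prod_comp σ (fun j => x (f j))).symm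

theorem pfix_conj (d : ℕ) (π σ : Perm κ) : pfix d (σ * π * σ⁻¹) = pfix d π := by
  rw [pfix_eq_pfixA, pfix_eq_pfixA, pfixA_conj]

theorem pfixA_comp_perm {A : Type*} [CommRing A] {d : ℕ} (x : Fin d → A) (π : Perm κ)
    (w : Perm (Fin d)) : pfixA (fun i => x (w i)) π = pfixA x π := by
  rw [pfixA, pfixA]
  refine Finset.sum_bij' (fun f _ => w ∘ f) (fun f _ => w.symm ∘ f) ?_ ?_ ?_ ?_ ?_
  · intro f hf
    simp only [Finset.mem_filter, Finset.mem_univ, true_and] at hf ⊢
    rw [Function.comp_assoc, hf]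
  · intro f hf
    simp only [Finset.mem_filter, Finset.mem_univ, true_and] at hf ⊢
    rw [Function.comp_assoc, hf]
  · intro f _; funext j; simp
  · intro f _; funext j; simp
  · intro f _; rfl

theorem pfix_symm (d : ℕ) (π : Perm κ) (w : Perm (Fin d)) :
    rename w (pfix d π) = pfix d π := by
  rw [pfix_eq_pfixA]
  have h := pfixA_map (rename w : MvPolynomial (Fin d) ℤ →ₐ[ℤ] MvPolynomial (Fin d) ℤ).toRingHom
    (X : Fin d → MvPolynomial (Fin d) ℤ) π
  simp only [AlgHom.toRingHom_eq_coe, RingHom.coe_coe, rename_X] at h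
  rw [h, pfixA_comp_perm]

theorem pfix_isHomogeneous (d : ℕ) (π : Perm κ) : (pfix d π).IsHomogeneous (Fintype.card κ) := by
  rw [pfix]
  refine IsHomogeneous.sum _ _ _ fun f _ => ?_
  split_ifs
  · have := IsHomogeneous.prod (Finset.univ : Finset κ)
      (fun j => (X (f j) : MvPolynomial (Fin d) ℤ)) (fun _ => 1) (fun j _ => isHomogeneous_X _ _)
    simpa using this
  · exact isHomogeneous_zero _ _ _

theorem vdm_isHomogeneous (d : ℕ) : (vdm d).IsHomogeneous (d * (d - 1) / 2) := by
  rw [vdm_eq_alt, alt]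
  refine IsHomogeneous.sum _ _ _ fun w _ => ?_
  rw [zsmul_eq_mul, ← map_intCast (C : ℤ →+* MvPolynomial (Fin d) ℤ), ← zero_add (d * (d - 1) / 2)]
  refine (isHomogeneous_C _ _).mul ?_
  rw [← sum_stair]
  exact IsHomogeneous.prod _ _ _ fun i _ => (isHomogeneous_X_pow _ _)

/-! ### alternating polynomials -/

/-- alternating polynomials -/
def IsAltPoly {d : ℕ} (Q : MvPolynomial (Fin d) ℤ) : Prop :=
  ∀ w : Perm (Fin d), rename w Q = ((Perm.sign w : ℤ)) • Q

theorem isAltPoly_alt (d : ℕ) (m : Fin d → ℕ) : IsAltPoly (alt d m) := by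
  intro w
  rw [alt_eq_altA]
  have h := altA_map (rename w : MvPolynomial (Fin d) ℤ →ₐ[ℤ] MvPolynomial (Fin d) ℤ).toRingHom
    (X : Fin d → MvPolynomial (Fin d) ℤ) m
  simp only [AlgHom.toRingHom_eq_coe, RingHom.coe_coe, rename_X] at h
  rw [h, altA, altA, zsmul_eq_mul, ← Matrix.det_permute]
  rfl

theorem IsAltPoly.mul_symm {d : ℕ} {Q P : MvPolynomial (Fin d) ℤ} (hQ : IsAltPoly Q)
    (hP : ∀ w : Perm (Fin d), rename w P = P) : IsAltPoly (Q * P) := by
  intro w
  rw [map_mul, hQ w, hP w, smul_mul_assoc]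

theorem IsAltPoly.smul {d : ℕ} {Q : MvPolynomial (Fin d) ℤ} (hQ : IsAltPoly Q) (c : ℤ) :
    IsAltPoly (c • Q) := by
  intro w
  rw [map_zsmul, hQ w, smul_comm]

theorem IsAltPoly.sum {d : ℕ} {ι : Type*} (s : Finset ι) (Q : ι → MvPolynomial (Fin d) ℤ)
    (hQ : ∀ i ∈ s, IsAltPoly (Q i)) : IsAltPoly (∑ i ∈ s, Q i) := by
  intro w
  rw [map_sum, Finset.smul_sum]
  exact Finset.sum_congr rfl fun i hi => hQ i hi w

theorem isAltPoly_vdm_mul_pfix (d : ℕ) (π : Perm κ) : IsAltPoly (vdm d * pfix d π) := by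
  rw [vdm_eq_alt]
  exact (isAltPoly_alt d _).mul_symm (pfix_symm d π)

theorem mapDomain_toFs_comp {d : ℕ} (l : Fin d → ℕ) (w : Perm (Fin d)) :
    Finsupp.mapDomain w (toFs (l ∘ w)) = toFs l := by
  ext i
  have := Finsupp.mapDomain_apply w.injective (toFs (l ∘ w)) (w.symm i)
  rw [Equiv.apply_symm_apply] at this
  rw [this, toFs_apply, toFs_apply, Function.comp_apply, Equiv.apply_symm_apply]

theorem IsAltPoly.coeff_comp_perm {d : ℕ} {Q : MvPolynomial (Fin d) ℤ} (hQ : IsAltPoly Q)
    (l : Fin d → ℕ) (w : Perm (Fin d)) :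
    coeff (toFs (l ∘ w)) Q = (Perm.sign w : ℤ) * coeff (toFs l) Q := by
  have h := coeff_rename_mapDomain w w.injective Q (toFs (l ∘ w))
  rw [mapDomain_toFs_comp, hQ w, coeff_smul, smul_eq_mul] at h
  exact h.symm

theorem IsAltPoly.coeff_eq_zero {d : ℕ} {Q : MvPolynomial (Fin d) ℤ} (hQ : IsAltPoly Q)
    (l : Fin d → ℕ) (h : ¬ Function.Injective l) : coeff (toFs l) Q = 0 := by
  rw [Function.Injective] at h
  push Not at h
  obtain ⟨a, b, hab, hne⟩ := h
  have h1 := hQ.coeff_comp_perm l (swap a b)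
  have h2 : l ∘ swap a b = l := by
    funext i
    rw [Function.comp_apply]
    by_cases hia : i = a
    · subst hia; rw [swap_apply_left, hab]
    · by_cases hib : i = b
      · subst hib; rw [swap_apply_right, hab]
      · rw [swap_apply_of_ne_of_ne hia hib]
  rw [h2, Perm.sign_swap hne] at h1
  simp only [Units.val_neg, Units.val_one] at h1
  omega

theorem exists_perm_strictAnti {d : ℕ} (l : Fin d → ℕ) (h : Function.Injective l) :
    ∃ w : Perm (Fin d), StrictAnti (l ∘ w) := by
  refine ⟨Fin.revPerm.trans (Tuple.sort l), ?_⟩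
  have h1 : Antitone (l ∘ (Fin.revPerm.trans (Tuple.sort l))) := by
    intro a b hab
    have := Tuple.monotone_sort l (Fin.rev_le_rev.mpr hab)
    simpa using this
  exact h1.strictAnti_of_injective (h.comp (Equiv.injective _))

/-- alternating polynomials are determined by their strictly decreasing coefficients -/
theorem IsAltPoly.ext {d : ℕ} {Q Q' : MvPolynomial (Fin d) ℤ} (hQ : IsAltPoly Q)
    (hQ' : IsAltPoly Q')
    (h : ∀ l : Fin d → ℕ, StrictAnti l → coeff (toFs l) Q = coeff (toFs l) Q') : Q = Q' := by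
  ext m
  obtain ⟨l, rfl⟩ : ∃ l : Fin d → ℕ, toFs l = m := ⟨m, by ext i; rfl⟩
  by_cases hl : Function.Injective l
  · obtain ⟨w, hw⟩ := exists_perm_strictAnti l hl
    have h1 := hQ.coeff_comp_perm l w
    have h2 := hQ'.coeff_comp_perm l w
    rw [h _ hw, h2] at h1
    have hs : ((Perm.sign w : ℤ)) ≠ 0 := by
      rcases Int.units_eq_one_or (Perm.sign w) with h | h <;> simp [h]
    exact (mul_left_cancel₀ hs h1).symm
  · rw [hQ.coeff_eq_zero l hl, hQ'.coeff_eq_zero l hl]

end Claimed.Agent.R296.Rep
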