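import Claimed.Agent.R296.Rep.AltSwap

set_option autoImplicit false
set_option linter.unusedSectionVars false

namespace Claimed.Agent.R296.Rep

open MvPolynomial Equiv

variable {κ : Type} [Fintype κ] [DecidableEq κ]

/-- dependence of the Vandermonde product on one entry -/
theorem vand_update {A : Type*} [CommRing A] {d : ℕ} (u : Fin d → A) (i : Fin d) (c : A) :
    ∏ a, ∏ b ∈ Finset.Ioi a, (Function.update u i c a - Function.update u i c b)
      = ((-1) ^ (Finset.Iio i).card
          * ∏ a ∈ Finset.univ.erase i, ∏ b ∈ (Finset.Ioi a).erase i, (u a - u b))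
        * ∏ j ∈ Finset.univ.erase i, (c - u j) := by
  rw [← Finset.mul_prod_erase Finset.univ _ (Finset.mem_univ i)]
  have h1 : ∏ b ∈ Finset.Ioi i, (Function.update u i c i - Function.update u i c b)
      = ∏ b ∈ Finset.Ioi i, (c - u b) := by
    refine Finset.prod_congr rfl fun b hb => ?_
    rw [Function.update_self, Function.update_of_ne (Finset.mem_Ioi.mp hb).ne']
  have h2 : ∀ a ∈ Finset.univ.erase i,
      ∏ b ∈ Finset.Ioi a, (Function.update u i c a - Function.update u i c b)
      = (if a < i then (u a - c) else 1) * ∏ b ∈ (Finset.Ioi a).erase i, (u a - u b) := by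
    intro a ha
    have hai : a ≠ i := (Finset.mem_erase.mp ha).1
    split_ifs with hlt
    · rw [← Finset.mul_prod_erase (Finset.Ioi a) _ (Finset.mem_Ioi.mpr hlt),
        Function.update_of_ne hai, Function.update_self]
      congr 1
      refine Finset.prod_congr rfl fun b hb => ?_
      rw [Function.update_of_ne (Finset.mem_erase.mp hb).1]
    · rw [one_mul, Finset.erase_eq_of_notMem (fun h => hlt (Finset.mem_Ioi.mp h))]
      refine Finset.prod_congr rfl fun b hb => ?_
      have hbi : b ≠ i := by
        intro h; subst h; exact hlt (Finset.mem_Ioi.mp hb)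
      rw [Function.update_of_ne hai, Function.update_of_ne hbi]
  rw [h1, Finset.prod_congr rfl h2, Finset.prod_mul_distrib, ← Finset.prod_filter]
  have h3 : (Finset.univ.erase i).filter (fun a => a < i) = Finset.Iio i := by
    ext a
    simp only [Finset.mem_filter, Finset.mem_erase, Finset.mem_univ, and_true, Finset.mem_Iio]
    exact ⟨fun h => h.2, fun h => ⟨h.ne, h⟩⟩
  have h4 : ∏ a ∈ Finset.Iio i, (u a - c)
      = (-1) ^ (Finset.Iio i).card * ∏ a ∈ Finset.Iio i, (c - u a) := by
    rw [← Finset.prod_const, ← Finset.prod_mul_distrib]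
    exact Finset.prod_congr rfl fun a _ => by ring
  have h5 : ∏ j ∈ Finset.univ.erase i, (c - u j)
      = (∏ b ∈ Finset.Ioi i, (c - u b)) * ∏ a ∈ Finset.Iio i, (c - u a) := by
    rw [← Finset.prod_union]
    · refine Finset.prod_congr ?_ fun _ _ => rfl
      ext a
      simp only [Finset.mem_erase, Finset.mem_univ, and_true, Finset.mem_union, Finset.mem_Ioi,
        Finset.mem_Iio]
      constructor
      · intro h; exact (lt_or_gt_of_ne h).symm
      · rintro (h | h)
        · exact h.ne'
        · exact h.ne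
    · rw [Finset.disjoint_left]
      intro a ha hb
      rw [Finset.mem_Ioi] at ha; rw [Finset.mem_Iio] at hb
      exact absurd ha (not_lt.mpr hb.le)
  rw [h3, h4, h5]
  ring

theorem vand_update_cross {A : Type*} [CommRing A] {d : ℕ} (u : Fin d → A) (i : Fin d) (c : A) :
    (∏ a, ∏ b ∈ Finset.Ioi a, (Function.update u i c a - Function.update u i c b))
        * ∏ j ∈ Finset.univ.erase i, (u i - u j)
      = (∏ a, ∏ b ∈ Finset.Ioi a, (u a - u b)) * ∏ j ∈ Finset.univ.erase i, (c - u j) := by
  have h1 := vand_update u i c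
  have h2 := vand_update u i (u i)
  rw [Function.update_eq_self] at h2
  rw [h1, h2]
  ring

/-- ratio of the degrees along a branch -/
theorem theta_one_subBox (d : ℕ) (lam : Fin d → ℕ) (hl : IsLab d (Fintype.card κ) lam)
    (j₀ : κ) (i : Fin d) (hi : Removable lam i) :
    (Fintype.card κ : ℤ) * theta d (subBox lam i) (1 : Perm {j // j ≠ j₀})
        * ∏ j ∈ Finset.univ.erase i, ((sh d lam i : ℤ) - sh d lam j)
      = (sh d lam i : ℤ) * theta d lam (1 : Perm κ)
        * ∏ j ∈ Finset.univ.erase i, ((sh d lam i : ℤ) - 1 - sh d lam j) := by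
  set l := sh d lam with hldef
  have hli : 1 ≤ l i := by have := hi.1; simp only [hldef, sh]; omega
  have hcard : Fintype.card {j // j ≠ j₀} + 1 = Fintype.card κ := by
    rw [Fintype.card_subtype_compl, Fintype.card_subtype_eq]
    have : 0 < Fintype.card κ := Fintype.card_pos_iff.mpr ⟨j₀⟩
    omega
  have hsuml : ∑ a, l a = Fintype.card κ + d * (d - 1) / 2 := by rw [hldef, sum_sh, hl.2]
  have hsum' : ∑ a, subBox l i a + 1 = ∑ a, l a := by
    rw [← Finset.add_sum_erase Finset.univ _ (Finset.mem_univ i),
      ← Finset.add_sum_erase Finset.univ l (Finset.mem_univ i)]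
    have : ∑ a ∈ Finset.univ.erase i, subBox l i a = ∑ a ∈ Finset.univ.erase i, l a := by
      refine Finset.sum_congr rfl fun a ha => ?_
      rw [subBox, Function.update_of_ne (Finset.mem_erase.mp ha).1]
    rw [this, subBox, Function.update_self]
    omega
  have h1 := thetaSh_one (κ := κ) d l hsuml
  have h2 := thetaSh_one (κ := {j // j ≠ j₀}) d (subBox l i) (by omega)
  have hfac : ∏ a, ((l a).factorial : ℤ) = (l i : ℤ) * ∏ a, ((subBox l i a).factorial : ℤ) := by
    rw [← Finset.mul_prod_erase Finset.univ _ (Finset.mem_univ i),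
      ← Finset.mul_prod_erase Finset.univ (fun a => ((subBox l i a).factorial : ℤ))
        (Finset.mem_univ i)]
    have : ∏ a ∈ Finset.univ.erase i, ((subBox l i a).factorial : ℤ)
        = ∏ a ∈ Finset.univ.erase i, ((l a).factorial : ℤ) := by
      refine Finset.prod_congr rfl fun a ha => ?_
      rw [subBox, Function.update_of_ne (Finset.mem_erase.mp ha).1]
    rw [this, subBox, Function.update_self, ← mul_assoc]
    congr 1
    have := Nat.mul_factorial_pred (show l i ≠ 0 by omega)
    exact_mod_cast this.symm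
  have hkfac : ((Fintype.card κ).factorial : ℤ)
      = (Fintype.card κ : ℤ) * ((Fintype.card {j // j ≠ j₀}).factorial : ℤ) := by
    rw [← hcard, Nat.factorial_succ]; push_cast; ring
  have hcross := vand_update_cross (fun a => (l a : ℤ)) i ((l i : ℤ) - 1)
  have hupd : ∀ a, Function.update (fun a => (l a : ℤ)) i ((l i : ℤ) - 1) a = (subBox l i a : ℤ) := by
    intro a
    rw [subBox]
    by_cases ha : a = i
    · subst ha; rw [Function.update_self, Function.update_self]; omega
    · rw [Function.update_of_ne ha, Function.update_of_ne ha]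
  simp only [hupd] at hcross
  have hF : (∏ a, ((subBox l i a).factorial : ℤ)) ≠ 0 :=
    Finset.prod_ne_zero_iff.mpr fun a _ => by exact_mod_cast (Nat.factorial_pos _).ne'
  rw [theta, theta, sh_subBox lam i hi.1, ← hldef]
  refine mul_right_cancel₀ hF ?_
  rw [hfac] at h1
  rw [hkfac] at h1
  set T' := thetaSh d (subBox l i) (1 : Perm {j // j ≠ j₀})
  set T := thetaSh d l (1 : Perm κ)
  set F := ∏ a, ((subBox l i a).factorial : ℤ)
  set V' := ∏ a, ∏ b ∈ Finset.Ioi a, ((subBox l i a : ℤ) - (subBox l i b : ℤ))
  set V := ∏ a, ∏ b ∈ Finset.Ioi a, ((l a : ℤ) - (l b : ℤ))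
  set E := ∏ j ∈ Finset.univ.erase i, ((l i : ℤ) - (l j : ℤ))
  set E' := ∏ j ∈ Finset.univ.erase i, ((l i : ℤ) - 1 - (l j : ℤ))
  set K := (Fintype.card κ : ℤ)
  set K' := ((Fintype.card {j // j ≠ j₀}).factorial : ℤ)
  -- h1 : T * (l i * F) = K * K' * V ; h2 : T' * F = K' * V' ; hcross : V' * E = V * E'
  linear_combination (K * E) * h2 - E' * h1 + (K * K') * hcross

end Claimed.Agent.R296.Rep
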