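import Claimed.Agent.R296.Rep.AltEuler

set_option autoImplicit false
set_option linter.unusedSectionVars false

namespace Claimed.Agent.R296.Rep

open MvPolynomial Equiv

variable {κ : Type} [Fintype κ] [DecidableEq κ]

theorem sum_eulerT_sq_main (d n : ℕ) :
    ∑ i, eulerT i (eulerT i (vdm d * (∑ j, X j : MvPolynomial (Fin d) ℤ) ^ (n + 2)))
      = ((n : MvPolynomial (Fin d) ℤ) + 2) * ((n : MvPolynomial (Fin d) ℤ) + 1)
          * (vdm d * ((∑ j, X j ^ 2) * (∑ j, X j) ^ n))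
        + (((n : MvPolynomial (Fin d) ℤ) + 2) * (2 * (d : MvPolynomial (Fin d) ℤ) - 1)
            + ((∑ j : Fin d, (j : ℤ) ^ 2 : ℤ) : MvPolynomial (Fin d) ℤ))
          * (vdm d * (∑ j, X j) ^ (n + 2)) := by
  have h1 : ∀ i : Fin d,
      eulerT i (eulerT i (vdm d * (∑ j, X j : MvPolynomial (Fin d) ℤ) ^ (n + 2)))
      = eulerT i (eulerT i (vdm d)) * (∑ j, X j) ^ (n + 2)
        + 2 * (((n : MvPolynomial (Fin d) ℤ) + 2) * (∑ j, X j) ^ (n + 1)) * (X i * eulerT i (vdm d))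
        + vdm d * (((n : MvPolynomial (Fin d) ℤ) + 2) * ((n : MvPolynomial (Fin d) ℤ) + 1)
          * (∑ j, X j) ^ n * X i ^ 2
        + ((n : MvPolynomial (Fin d) ℤ) + 2) * (∑ j, X j) ^ (n + 1) * X i) := by
    intro i
    rw [eulerT_mul, eulerT_add, eulerT_mul, eulerT_mul, eulerT_eulerT_p1_pow,
      eulerT_p1_pow i (n + 1)]
    push_cast
    ring
  simp only [h1, Finset.sum_add_distrib, ← Finset.sum_mul, ← Finset.mul_sum]
  rw [sum_eulerT_sq_vdm, ← derivSq_apply, derivSq_vdm]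
  ring

/-- the value at a transposition (Jucys-Murphy input) -/
theorem thetaSh_swap (d : ℕ) (l : Fin d → ℕ) (a b : κ) (hab : a ≠ b) :
    ((Fintype.card κ : ℤ) * ((Fintype.card κ : ℤ) - 1)) * thetaSh d l (swap a b)
      = (∑ i, (l i : ℤ) ^ 2 - (Fintype.card κ : ℤ) * (2 * d - 1) - ∑ j : Fin d, (j : ℤ) ^ 2)
          * thetaSh d l (1 : Perm κ) := by
  obtain ⟨n, hn⟩ : ∃ n, Fintype.card κ = n + 2 := by
    have : 1 < Fintype.card κ := Fintype.one_lt_card_iff.mpr ⟨a, b, hab⟩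
    exact ⟨Fintype.card κ - 2, by omega⟩
  have h := congrArg (coeff (toFs l)) (sum_eulerT_sq_main d n)
  rw [coeff_sum] at h
  simp only [coeff_eulerT] at h
  have e1 : ((n : MvPolynomial (Fin d) ℤ) + 2) * ((n : MvPolynomial (Fin d) ℤ) + 1)
      = C (((n : ℤ) + 2) * ((n : ℤ) + 1)) := by
    simp
  have e2 : (((n : MvPolynomial (Fin d) ℤ) + 2) * (2 * (d : MvPolynomial (Fin d) ℤ) - 1)
            + ((∑ j : Fin d, (j : ℤ) ^ 2 : ℤ) : MvPolynomial (Fin d) ℤ))
      = C (((n : ℤ) + 2) * (2 * (d : ℤ) - 1) + ∑ j : Fin d, (j : ℤ) ^ 2) := by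
    simp
  rw [e1, e2, coeff_add, coeff_C_mul, coeff_C_mul] at h
  rw [thetaSh, thetaSh, pfix_swap d a b hab, pfix_one, hn]
  simp only [Nat.add_sub_cancel, toFs_apply] at h ⊢
  have h3 : ∑ x, (l x : ℤ) * ((l x : ℤ) * coeff (toFs l) (vdm d * (∑ j, X j) ^ (n + 2)))
      = (∑ i, (l i : ℤ) ^ 2) * coeff (toFs l) (vdm d * (∑ j, X j) ^ (n + 2)) := by
    rw [Finset.sum_mul]
    exact Finset.sum_congr rfl fun x _ => by ring
  rw [h3] at h
  push_cast
  linear_combination -h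

theorem theta_swap (d : ℕ) (lam : Fin d → ℕ) (hl : IsLab d (Fintype.card κ) lam) (a b : κ)
    (hab : a ≠ b) :
    ((Fintype.card κ : ℤ) * ((Fintype.card κ : ℤ) - 1)) * theta d lam (swap a b)
      = 2 * contentSum lam * theta d lam (1 : Perm κ) := by
  rw [theta, theta, thetaSh_swap d _ a b hab]
  congr 1
  have hk : (Fintype.card κ : ℤ) = ∑ i, (lam i : ℤ) := by
    rw [← hl.2]; push_cast; rfl
  have hj : ∑ j : Fin d, (j : ℤ) ^ 2 = ∑ i : Fin d, (stair d i : ℤ) ^ 2 := by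
    rw [← Equiv.sum_comp Fin.revPerm (fun i => (stair d i : ℤ) ^ 2)]
    refine Finset.sum_congr rfl fun i _ => ?_
    have := congrFun (stair_comp_rev d) i
    simp only [Function.comp_apply] at this
    rw [this]
  rw [hk, hj, contentSum, Finset.sum_mul, Finset.mul_sum, ← Finset.sum_sub_distrib,
    ← Finset.sum_sub_distrib]
  refine Finset.sum_congr rfl fun i _ => ?_
  have hst : (stair d i : ℤ) = (d : ℤ) - 1 - i := by
    have := i.2
    simp only [stair]
    omega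
  have hch : (((lam i).choose 2 : ℕ) : ℤ) * 2 = (lam i : ℤ) * ((lam i : ℤ) - 1) := by
    have h := Nat.choose_two_right (lam i)
    have h2 : (lam i).choose 2 * 2 = lam i * (lam i - 1) := by
      rw [h]; exact Nat.div_mul_cancel (Nat.even_mul_pred_self _).two_dvd
    rcases Nat.eq_zero_or_pos (lam i) with h0 | h0
    · simp [h0]
    · have : ((lam i - 1 : ℕ) : ℤ) = (lam i : ℤ) - 1 := by omega
      rw [← this]; exact_mod_cast h2
  simp only [sh]
  push_cast
  rw [hst]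
  linear_combination -hch

end Claimed.Agent.R296.Rep
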