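import Claimed.Agent.R296.Rep.AltPoly

set_option autoImplicit false
set_option linter.unusedSectionVars false

namespace Claimed.Agent.R296.Rep

open MvPolynomial Equiv

variable {κ : Type} [Fintype κ] [DecidableEq κ]

/-! ### elementary properties of `thetaSh` -/

theorem thetaSh_comp_perm (d : ℕ) (l : Fin d → ℕ) (w : Perm (Fin d)) (π : Perm κ) :
    thetaSh d (l ∘ w) π = (Perm.sign w : ℤ) * thetaSh d l π :=
  (isAltPoly_vdm_mul_pfix d π).coeff_comp_perm l w

theorem thetaSh_eq_zero_of_not_injective (d : ℕ) (l : Fin d → ℕ) (h : ¬ Function.Injective l)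
    (π : Perm κ) : thetaSh d l π = 0 :=
  (isAltPoly_vdm_mul_pfix d π).coeff_eq_zero l h

theorem degree_toFs {d : ℕ} (l : Fin d → ℕ) : (toFs l).degree = ∑ i, l i := by
  rw [Finsupp.degree_eq_sum]
  rfl

theorem thetaSh_eq_zero_of_sum_ne (d : ℕ) (l : Fin d → ℕ)
    (h : ∑ i, l i ≠ Fintype.card κ + d * (d - 1) / 2) (π : Perm κ) : thetaSh d l π = 0 := by
  refine ((vdm_isHomogeneous d).mul (pfix_isHomogeneous d π)).coeff_eq_zero ?_
  rw [degree_toFs, add_comm]
  exact h

theorem thetaSh_inv (d : ℕ) (l : Fin d → ℕ) (π : Perm κ) : thetaSh d l π⁻¹ = thetaSh d l π := by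
  rw [thetaSh, thetaSh, pfix_inv]

theorem thetaSh_conj (d : ℕ) (l : Fin d → ℕ) (π σ : Perm κ) :
    thetaSh d l (σ * π * σ⁻¹) = thetaSh d l π := by
  rw [thetaSh, thetaSh, pfix_conj]

/-- **Frobenius expansion** -/
theorem vdm_mul_pfix (d : ℕ) (π : Perm κ) :
    vdm d * pfix d π = ∑ lam ∈ labels d (Fintype.card κ), theta d lam π • alt d (sh d lam) := by
  refine (isAltPoly_vdm_mul_pfix d π).ext
    (IsAltPoly.sum _ _ fun lam _ => (isAltPoly_alt d _).smul _) fun l hl => ?_
  obtain ⟨lam₀, hlam₀, rfl⟩ := exists_sh_of_strictAnti d l hl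
  rw [coeff_sum]
  have h1 : ∀ lam ∈ labels d (Fintype.card κ),
      coeff (toFs (sh d lam₀)) (theta d lam π • alt d (sh d lam))
        = if lam = lam₀ then theta d lam₀ π else 0 := by
    intro lam hlam
    rw [coeff_smul, coeff_alt d _ _ hl (sh_strictAnti d lam (mem_labels.mp hlam).1)]
    by_cases h : lam = lam₀
    · subst h; simp
    · rw [if_neg h, if_neg (fun h' => h (sh_injective d h').symm), smul_zero]
  rw [Finset.sum_congr rfl h1, Finset.sum_ite_eq']
  split_ifs with hmem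
  · rfl
  · refine thetaSh_eq_zero_of_sum_ne d _ ?_ π
    rw [sum_sh]
    intro h
    exact hmem (mem_labels.mpr ⟨hlam₀, by omega⟩)

/-! ### orthogonality -/

/-- **Frobenius' formula** `k! a_l = ∑_π θ_l(π) Δ p_π`. -/
theorem alt_eq_sum_thetaSh (d : ℕ) (l : Fin d → ℕ)
    (hs : ∑ i, l i = Fintype.card κ + d * (d - 1) / 2) :
    ((Fintype.card κ).factorial : ℤ) • alt d l
      = ∑ π : Perm κ, thetaSh d l π • (vdm d * pfix d π) := by
  have h := alt_frobenius (κ := κ) (R := ℤ) (toFs l) (by rw [sum_val_eq]; exact hs)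
  have hsq : ∀ P : MvPolynomial (Fin d) ℤ,
      C (coeff (toFs l) (altA (X : Fin d → MvPolynomial (Fin d) ℤ) (fun i => (i : ℕ)) * P))
        * (altA X (fun i => (i : ℕ)) * P)
      = C (coeff (toFs l) (altA (X : Fin d → MvPolynomial (Fin d) ℤ) (stair d) * P))
        * (altA X (stair d) * P) := by
    intro P
    rw [← stair_comp_rev, altA_comp_perm]
    rcases Int.units_eq_one_or (Perm.sign (Fin.revPerm : Perm (Fin d))) with h | h
    · rw [h]; simp
    · rw [h]; simp
  simp only [hsq] at h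
  rw [zsmul_eq_mul, alt_eq_altA, Int.cast_natCast]
  rw [show altA (X : Fin d → MvPolynomial (Fin d) ℤ) l = altA X (toFs l) from rfl, h]
  refine Finset.sum_congr rfl fun π _ => ?_
  rw [thetaSh, vdm_eq_alt, alt_eq_altA, pfix_eq_pfixA, zsmul_eq_mul]
  rfl

/-- **Orthonormality** of Frobenius' class functions -/
theorem thetaSh_orth (d : ℕ) (l m : Fin d → ℕ) (hl : StrictAnti l) (hm : StrictAnti m)
    (hs : ∑ i, l i = Fintype.card κ + d * (d - 1) / 2) :
    ∑ π : Perm κ, thetaSh d l π * thetaSh d m π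
      = if l = m then ((Fintype.card κ).factorial : ℤ) else 0 := by
  have h := congrArg (coeff (toFs m)) (alt_eq_sum_thetaSh (κ := κ) d l hs)
  rw [coeff_smul, coeff_alt d m l hm hl, coeff_sum] at h
  simp only [coeff_smul, smul_eq_mul] at h
  rw [show (∑ π : Perm κ, thetaSh d l π * thetaSh d m π)
    = ∑ π : Perm κ, thetaSh d l π * coeff (toFs m) (vdm d * pfix d π) from rfl, ← h]
  by_cases hlm : l = m
  · subst hlm; simp
  · rw [if_neg hlm, if_neg (fun h' => hlm h'.symm), mul_zero]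

theorem theta_orth (d : ℕ) (lam mu : Fin d → ℕ) (hl : IsLab d (Fintype.card κ) lam)
    (hm : Antitone mu) :
    ∑ π : Perm κ, theta d lam π * theta d mu π
      = if lam = mu then ((Fintype.card κ).factorial : ℤ) else 0 := by
  have h := thetaSh_orth (κ := κ) d (sh d lam) (sh d mu) (sh_strictAnti d lam hl.1)
    (sh_strictAnti d mu hm) (by rw [sum_sh, hl.2])
  rw [show (∑ π : Perm κ, theta d lam π * theta d mu π)
    = ∑ π : Perm κ, thetaSh d (sh d lam) π * thetaSh d (sh d mu) π from rfl, h]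
  by_cases hlm : lam = mu
  · subst hlm; simp
  · rw [if_neg hlm, if_neg (fun h' => hlm (sh_injective d h'))]

end Claimed.Agent.R296.Rep
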