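import Mathlib

/-!
# Row 296, BB_Rep, layer L0: blocks of the complex group algebra of a finite group

Everything that `lem:schur` (2)-(5) of P1 Sec. 5 uses about "irreducible representations"
is derived from the Wedderburn-Artin decomposition `ℂ[G] ≃ ∏ i, M_{d i}(ℂ)` (Mathlib).

* `Irr G`      : index set of the blocks ("abstract labels");
* `dimI i`     : size of the block (`d_λ` of the paper);
* `blockRep i` : the projection `ℂ[G] → M_{d i}(ℂ)`;
* `chi i`      : the character, as a LINEAR functional on `ℂ[G]`; `chiG i g` its value at `g`;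
* `idem i`     : the primitive central idempotent; `munit i a b` the matrix units;
* `cfun φ`     : `∑ i, φ i • idem i`, the functional calculus of the centre.

This file contains only the definitions and the first, easy, layer of facts.
-/

set_option autoImplicit false

namespace Claimed.Agent.R296.Rep

open Matrix

/-- the complex group algebra -/
abbrev GA (G : Type) [Group G] : Type := MonoidAlgebra ℂ G

section Defs

variable (G : Type) [Group G] [Fintype G]

theorem exists_wedderburn :
    ∃ (n : ℕ) (d : Fin n → ℕ), (∀ i, NeZero (d i)) ∧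
      Nonempty (GA G ≃ₐ[ℂ] Π i, Matrix (Fin (d i)) (Fin (d i)) ℂ) := by
  have : NeZero (Nat.card G : ℂ) := ⟨by
    have : Nat.card G ≠ 0 := Nat.card_pos.ne'
    exact_mod_cast this⟩
  have : IsSemisimpleRing (GA G) := inferInstance
  exact IsSemisimpleRing.exists_algEquiv_pi_matrix_of_isAlgClosed ℂ (GA G)

/-- number of blocks -/
noncomputable def nIrr : ℕ := (exists_wedderburn G).choose

/-- abstract labels: the blocks of `ℂ[G]` -/
abbrev Irr : Type := Fin (nIrr G)

variable {G}

/-- dimension of the irreducible representation attached to a block -/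
noncomputable def dimI : Irr G → ℕ := (exists_wedderburn G).choose_spec.choose

theorem dimI_pos (i : Irr G) : 0 < dimI i :=
  Nat.pos_of_ne_zero ((exists_wedderburn G).choose_spec.choose_spec.1 i).out

instance (i : Irr G) : NeZero (dimI i) := ⟨(dimI_pos i).ne'⟩

variable (G)

/-- the Wedderburn isomorphism -/
noncomputable def wed : GA G ≃ₐ[ℂ] Π i : Irr G, Matrix (Fin (dimI i)) (Fin (dimI i)) ℂ :=
  Classical.choice (exists_wedderburn G).choose_spec.choose_spec.2

variable {G}

/-- the irreducible matrix representation of the block `i` -/
noncomputable def blockRep (i : Irr G) : GA G →ₐ[ℂ] Matrix (Fin (dimI i)) (Fin (dimI i)) ℂ :=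
  (Pi.evalAlgHom ℂ (fun i : Irr G => Matrix (Fin (dimI i)) (Fin (dimI i)) ℂ) i).comp
    (wed G).toAlgHom

/-- the irreducible character, extended linearly to the group algebra -/
noncomputable def chi (i : Irr G) : GA G →ₗ[ℂ] ℂ :=
  (Matrix.traceLinearMap (Fin (dimI i)) ℂ ℂ).comp (blockRep i).toLinearMap

/-- the irreducible character on group elements -/
noncomputable def chiG (i : Irr G) (g : G) : ℂ := chi i (MonoidAlgebra.of ℂ G g)

/-- primitive central idempotent of the block `i` -/
noncomputable def idem (i : Irr G) : GA G := (wed G).symm (Pi.single i 1)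

/-- matrix units of the block `i` -/
noncomputable def munit (i : Irr G) (a b : Fin (dimI i)) : GA G :=
  (wed G).symm (Pi.single i (Matrix.single a b 1))

/-- functional calculus of the centre: `∑ i, φ i • idem i` -/
noncomputable def cfun (φ : Irr G → ℂ) : GA G := ∑ i, φ i • idem i

/-- the involution `a ↦ ∑ conj (a g) g⁻¹` of the group algebra -/
noncomputable def gstar (a : GA G) : GA G :=
  ∑ g : G, (starRingEnd ℂ) (a.coeff g) • MonoidAlgebra.of ℂ G g⁻¹

/-- push-forward of group algebra elements along a group homomorphism -/
noncomputable def gmap {H : Type} [Group H] (f : H →* G) : GA H →ₐ[ℂ] GA G :=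
  MonoidAlgebra.mapDomainAlgHom ℂ ℂ f

/-- the algebra homomorphism attached to a matrix representation -/
noncomputable def repAlg {n : Type} [Fintype n] [DecidableEq n] (U : G →* Matrix n n ℂ) :
    GA G →ₐ[ℂ] Matrix n n ℂ :=
  MonoidAlgebra.lift ℂ (Matrix n n ℂ) G U

end Defs

end Claimed.Agent.R296.Rep
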