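import Claimed.Agent.R296.Rep.Block

/-!
# BB_Rep L0-A1: transport through the Wedderburn isomorphism, characters, calculus of the centre

Everything is transported through `wed G` (an algebra isomorphism onto a product of matrix
algebras): use `ga_ext`, `map_mul`, `Pi.single` lemmas.
-/

set_option autoImplicit false

namespace Claimed.Agent.R296.Rep

open Matrix

variable {G : Type} [Group G] [Fintype G]

/-! ### A1: transport through the Wedderburn isomorphism -/

theorem wed_idem (i : Irr G) : wed G (idem i) = Pi.single i 1 := by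
  simp [idem]

theorem wed_apply (a : GA G) (i : Irr G) : wed G a i = blockRep i a := rfl

theorem ga_ext (a b : GA G) (h : ∀ i, blockRep i a = blockRep i b) : a = b := by
  apply (wed G).injective
  funext i
  exact h i

theorem blockRep_idem (i j : Irr G) :
    blockRep j (idem i) = if i = j then 1 else 0 := by
  rw [← wed_apply, wed_idem]
  by_cases h : i = j
  · subst h
    rw [if_pos rfl, Pi.single_eq_same]
  · rw [if_neg h, Pi.single_eq_of_ne (Ne.symm h)]

theorem blockRep_munit_self (i : Irr G) (a b : Fin (dimI i)) :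
    blockRep i (munit i a b) = Matrix.single a b 1 := by
  rw [← wed_apply, munit, AlgEquiv.apply_symm_apply, Pi.single_eq_same]

theorem blockRep_munit_ne (i j : Irr G) (h : i ≠ j) (a b : Fin (dimI i)) :
    blockRep j (munit i a b) = 0 := by
  rw [← wed_apply, munit, AlgEquiv.apply_symm_apply, Pi.single_eq_of_ne (Ne.symm h)]

theorem blockRep_surj (i : Irr G) (M : Matrix (Fin (dimI i)) (Fin (dimI i)) ℂ) :
    ∃ a : GA G, blockRep i a = M ∧ ∀ j, j ≠ i → blockRep j a = 0 := by
  refine ⟨(wed G).symm (Pi.single i M), ?_, fun j hj => ?_⟩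
  · rw [← wed_apply, AlgEquiv.apply_symm_apply, Pi.single_eq_same]
  · rw [← wed_apply, AlgEquiv.apply_symm_apply, Pi.single_eq_of_ne hj]

theorem idem_mul_idem (i j : Irr G) : idem i * idem j = if i = j then idem i else 0 := by
  apply ga_ext
  intro k
  rw [map_mul, blockRep_idem, blockRep_idem]
  by_cases h : i = j
  · subst h
    rw [if_pos rfl, blockRep_idem]
    split_ifs <;> simp
  · rw [if_neg h, map_zero]
    by_cases h1 : i = k
    · subst h1
      rw [if_neg (Ne.symm h), mul_zero]
    · rw [if_neg h1, zero_mul]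

theorem sum_idem : ∑ i : Irr G, idem i = 1 := by
  apply ga_ext
  intro k
  rw [map_sum, map_one]
  simp only [blockRep_idem]
  rw [Finset.sum_ite_eq' Finset.univ k, if_pos (Finset.mem_univ k)]

theorem idem_comm (i : Irr G) (a : GA G) : idem i * a = a * idem i := by
  apply ga_ext
  intro k
  rw [map_mul, map_mul, blockRep_idem]
  split_ifs <;> simp

theorem idem_ne_zero (i : Irr G) : idem i ≠ 0 := by
  intro h
  have h1 := blockRep_idem i i
  rw [h, map_zero, if_pos rfl] at h1
  exact zero_ne_one h1

theorem munit_mul_munit (i : Irr G) (a b c e : Fin (dimI i)) :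
    munit i a b * munit i c e = if b = c then munit i a e else 0 := by
  apply ga_ext
  intro k
  rw [map_mul]
  by_cases h : i = k
  · subst h
    rw [blockRep_munit_self, blockRep_munit_self]
    by_cases hbc : b = c
    · subst hbc
      rw [if_pos rfl, blockRep_munit_self, Matrix.single_mul_single_same, mul_one]
    · rw [if_neg hbc, map_zero, Matrix.single_mul_single_of_ne _ _ _ _ hbc]
  · rw [blockRep_munit_ne i k h, zero_mul]
    split_ifs
    · rw [blockRep_munit_ne i k h]
    · rw [map_zero]

theorem munit_mul_munit_ne (i j : Irr G) (h : i ≠ j) (a b : Fin (dimI i)) (c e : Fin (dimI j)) :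
    munit i a b * munit j c e = 0 := by
  apply ga_ext
  intro k
  rw [map_mul, map_zero]
  by_cases h1 : i = k
  · subst h1
    rw [blockRep_munit_ne j i (Ne.symm h), mul_zero]
  · rw [blockRep_munit_ne i k h1, zero_mul]

theorem sum_munit_diag (i : Irr G) : ∑ a, munit i a a = idem i := by
  apply ga_ext
  intro k
  rw [map_sum, blockRep_idem]
  by_cases h : i = k
  · subst h
    simp only [blockRep_munit_self, if_true]
    exact Matrix.sum_single_one
  · simp only [blockRep_munit_ne i k h, Finset.sum_const_zero, if_neg h]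

theorem idem_mul_eq_sum_munit (i : Irr G) (x : GA G) :
    idem i * x = ∑ a, ∑ b, blockRep i x a b • munit i a b := by
  apply ga_ext
  intro k
  rw [map_mul, blockRep_idem, map_sum]
  simp only [map_sum, map_smul]
  by_cases h : i = k
  · subst h
    simp only [blockRep_munit_self, if_true, one_mul]
    conv_lhs => rw [Matrix.matrix_eq_sum_single (blockRep i x)]
    refine Finset.sum_congr rfl fun a _ => Finset.sum_congr rfl fun b _ => ?_
    rw [Matrix.smul_single, smul_eq_mul, mul_one]
  · simp only [blockRep_munit_ne i k h, smul_zero, Finset.sum_const_zero, if_neg h, zero_mul]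

instance : Nonempty (Irr G) := by
  by_contra h
  rw [not_nonempty_iff] at h
  have h1 : (1 : GA G) = 0 := ga_ext _ _ fun i => h.elim i
  exact one_ne_zero h1

/-! ### A2: characters -/

theorem chi_apply (i : Irr G) (a : GA G) : chi i a = trace (blockRep i a) := rfl

theorem chi_idem (i j : Irr G) : chi j (idem i) = if i = j then (dimI i : ℂ) else 0 := by
  rw [chi_apply, blockRep_idem]
  by_cases h : i = j
  · subst h
    rw [if_pos rfl, if_pos rfl, Matrix.trace_one, Fintype.card_fin]
  · rw [if_neg h, if_neg h, Matrix.trace_zero]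

theorem chi_mul_comm (i : Irr G) (a b : GA G) : chi i (a * b) = chi i (b * a) := by
  rw [chi_apply, chi_apply, map_mul, map_mul, Matrix.trace_mul_comm]

theorem chi_idem_mul (i j : Irr G) (a : GA G) :
    chi j (idem i * a) = if i = j then chi i a else 0 := by
  rw [chi_apply, map_mul, blockRep_idem]
  by_cases h : i = j
  · subst h
    rw [if_pos rfl, if_pos rfl, one_mul, chi_apply]
  · rw [if_neg h, if_neg h, zero_mul, Matrix.trace_zero]

theorem chiG_one (i : Irr G) : chiG i 1 = dimI i := by
  rw [chiG, map_one, chi_apply, map_one, Matrix.trace_one, Fintype.card_fin]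

theorem chi_eq_sum (i : Irr G) (a : GA G) : chi i a = ∑ g, a.coeff g * chiG i g := by
  have h : a = ∑ g, a.coeff g • MonoidAlgebra.of ℂ G g := by
    conv_lhs => rw [← MonoidAlgebra.sum_coeff_single a]
    rw [Finsupp.sum_fintype _ _ (fun g => by simp)]
    refine Finset.sum_congr rfl fun g _ => ?_
    rw [MonoidAlgebra.of_apply, MonoidAlgebra.smul_single, smul_eq_mul, mul_one]
  conv_lhs => rw [h]
  rw [map_sum]
  refine Finset.sum_congr rfl fun g _ => ?_
  rw [map_smul, smul_eq_mul, chiG]

theorem chiG_conj (i : Irr G) (g h : G) : chiG i (h * g * h⁻¹) = chiG i g := by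
  rw [chiG, chiG, map_mul (MonoidAlgebra.of ℂ G), chi_mul_comm, ← map_mul (MonoidAlgebra.of ℂ G),
    inv_mul_cancel_left]

/-! ### A4: functional calculus of the centre -/

theorem blockRep_cfun (φ : Irr G → ℂ) (i : Irr G) : blockRep i (cfun φ) = φ i • 1 := by
  rw [cfun, map_sum]
  simp only [map_smul, blockRep_idem, smul_ite, smul_zero]
  rw [Finset.sum_ite_eq' Finset.univ i, if_pos (Finset.mem_univ i)]

theorem cfun_mul (φ ψ : Irr G → ℂ) : cfun φ * cfun ψ = cfun (fun i => φ i * ψ i) := by
  apply ga_ext
  intro k
  rw [map_mul, blockRep_cfun, blockRep_cfun, blockRep_cfun, smul_mul_smul_comm, one_mul]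

theorem cfun_one : cfun (fun _ : Irr G => (1 : ℂ)) = 1 := by
  apply ga_ext
  intro k
  rw [blockRep_cfun, map_one, one_smul]

theorem cfun_add (φ ψ : Irr G → ℂ) : cfun φ + cfun ψ = cfun (fun i => φ i + ψ i) := by
  apply ga_ext
  intro k
  rw [map_add, blockRep_cfun, blockRep_cfun, blockRep_cfun, add_smul]

theorem cfun_smul (c : ℂ) (φ : Irr G → ℂ) : c • cfun φ = cfun (fun i => c * φ i) := by
  apply ga_ext
  intro k
  rw [map_smul, blockRep_cfun, blockRep_cfun, smul_smul]

theorem cfun_comm (φ : Irr G → ℂ) (a : GA G) : cfun φ * a = a * cfun φ := by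
  apply ga_ext
  intro k
  rw [map_mul, map_mul, blockRep_cfun, smul_mul_assoc, one_mul, mul_smul_comm, mul_one]

theorem cfun_mul_idem (φ : Irr G → ℂ) (i : Irr G) : cfun φ * idem i = φ i • idem i := by
  apply ga_ext
  intro k
  rw [map_mul, map_smul, blockRep_cfun, blockRep_idem]
  by_cases h : i = k
  · subst h
    rw [if_pos rfl, mul_one]
  · rw [if_neg h, mul_zero, smul_zero]

theorem cfun_single (i : Irr G) [DecidableEq (Irr G)] :
    cfun (fun j => if j = i then (1 : ℂ) else 0) = idem i := by
  apply ga_ext
  intro k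
  rw [blockRep_cfun, blockRep_idem]
  by_cases h : i = k
  · subst h
    rw [if_pos rfl, if_pos rfl, one_smul]
  · rw [if_neg (Ne.symm h), if_neg h, zero_smul]

end Claimed.Agent.R296.Rep
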