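import Claimed.Agent.R296.Rep.BlockA1

/-!
# BB_Rep L0-A3: tracial functionals and the centre

* `tracial_eq`: `φ (munit i a b) = 0` for `a ≠ b` (`E_ab = E_aa E_ab` and `E_ab E_aa = 0`),
  `φ (munit i a a) = φ (munit i b b)` (`E_aa = E_ab E_ba`), then `idem_mul_eq_sum_munit`.
* `central_mul_idem`: `blockRep i z` commutes with all matrices (`blockRep_surj`), hence is scalar.
-/

set_option autoImplicit false

namespace Claimed.Agent.R296.Rep

open Matrix

variable {G : Type} [Group G] [Fintype G]

/-! ### A3: tracial functionals and the centre -/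

theorem tracial_munit_ne (φ : GA G →ₗ[ℂ] ℂ) (hφ : ∀ a b, φ (a * b) = φ (b * a)) (i : Irr G)
    {a b : Fin (dimI i)} (h : a ≠ b) : φ (munit i a b) = 0 := by
  have h1 : munit i a b = munit i a a * munit i a b := by
    rw [munit_mul_munit, if_pos rfl]
  rw [h1, hφ, munit_mul_munit, if_neg (Ne.symm h), map_zero]

theorem tracial_munit_diag (φ : GA G →ₗ[ℂ] ℂ) (hφ : ∀ a b, φ (a * b) = φ (b * a)) (i : Irr G)
    (a b : Fin (dimI i)) : φ (munit i a a) = φ (munit i b b) := by
  have h1 : munit i a a = munit i a b * munit i b a := by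
    rw [munit_mul_munit, if_pos rfl]
  rw [h1, hφ, munit_mul_munit, if_pos rfl]

theorem tracial_munit (φ : GA G →ₗ[ℂ] ℂ) (hφ : ∀ a b, φ (a * b) = φ (b * a)) (i : Irr G)
    (a : Fin (dimI i)) : φ (idem i) = dimI i * φ (munit i a a) := by
  rw [← sum_munit_diag, map_sum, Finset.sum_congr rfl fun b _ => tracial_munit_diag φ hφ i b a,
    Finset.sum_const, Finset.card_univ, Fintype.card_fin, nsmul_eq_mul]

/-- **Uniqueness of the trace on a block.**  The source of all "conditional probabilities". -/
theorem tracial_eq (φ : GA G →ₗ[ℂ] ℂ) (hφ : ∀ a b, φ (a * b) = φ (b * a)) (i : Irr G) (b : GA G) :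
    φ (idem i * b) = φ (idem i) / dimI i * chi i b := by
  have hd : (dimI i : ℂ) ≠ 0 := by exact_mod_cast (dimI_pos i).ne'
  rw [idem_mul_eq_sum_munit, map_sum, chi_apply, Matrix.trace, Finset.mul_sum]
  refine Finset.sum_congr rfl fun a _ => ?_
  rw [map_sum, Finset.sum_eq_single a]
  · rw [map_smul, smul_eq_mul, tracial_munit φ hφ i a, Matrix.diag_apply]
    field_simp
  · intro c _ hc
    rw [map_smul, tracial_munit_ne φ hφ i (Ne.symm hc), smul_zero]
  · intro h
    exact absurd (Finset.mem_univ a) h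

theorem blockRep_central (z : GA G) (hz : ∀ a, z * a = a * z) (i : Irr G) :
    blockRep i z = (chi i z / dimI i) • (1 : Matrix (Fin (dimI i)) (Fin (dimI i)) ℂ) := by
  have hd : (dimI i : ℂ) ≠ 0 := by exact_mod_cast (dimI_pos i).ne'
  have h1 : blockRep i z ∈ Set.range (Matrix.scalar (Fin (dimI i))) := by
    rw [Matrix.mem_range_scalar_iff_commute_single']
    intro a b
    have := congrArg (blockRep i) (hz (munit i a b))
    rw [map_mul, map_mul, blockRep_munit_self] at this
    exact this.symm
  obtain ⟨c, hc⟩ := h1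
  have h2 : blockRep i z = c • (1 : Matrix (Fin (dimI i)) (Fin (dimI i)) ℂ) := by
    rw [← hc, Matrix.scalar_apply, ← Matrix.smul_one_eq_diagonal]
  have h3 : chi i z = c * dimI i := by
    rw [chi_apply, h2, Matrix.trace_smul, Matrix.trace_one, Fintype.card_fin, smul_eq_mul]
  rw [h2, h3, mul_div_assoc, div_self hd, mul_one]

theorem central_mul_idem (z : GA G) (hz : ∀ a, z * a = a * z) (i : Irr G) :
    z * idem i = (chi i z / dimI i) • idem i := by
  apply ga_ext
  intro k
  rw [map_mul, map_smul, blockRep_idem]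
  by_cases h : i = k
  · subst h
    rw [if_pos rfl, mul_one, blockRep_central z hz]
  · rw [if_neg h, mul_zero, smul_zero]

theorem central_eq_cfun (z : GA G) (hz : ∀ a, z * a = a * z) :
    z = cfun (fun i => chi i z / dimI i) := by
  apply ga_ext
  intro k
  rw [blockRep_cfun, blockRep_central z hz]

end Claimed.Agent.R296.Rep
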