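import Claimed.Agent.R296.Rep.BlockA3

/-!
# BB_Rep L0-A5: regular representation, coefficient formula of the idempotents, orthogonality

* `regular_trace`: compute the trace of left multiplication by `a` on `GA G` in the basis of group
  elements and, through `wed G`, on the product of matrix algebras (left multiplication by `M` on
  `M_d` has trace `d * trace M`).  Alternative: `a ↦ a.coeff 1` is tracial, so by `tracial_eq` and
  `sum_idem` it is `∑ i, c i * chi i a`; the constants come from a dimension count.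
* `idem_coeff`: apply `regular_trace` to `idem i * of g⁻¹`.
* `chiG_orth`: apply `chi j` to `idem i` written with `idem_coeff`.
-/

set_option autoImplicit false
set_option linter.unusedSectionVars false

namespace Claimed.Agent.R296.Rep

open Matrix

variable {G : Type} [Group G] [Fintype G]

/-! ### A5: regular representation, coefficient formula, orthogonality -/

/-- every element is the sum of its coefficients times the group elements -/
theorem ga_eq_sum_coeff (a : GA G) : a = ∑ g, a.coeff g • MonoidAlgebra.of ℂ G g := by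
  conv_lhs => rw [← MonoidAlgebra.sum_coeff_single a]
  rw [Finsupp.sum_fintype _ _ (fun g => by simp)]
  refine Finset.sum_congr rfl fun g _ => ?_
  rw [MonoidAlgebra.of_apply, MonoidAlgebra.smul_single, smul_eq_mul, mul_one]

/-- the canonical trace `a ↦ a(1)` of the group algebra -/
noncomputable def tau1 : GA G →ₗ[ℂ] ℂ :=
  (Finsupp.lapply (1 : G)).comp (MonoidAlgebra.coeffLinearEquiv ℂ).toLinearMap

theorem tau1_apply (a : GA G) : tau1 a = a.coeff 1 := rfl

theorem tau1_mul_of (a : GA G) (g : G) : tau1 (a * MonoidAlgebra.of ℂ G g) = a.coeff g⁻¹ := by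
  rw [tau1_apply, MonoidAlgebra.of_apply, MonoidAlgebra.coeff_mul_single_apply, one_mul, mul_one]

theorem tau1_of_mul (a : GA G) (g : G) : tau1 (MonoidAlgebra.of ℂ G g * a) = a.coeff g⁻¹ := by
  rw [tau1_apply, MonoidAlgebra.of_apply, MonoidAlgebra.coeff_single_mul_apply, one_mul, mul_one]

theorem tau1_tracial (a b : GA G) : tau1 (a * b) = tau1 (b * a) := by
  conv_lhs => rw [ga_eq_sum_coeff b]
  conv_rhs => rw [ga_eq_sum_coeff b]
  rw [Finset.mul_sum, Finset.sum_mul, map_sum, map_sum]
  refine Finset.sum_congr rfl fun g _ => ?_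
  rw [mul_smul_comm, smul_mul_assoc, map_smul, map_smul, tau1_mul_of, tau1_of_mul]

/-- reconstruction formula `x = ∑ g, τ(x g) g⁻¹` -/
theorem ga_reconstruct (x : GA G) :
    x = ∑ g, tau1 (x * MonoidAlgebra.of ℂ G g) • MonoidAlgebra.of ℂ G g⁻¹ := by
  conv_lhs => rw [ga_eq_sum_coeff x]
  simp only [tau1_mul_of]
  exact Fintype.sum_equiv (Equiv.inv G) _ _ (fun g => by simp)

/-- the average `∑ g, g x g⁻¹` -/
noncomputable def gavg (x : GA G) : GA G :=
  ∑ g, MonoidAlgebra.of ℂ G g * x * MonoidAlgebra.of ℂ G g⁻¹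

theorem gavg_of_comm (x : GA G) (h : G) :
    gavg x * MonoidAlgebra.of ℂ G h = MonoidAlgebra.of ℂ G h * gavg x := by
  rw [gavg, Finset.sum_mul, Finset.mul_sum]
  refine Fintype.sum_equiv (Equiv.mulLeft h⁻¹) _ _ (fun g => ?_)
  simp only [Equiv.coe_mulLeft]
  rw [_root_.mul_inv_rev, inv_inv, ← mul_assoc, ← mul_assoc, ← map_mul, mul_inv_cancel_left,
    mul_assoc, ← map_mul]

theorem gavg_central (x a : GA G) : gavg x * a = a * gavg x := by
  conv_lhs => rw [ga_eq_sum_coeff a]
  conv_rhs => rw [ga_eq_sum_coeff a]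
  rw [Finset.mul_sum, Finset.sum_mul]
  refine Finset.sum_congr rfl fun g _ => ?_
  rw [mul_smul_comm, smul_mul_assoc, gavg_of_comm]

theorem chi_gavg (i : Irr G) (x : GA G) : chi i (gavg x) = Fintype.card G * chi i x := by
  rw [gavg, map_sum]
  have : ∀ g : G, chi i (MonoidAlgebra.of ℂ G g * x * MonoidAlgebra.of ℂ G g⁻¹) = chi i x := by
    intro g
    rw [chi_mul_comm, ← mul_assoc, ← map_mul, inv_mul_cancel, map_one, one_mul]
  simp only [this, Finset.sum_const, Finset.card_univ, nsmul_eq_mul]

/-- the key constant: `|G| τ(e_i) = d_i²` -/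
theorem card_mul_tau1_idem (i : Irr G) :
    (Fintype.card G : ℂ) * tau1 (idem i) = (dimI i : ℂ) ^ 2 := by
  have hd : (dimI i : ℂ) ≠ 0 := by exact_mod_cast (dimI_pos i).ne'
  let a : Fin (dimI i) := 0
  set S : ℂ := ∑ g : G, blockRep i (MonoidAlgebra.of ℂ G g) a a *
    blockRep i (MonoidAlgebra.of ℂ G g⁻¹) a a with hS
  -- first evaluation of `S`
  have h1 : S = Fintype.card G / dimI i := by
    have hz := blockRep_central (gavg (munit i a a)) (gavg_central _) i
    rw [chi_gavg, chi_apply, blockRep_munit_self, Matrix.trace_single_eq_same, mul_one] at hz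
    have hz' := congrFun (congrFun hz a) a
    rw [gavg, map_sum, Matrix.sum_apply, Matrix.smul_apply, Matrix.one_apply_eq, smul_eq_mul,
      mul_one] at hz'
    rw [← hz', hS]
    refine Finset.sum_congr rfl fun g _ => ?_
    rw [map_mul, map_mul, blockRep_munit_self, Matrix.mul_apply, Finset.sum_eq_single a]
    · rw [Matrix.mul_single_apply_same, mul_one]
    · intro b _ hb
      rw [Matrix.mul_single_apply_of_ne _ _ _ _ _ hb, zero_mul]
    · intro h
      exact absurd (Finset.mem_univ a) h
  -- second evaluation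
  have h2 : 1 = tau1 (idem i) / dimI i * S := by
    have hr := ga_reconstruct (munit i a a)
    have hc : ∀ g : G, tau1 (munit i a a * MonoidAlgebra.of ℂ G g) =
        tau1 (idem i) / dimI i * blockRep i (MonoidAlgebra.of ℂ G g) a a := by
      intro g
      have he : munit i a a * MonoidAlgebra.of ℂ G g =
          idem i * (munit i a a * MonoidAlgebra.of ℂ G g) := by
        rw [← mul_assoc, ← sum_munit_diag, Finset.sum_mul, Finset.sum_eq_single a]
        · rw [munit_mul_munit, if_pos rfl]
        · intro b _ hb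
          rw [munit_mul_munit, if_neg hb]
        · intro h
          exact absurd (Finset.mem_univ a) h
      rw [he, tracial_eq tau1 tau1_tracial, chi_apply, map_mul, blockRep_munit_self,
        Matrix.trace_mul_comm, Matrix.trace, Finset.sum_eq_single a]
      · rw [Matrix.diag_apply, Matrix.mul_single_apply_same, mul_one]
      · intro b _ hb
        rw [Matrix.diag_apply, Matrix.mul_single_apply_of_ne _ _ _ _ _ hb]
      · intro h
        exact absurd (Finset.mem_univ a) h
    have hr' := congrFun (congrFun (congrArg (blockRep i) hr) a) a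
    rw [blockRep_munit_self, Matrix.single_apply_same, map_sum, Matrix.sum_apply] at hr'
    rw [hr', hS, Finset.mul_sum]
    refine Finset.sum_congr rfl fun g _ => ?_
    rw [map_smul, Matrix.smul_apply, hc, smul_eq_mul, mul_assoc]
  rw [h1] at h2
  field_simp at h2
  rw [mul_comm]
  exact h2.symm

theorem regular_trace (a : GA G) :
    (Fintype.card G : ℂ) * a.coeff 1 = ∑ i, (dimI i : ℂ) * chi i a := by
  have h1 : a = ∑ i, idem i * a := by rw [← Finset.sum_mul, sum_idem, one_mul]
  rw [← tau1_apply]
  conv_lhs => rw [h1]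
  rw [map_sum, Finset.mul_sum]
  refine Finset.sum_congr rfl fun i _ => ?_
  have hd : (dimI i : ℂ) ≠ 0 := by exact_mod_cast (dimI_pos i).ne'
  rw [tracial_eq tau1 tau1_tracial, ← mul_assoc, mul_div_assoc', card_mul_tau1_idem, sq,
    mul_div_assoc, div_self hd, mul_one]

theorem idem_coeff (i : Irr G) (g : G) :
    (idem i).coeff g = (dimI i : ℂ) / Fintype.card G * chiG i g⁻¹ := by
  have hG : (Fintype.card G : ℂ) ≠ 0 := by exact_mod_cast Fintype.card_ne_zero
  have h := regular_trace (idem i * MonoidAlgebra.of ℂ G g⁻¹)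
  rw [← tau1_apply, tau1_mul_of, inv_inv] at h
  simp only [chi_idem_mul, mul_ite, mul_zero] at h
  rw [Finset.sum_ite_eq Finset.univ i, if_pos (Finset.mem_univ i)] at h
  rw [chiG, div_mul_eq_mul_div, eq_div_iff hG, mul_comm, h]

theorem chiG_orth (i j : Irr G) :
    ∑ g, chiG i g * chiG j g⁻¹ = if i = j then (Fintype.card G : ℂ) else 0 := by
  have hG : (Fintype.card G : ℂ) ≠ 0 := by exact_mod_cast Fintype.card_ne_zero
  have hd : (dimI j : ℂ) ≠ 0 := by exact_mod_cast (dimI_pos j).ne'
  have h := chi_idem j i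
  rw [chi_eq_sum] at h
  simp only [idem_coeff] at h
  have h2 : ∑ g, chiG i g * chiG j g⁻¹ =
      (Fintype.card G : ℂ) / dimI j * ∑ g, (dimI j : ℂ) / Fintype.card G * chiG j g⁻¹ * chiG i g := by
    rw [Finset.mul_sum]
    refine Finset.sum_congr rfl fun g _ => ?_
    field_simp
  rw [h2, h]
  by_cases hij : i = j
  · subst hij
    rw [if_pos rfl, if_pos rfl]
    field_simp
  · rw [if_neg hij, if_neg (Ne.symm hij), mul_zero]

theorem sum_dimI_sq : ∑ i : Irr G, dimI i ^ 2 = Fintype.card G := by
  have h := regular_trace (1 : GA G)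
  have h1 : (1 : GA G).coeff 1 = 1 := by
    rw [MonoidAlgebra.one_def, MonoidAlgebra.coeff_single, Finsupp.single_eq_same]
  have h2 : ∀ i : Irr G, chi i (1 : GA G) = dimI i := by
    intro i
    rw [chi_apply, map_one, Matrix.trace_one, Fintype.card_fin]
  rw [h1, mul_one] at h
  simp only [h2] at h
  have h3 : ((∑ i : Irr G, dimI i ^ 2 : ℕ) : ℂ) = (Fintype.card G : ℂ) := by
    rw [h]
    push_cast
    exact Finset.sum_congr rfl fun i _ => sq _
  exact_mod_cast h3

theorem chiG_injective : Function.Injective (chiG : Irr G → G → ℂ) := by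
  intro i j h
  by_contra hij
  have hG : (Fintype.card G : ℂ) ≠ 0 := by exact_mod_cast Fintype.card_ne_zero
  have h1 := chiG_orth i j
  have h2 := chiG_orth j j
  rw [if_neg hij, h] at h1
  rw [if_pos rfl, h1] at h2
  exact hG h2.symm

end Claimed.Agent.R296.Rep
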