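import Claimed.Agent.R296.Rep.BlockA5

/-!
# BB_Rep L0-A6: the involution of the group algebra

* `gstar_idem`: `gstar` is an involutive anti-automorphism, so `gstar (idem i)` is central and
  idempotent; `idem j * gstar (idem i)` is `0` or ... ; `(idem i * gstar (idem i)).coeff 1 =
  ∑ ‖coeff‖² ≠ 0` forces `idem i * gstar (idem i) ≠ 0`.  Write `gstar (idem i) = cfun c` with
  `c j ∈ {0,1}` (`central_eq_cfun`); symmetry of the relation and `sum_idem` give `c = single i`.
* `chiG_inv`: compare coefficients in `gstar_idem` with `idem_coeff`.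
-/

set_option autoImplicit false
set_option linter.unusedSectionVars false

namespace Claimed.Agent.R296.Rep

open Matrix

variable {G : Type} [Group G] [Fintype G]

/-! ### A6: the involution -/

theorem gstar_of (g : G) : gstar (MonoidAlgebra.of ℂ G g) = MonoidAlgebra.of ℂ G g⁻¹ := by
  classical
  rw [gstar, Finset.sum_eq_single g]
  · rw [MonoidAlgebra.of_apply, MonoidAlgebra.coeff_single, Finsupp.single_apply, if_pos rfl, map_one, one_smul]
  · intro h _ hh
    rw [MonoidAlgebra.of_apply, MonoidAlgebra.coeff_single, Finsupp.single_apply, if_neg (Ne.symm hh), map_zero,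
      zero_smul]
  · intro h
    exact absurd (Finset.mem_univ g) h

theorem gstar_add (a b : GA G) : gstar (a + b) = gstar a + gstar b := by
  simp only [gstar, MonoidAlgebra.coeff_add, Finsupp.add_apply, map_add, add_smul,
    Finset.sum_add_distrib]

theorem gstar_smul (c : ℂ) (a : GA G) : gstar (c • a) = (starRingEnd ℂ) c • gstar a := by
  simp only [gstar, MonoidAlgebra.coeff_smul, Finsupp.smul_apply, smul_eq_mul, map_mul, mul_smul,
    Finset.smul_sum]

theorem gstar_zero : gstar (0 : GA G) = 0 := by
  simp [gstar]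

theorem gstar_sum {ι : Type*} (s : Finset ι) (f : ι → GA G) :
    gstar (∑ k ∈ s, f k) = ∑ k ∈ s, gstar (f k) := by
  classical
  induction s using Finset.induction_on with
  | empty => simpa using gstar_zero
  | insert k s hk ih => rw [Finset.sum_insert hk, Finset.sum_insert hk, gstar_add, ih]

theorem gstar_mul (a b : GA G) : gstar (a * b) = gstar b * gstar a := by
  conv_lhs => rw [ga_eq_sum_coeff a, ga_eq_sum_coeff b]
  rw [Finset.sum_mul, gstar_sum]
  simp only [Finset.mul_sum, gstar_sum, smul_mul_smul_comm, ← map_mul, gstar_smul, gstar_of]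
  rw [gstar, gstar, Finset.sum_mul, Finset.sum_comm]
  refine Finset.sum_congr rfl fun h _ => ?_
  rw [Finset.mul_sum]
  refine Finset.sum_congr rfl fun g _ => ?_
  rw [smul_mul_smul_comm, _root_.mul_inv_rev, map_mul (MonoidAlgebra.of ℂ G), map_mul (starRingEnd ℂ),
    mul_comm ((starRingEnd ℂ) (a.coeff g))]

theorem gstar_gstar (a : GA G) : gstar (gstar a) = a := by
  conv_rhs => rw [ga_eq_sum_coeff a]
  conv_lhs => rw [gstar.eq_def a]
  rw [gstar_sum]
  refine Finset.sum_congr rfl fun g _ => ?_
  rw [gstar_smul, gstar_of, inv_inv, Complex.conj_conj]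

theorem coeff_one_mul_gstar (a : GA G) :
    (a * gstar a).coeff 1 = ∑ g, ((‖a.coeff g‖ ^ 2 : ℝ) : ℂ) := by
  rw [← tau1_apply, gstar, Finset.mul_sum, map_sum]
  refine Finset.sum_congr rfl fun g _ => ?_
  rw [mul_smul_comm, map_smul, tau1_mul_of, inv_inv, smul_eq_mul, Complex.conj_mul']
  push_cast
  rfl

theorem gstar_central {z : GA G} (hz : ∀ a, z * a = a * z) (a : GA G) :
    gstar z * a = a * gstar z := by
  have h := congrArg gstar (hz (gstar a))
  rw [gstar_mul, gstar_mul, gstar_gstar] at h
  exact h.symm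

theorem idem_mul_gstar_idem_ne_zero (i : Irr G) : idem i * gstar (idem i) ≠ 0 := by
  intro h
  have h1 := coeff_one_mul_gstar (idem i)
  rw [h, MonoidAlgebra.coeff_zero, Finsupp.zero_apply] at h1
  have h2 : ∑ g, ‖(idem i).coeff g‖ ^ 2 = 0 := by exact_mod_cast h1.symm
  rw [Finset.sum_eq_zero_iff_of_nonneg fun g _ => sq_nonneg _] at h2
  apply idem_ne_zero i
  rw [ga_eq_sum_coeff (idem i)]
  refine Finset.sum_eq_zero fun g hg => ?_
  have := h2 g hg
  rw [sq_eq_zero_iff, norm_eq_zero] at this
  rw [this, zero_smul]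

/-- `gstar (idem i) * idem j` is `0` or `idem j` -/
theorem gstar_idem_mul_idem (i j : Irr G) :
    gstar (idem i) * idem j = 0 ∨ gstar (idem i) * idem j = idem j := by
  have hc : ∀ a, gstar (idem i) * a = a * gstar (idem i) := gstar_central (idem_comm i)
  have h1 := central_mul_idem (gstar (idem i)) hc j
  set l : ℂ := chi j (gstar (idem i)) / dimI j
  have hff : gstar (idem i) * gstar (idem i) = gstar (idem i) := by
    rw [← gstar_mul, idem_mul_idem, if_pos rfl]
  have h2 : (gstar (idem i) * idem j) * (gstar (idem i) * idem j) = gstar (idem i) * idem j := by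
    rw [mul_assoc, ← mul_assoc (idem j), ← hc (idem j), mul_assoc, idem_mul_idem, if_pos rfl,
      ← mul_assoc, hff]
  rw [h1, smul_mul_smul_comm, idem_mul_idem, if_pos rfl] at h2
  have h3 : (l * l - l) • idem j = 0 := by rw [sub_smul, h2, sub_self]
  rcases smul_eq_zero.1 h3 with h4 | h4
  · have h5 : l * (l - 1) = 0 := by rw [mul_sub, mul_one]; exact h4
    rcases mul_eq_zero.1 h5 with h6 | h6
    · left; rw [h1, h6, zero_smul]
    · right; rw [h1, sub_eq_zero.1 h6, one_smul]
  · exact absurd h4 (idem_ne_zero j)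

theorem gstar_idem (i : Irr G) : gstar (idem i) = idem i := by
  have hc : ∀ k : Irr G, ∀ a, gstar (idem k) * a = a * gstar (idem k) :=
    fun k => gstar_central (idem_comm k)
  have h0 : ∀ j, j ≠ i → gstar (idem i) * idem j = 0 := by
    intro j hj
    rcases gstar_idem_mul_idem i j with h | h
    · exact h
    · exfalso
      have h1 := congrArg gstar h
      rw [gstar_mul, gstar_gstar] at h1
      apply idem_mul_gstar_idem_ne_zero j
      rw [← h1, ← mul_assoc, ← hc j (idem j), mul_assoc, idem_mul_idem, if_neg hj, mul_zero]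
  have h1 : gstar (idem i) = gstar (idem i) * idem i := by
    conv_lhs => rw [← mul_one (gstar (idem i)), ← sum_idem, Finset.mul_sum]
    rw [Finset.sum_eq_single i]
    · intro j _ hj
      exact h0 j hj
    · intro h
      exact absurd (Finset.mem_univ i) h
  rcases gstar_idem_mul_idem i i with h | h
  · exfalso
    apply idem_mul_gstar_idem_ne_zero i
    rw [← hc i (idem i), h]
  · rw [h1, h]

theorem coeff_gstar (a : GA G) (g : G) : (gstar a).coeff g = (starRingEnd ℂ) (a.coeff g⁻¹) := by
  classical
  rw [gstar, MonoidAlgebra.coeff_sum, Finsupp.finsetSum_apply, Finset.sum_eq_single g⁻¹]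
  · rw [inv_inv, MonoidAlgebra.coeff_smul, Finsupp.smul_apply, MonoidAlgebra.of_apply,
      MonoidAlgebra.coeff_single, Finsupp.single_apply, if_pos rfl, smul_eq_mul, mul_one]
  · intro h _ hh
    rw [MonoidAlgebra.coeff_smul, Finsupp.smul_apply, MonoidAlgebra.of_apply,
      MonoidAlgebra.coeff_single, Finsupp.single_apply, if_neg, smul_zero]
    intro h'
    apply hh
    rw [← h', inv_inv]
  · intro h
    exact absurd (Finset.mem_univ _) h

theorem chiG_inv (i : Irr G) (g : G) : chiG i g⁻¹ = (starRingEnd ℂ) (chiG i g) := by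
  have hG : (Fintype.card G : ℂ) ≠ 0 := by exact_mod_cast Fintype.card_ne_zero
  have hd : (dimI i : ℂ) ≠ 0 := by exact_mod_cast (dimI_pos i).ne'
  have h := coeff_gstar (idem i) g
  rw [gstar_idem, idem_coeff, idem_coeff, inv_inv, map_mul, map_div₀, Complex.conj_natCast,
    Complex.conj_natCast] at h
  exact mul_left_cancel₀ (div_ne_zero hd hG) h

theorem gstar_cfun (φ : Irr G → ℂ) : gstar (cfun φ) = cfun (fun i => (starRingEnd ℂ) (φ i)) := by
  rw [cfun, cfun, gstar_sum]
  refine Finset.sum_congr rfl fun i _ => ?_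
  rw [gstar_smul, gstar_idem]

end Claimed.Agent.R296.Rep
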