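import Claimed.Agent.R296.Rep.BlockA6

/-!
# BB_Rep L0-B1: natural multiplicities, virtual characters, the norm-one criterion

* `mult_nat`: `φ a := trace (P * U a)` is tracial; `tracial_eq` gives
  `φ (idem i * a) = φ (idem i) / d_i * chi i a`, `tracial_munit` gives
  `φ (idem i) / d_i = trace (P * U (munit i 0 0))`, the trace of an idempotent matrix, which is a
  natural number (its rank).  An idempotent matrix of trace `0` is `0`.
* `irr_of_virtual`: `∑ g, f g * f g⁻¹ = |G| ∑ m_i²` by `chiG_orth`.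
-/

set_option autoImplicit false

namespace Claimed.Agent.R296.Rep

open Matrix

variable {G : Type} [Group G] [Fintype G]
variable {n : Type} [Fintype n] [DecidableEq n]

theorem b1_isIdem (P : Matrix n n ℂ) (hP : P * P = P) : IsIdempotentElem P.toLin' :=
  (Matrix.toLin'_mul P P).symm.trans (congrArg _ hP)

theorem b1_trace_eq_finrank (P : Matrix n n ℂ) (hP : P * P = P) :
    trace P = (Module.finrank ℂ (LinearMap.range P.toLin') : ℂ) := by
  have he : IsIdempotentElem P.toLin' := b1_isIdem P hP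
  rw [← Matrix.trace_toLin'_eq, (LinearMap.IsIdempotentElem.isProj_range _ he).trace]

/-- the trace of an idempotent complex matrix is a natural number -/
theorem trace_idempotent_nat (P : Matrix n n ℂ) (hP : P * P = P) : ∃ m : ℕ, trace P = m :=
  ⟨_, b1_trace_eq_finrank P hP⟩

/-- the trace of an idempotent complex matrix is at most its size -/
theorem trace_idempotent_le (P : Matrix n n ℂ) (hP : P * P = P) (m : ℕ) (hm : trace P = m) :
    m ≤ Fintype.card n := by
  have h := b1_trace_eq_finrank P hP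
  rw [hm] at h
  have h' : m = Module.finrank ℂ (LinearMap.range P.toLin') := by exact_mod_cast h
  rw [h']
  calc Module.finrank ℂ (LinearMap.range P.toLin') ≤ Module.finrank ℂ (n → ℂ) :=
        Submodule.finrank_le _
    _ = Fintype.card n := Module.finrank_fintype_fun_eq_card ℂ

/-- an idempotent complex matrix of trace zero vanishes -/
theorem idempotent_eq_zero_of_trace (P : Matrix n n ℂ) (hP : P * P = P) (h0 : trace P = 0) :
    P = 0 := by
  have he : IsIdempotentElem P.toLin' := b1_isIdem P hP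
  have h := LinearMap.IsIdempotentElem.eq_zero_of_trace_eq_zero he (by rw [Matrix.trace_toLin'_eq, h0])
  exact Matrix.toLin'.injective (by rw [h, map_zero])

/-- the tracial functional `a ↦ trace (P * U a)` -/
noncomputable def b1_phi (U : GA G →ₐ[ℂ] Matrix n n ℂ) (P : Matrix n n ℂ) : GA G →ₗ[ℂ] ℂ :=
  (Matrix.traceLinearMap n ℂ ℂ).comp ((LinearMap.mulLeft ℂ P).comp U.toLinearMap)

omit [Fintype G] in
theorem b1_phi_apply (U : GA G →ₐ[ℂ] Matrix n n ℂ) (P : Matrix n n ℂ) (a : GA G) :
    b1_phi U P a = trace (P * U a) := rfl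

omit [Fintype G] in
theorem b1_phi_tracial (U : GA G →ₐ[ℂ] Matrix n n ℂ) (P : Matrix n n ℂ)
    (hc : ∀ a, P * U a = U a * P) (a b : GA G) : b1_phi U P (a * b) = b1_phi U P (b * a) := by
  rw [b1_phi_apply, b1_phi_apply, map_mul, map_mul, ← Matrix.mul_assoc, Matrix.trace_mul_comm,
    ← Matrix.mul_assoc, ← hc b, Matrix.mul_assoc]

omit [Fintype G] in
theorem b1_idem_mul (U : GA G →ₐ[ℂ] Matrix n n ℂ) (P : Matrix n n ℂ) (hP : P * P = P)
    (hc : ∀ a, P * U a = U a * P) (e : GA G) (he : e * e = e) :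
    (P * U e) * (P * U e) = P * U e := by
  calc (P * U e) * (P * U e) = P * (U e * P) * U e := by simp only [Matrix.mul_assoc]
    _ = P * (P * U e) * U e := by rw [hc e]
    _ = (P * P) * (U e * U e) := by simp only [Matrix.mul_assoc]
    _ = P * U e := by rw [hP, ← map_mul, he]

/-- **Natural multiplicities**: on the range of an invariant idempotent `P`, the block `i` occurs
`m` times. -/
theorem mult_nat (U : GA G →ₐ[ℂ] Matrix n n ℂ) (P : Matrix n n ℂ) (hP : P * P = P)
    (hc : ∀ a, P * U a = U a * P) (i : Irr G) :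
    ∃ m : ℕ, (∀ a, trace (P * U (idem i * a)) = m * chi i a) ∧ (m = 0 ↔ P * U (idem i) = 0) := by
  have hd : (dimI i : ℂ) ≠ 0 := by exact_mod_cast (dimI_pos i).ne'
  have ht := b1_phi_tracial U P hc
  have he : munit i 0 0 * munit i 0 0 = munit i 0 0 := by rw [munit_mul_munit, if_pos rfl]
  obtain ⟨m, hm⟩ := trace_idempotent_nat _ (b1_idem_mul U P hP hc _ he)
  have h1 : b1_phi U P (idem i) = dimI i * m := by
    rw [tracial_munit _ ht i 0, b1_phi_apply, hm]
  refine ⟨m, fun a => ?_, ?_⟩
  · rw [← b1_phi_apply, tracial_eq _ ht, h1, mul_div_cancel_left₀ _ hd]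
  · constructor
    · intro h0
      apply idempotent_eq_zero_of_trace _
        (b1_idem_mul U P hP hc _ (by rw [idem_mul_idem, if_pos rfl]))
      rw [← b1_phi_apply, h1, h0, Nat.cast_zero, mul_zero]
    · intro h0
      rw [b1_phi_apply, h0, Matrix.trace_zero] at h1
      have := (mul_eq_zero.1 h1.symm).resolve_left hd
      exact_mod_cast this

theorem b1_chi_one (i : Irr G) : chi i 1 = dimI i := by
  rw [chi_apply, map_one, Matrix.trace_one, Fintype.card_fin]

/-- consequence: a nonzero invariant idempotent below the block `i` has trace at least `d_i` -/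
theorem dimI_le_trace (U : GA G →ₐ[ℂ] Matrix n n ℂ) (P : Matrix n n ℂ) (hP : P * P = P)
    (hc : ∀ a, P * U a = U a * P) (i : Irr G) (hi : P * U (idem i) = P) (h0 : P ≠ 0) :
    (dimI i : ℝ) ≤ (trace P).re := by
  obtain ⟨m, hm, hm0⟩ := mult_nat U P hP hc i
  have h1 := hm 1
  rw [mul_one, hi, b1_chi_one] at h1
  have hm1 : 1 ≤ m := Nat.one_le_iff_ne_zero.2 fun h => h0 (hi ▸ hm0.1 h)
  have h2 : (trace P).re = (m : ℝ) * dimI i := by
    rw [h1]
    simp
  rw [h2]
  have : (1 : ℝ) ≤ m := by exact_mod_cast hm1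
  nlinarith [(Nat.cast_nonneg (dimI i) : (0 : ℝ) ≤ dimI i)]

/-- character of a representation as a combination of irreducible characters -/
theorem trace_rep_eq (U : GA G →ₐ[ℂ] Matrix n n ℂ) :
    ∃ m : Irr G → ℕ, ∀ a, trace (U a) = ∑ i, (m i : ℂ) * chi i a := by
  have h := fun i => mult_nat U 1 (one_mul 1) (fun a => by rw [one_mul, mul_one]) i
  choose m hm _ using h
  refine ⟨m, fun a => ?_⟩
  calc trace (U a) = trace (U ((∑ i, idem i) * a)) := by rw [sum_idem, one_mul]
    _ = ∑ i, trace (1 * U (idem i * a)) := by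
        rw [Finset.sum_mul, map_sum, Matrix.trace_sum]
        simp only [one_mul]
    _ = ∑ i, (m i : ℂ) * chi i a := Finset.sum_congr rfl fun i _ => hm i a

/-- an idempotent of the group algebra killed by all characters vanishes -/
theorem ga_idempotent_eq_zero (x : GA G) (hx : x * x = x) (h : ∀ i, chi i x = 0) : x = 0 := by
  apply ga_ext
  intro i
  rw [map_zero]
  exact idempotent_eq_zero_of_trace _ (by rw [← map_mul, hx]) (h i)

/-- the character of an idempotent of the group algebra is a natural number `≤ d_i` -/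
theorem chi_idempotent_nat (x : GA G) (hx : x * x = x) (i : Irr G) :
    ∃ m : ℕ, chi i x = m ∧ m ≤ dimI i := by
  have hP : blockRep i x * blockRep i x = blockRep i x := by rw [← map_mul, hx]
  obtain ⟨m, hm⟩ := trace_idempotent_nat _ hP
  refine ⟨m, hm, ?_⟩
  have := trace_idempotent_le _ hP m hm
  rwa [Fintype.card_fin] at this

/-- virtual characters: integer combinations of the irreducible characters -/
def IsVirtual (f : G → ℂ) : Prop := ∃ m : Irr G → ℤ, ∀ g, f g = ∑ i, (m i : ℂ) * chiG i g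

theorem isVirtual_rep (U : G →* Matrix n n ℂ) : IsVirtual (fun g => trace (U g)) := by
  obtain ⟨m, hm⟩ := trace_rep_eq (repAlg U)
  refine ⟨fun i => (m i : ℤ), fun g => ?_⟩
  have h := hm (MonoidAlgebra.of ℂ G g)
  rw [repAlg, MonoidAlgebra.lift_of] at h
  simpa [chiG] using h

theorem IsVirtual.add {f g : G → ℂ} (hf : IsVirtual f) (hg : IsVirtual g) :
    IsVirtual (fun x => f x + g x) := by
  obtain ⟨m, hm⟩ := hf
  obtain ⟨k, hk⟩ := hg
  refine ⟨fun i => m i + k i, fun x => ?_⟩
  show f x + g x = _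
  rw [hm, hk, ← Finset.sum_add_distrib]
  refine Finset.sum_congr rfl fun i _ => ?_
  push_cast
  ring

theorem IsVirtual.zsmul {f : G → ℂ} (hf : IsVirtual f) (c : ℤ) :
    IsVirtual (fun x => (c : ℂ) * f x) := by
  obtain ⟨m, hm⟩ := hf
  refine ⟨fun i => c * m i, fun x => ?_⟩
  show (c : ℂ) * f x = _
  rw [hm, Finset.mul_sum]
  refine Finset.sum_congr rfl fun i _ => ?_
  push_cast
  ring

theorem b1_isVirtual_zero : IsVirtual (fun _ : G => (0 : ℂ)) :=
  ⟨fun _ => 0, fun _ => by simp⟩

theorem IsVirtual.sum {ι : Type} (s : Finset ι) (f : ι → G → ℂ) (hf : ∀ j ∈ s, IsVirtual (f j)) :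
    IsVirtual (fun x => ∑ j ∈ s, f j x) := by
  classical
  induction s using Finset.induction_on with
  | empty => simpa using b1_isVirtual_zero
  | insert a s ha ih =>
    have h1 := (hf a (Finset.mem_insert_self a s)).add
      (ih fun j hj => hf j (Finset.mem_insert_of_mem hj))
    simpa only [Finset.sum_insert ha] using h1

theorem b1_norm_virtual (m : Irr G → ℤ) :
    ∑ g, (∑ i, (m i : ℂ) * chiG i g) * (∑ j, (m j : ℂ) * chiG j g⁻¹)
      = (Fintype.card G : ℂ) * ((∑ i, m i ^ 2 : ℤ) : ℂ) := by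
  calc ∑ g, (∑ i, (m i : ℂ) * chiG i g) * (∑ j, (m j : ℂ) * chiG j g⁻¹)
      = ∑ g, ∑ i, ∑ j, (m i : ℂ) * (m j : ℂ) * (chiG i g * chiG j g⁻¹) := by
        refine Finset.sum_congr rfl fun g _ => ?_
        rw [Finset.sum_mul_sum]
        refine Finset.sum_congr rfl fun i _ => Finset.sum_congr rfl fun j _ => ?_
        ring
    _ = ∑ i, ∑ j, (m i : ℂ) * (m j : ℂ) * ∑ g, chiG i g * chiG j g⁻¹ := by
        rw [Finset.sum_comm]
        refine Finset.sum_congr rfl fun i _ => ?_
        rw [Finset.sum_comm]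
        refine Finset.sum_congr rfl fun j _ => ?_
        rw [Finset.mul_sum]
    _ = ∑ i, (m i : ℂ) * (m i : ℂ) * (Fintype.card G : ℂ) := by
        refine Finset.sum_congr rfl fun i _ => ?_
        simp only [chiG_orth, mul_ite, mul_zero]
        rw [Finset.sum_ite_eq Finset.univ i, if_pos (Finset.mem_univ i)]
    _ = (Fintype.card G : ℂ) * ((∑ i, m i ^ 2 : ℤ) : ℂ) := by
        push_cast
        rw [Finset.mul_sum]
        refine Finset.sum_congr rfl fun i _ => ?_
        ring

theorem b1_sum_sq_eq_one {ι : Type} [Fintype ι] (m : ι → ℤ) (h : ∑ i, m i ^ 2 = 1) :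
    ∃ i, m i ^ 2 = 1 ∧ ∀ j, j ≠ i → m j = 0 := by
  classical
  have hex : ∃ i, m i ≠ 0 := by
    by_contra hcon
    have hcon' : ∀ i, m i = 0 := fun i => by_contra fun hi => hcon ⟨i, hi⟩
    simp [hcon'] at h
  obtain ⟨i, hi⟩ := hex
  have h1 : 1 ≤ m i ^ 2 := by
    have : 0 < m i ^ 2 := by positivity
    omega
  have h2 : ∑ j, m j ^ 2 = m i ^ 2 + ∑ j ∈ Finset.univ.erase i, m j ^ 2 :=
    (Finset.add_sum_erase _ _ (Finset.mem_univ i)).symm
  have h3 : 0 ≤ ∑ j ∈ Finset.univ.erase i, m j ^ 2 := Finset.sum_nonneg fun j _ => sq_nonneg _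
  have h4 : ∑ j ∈ Finset.univ.erase i, m j ^ 2 = 0 := by omega
  refine ⟨i, by omega, fun j hj => ?_⟩
  have h5 := (Finset.sum_eq_zero_iff_of_nonneg fun j _ => sq_nonneg (m j)).1 h4 j
    (Finset.mem_erase.2 ⟨hj, Finset.mem_univ j⟩)
  exact pow_eq_zero_iff (two_ne_zero) |>.1 h5

/-- **Norm-one criterion.** -/
theorem irr_of_virtual (f : G → ℂ) (hf : IsVirtual f)
    (hn : ∑ g, f g * f g⁻¹ = (Fintype.card G : ℂ)) (h1 : 0 < (f 1).re) :
    ∃ i : Irr G, ∀ g, chiG i g = f g := by
  classical
  obtain ⟨m, hm⟩ := hf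
  have hG : (Fintype.card G : ℂ) ≠ 0 := by exact_mod_cast Fintype.card_ne_zero
  have h2 : ((∑ i, m i ^ 2 : ℤ) : ℂ) = 1 := by
    have := b1_norm_virtual m
    simp only [← hm] at this
    rw [hn] at this
    exact (mul_left_cancel₀ hG (this.symm.trans (mul_one _).symm))
  have h3 : ∑ i, m i ^ 2 = 1 := by exact_mod_cast h2
  obtain ⟨i, hi, hj⟩ := b1_sum_sq_eq_one m h3
  have hf' : ∀ g, f g = (m i : ℂ) * chiG i g := by
    intro g
    rw [hm, Finset.sum_eq_single i]
    · intro j _ hji
      rw [hj j hji, Int.cast_zero, zero_mul]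
    · intro h
      exact absurd (Finset.mem_univ i) h
  have hmi : m i = 1 := by
    rcases sq_eq_one_iff.1 hi with h | h
    · exact h
    · exfalso
      rw [hf' 1, h, chiG_one] at h1
      simp at h1
      have : (0 : ℝ) ≤ dimI i := Nat.cast_nonneg _
      linarith
  refine ⟨i, fun g => ?_⟩
  rw [hf', hmi, Int.cast_one, one_mul]

end Claimed.Agent.R296.Rep
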