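import Claimed.Agent.R296.Rep.BlockA6

/-!
# BB_Rep L0-B2: bicommutant lemma and unitary representations

* `bicommutant`: fix a block `i`, put `F a b := U (munit i a b)`, `P := F 0 0`.  For an arbitrary
  matrix `Y₀` the matrix `Y := ∑ a, F a 0 * Y₀ * F 0 a` commutes with all `U x`
  (`idem_mul_eq_sum_munit`, `munit_mul_munit`, `munit_mul_munit_ne`, `sum_idem`), hence with `X`.
  Compressing by `P`: `P X P` commutes with `P Y₀ P` for all `Y₀`, so `P X P = c P`
  (test with rank-one `Y₀`).  As `X` commutes with the `F a b`,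
  `X * U (idem i) = ∑ a, F a 0 * (P X P) * F 0 a = c • U (idem i)`.  Sum over `i`.
-/

set_option autoImplicit false

namespace Claimed.Agent.R296.Rep

open Matrix
open scoped ComplexOrder

variable {G : Type} [Group G] [Fintype G]
variable {n : Type} [Fintype n] [DecidableEq n]

theorem b2_mul_single_mul (A B : Matrix n n ℂ) (a b i j : n) :
    (A * Matrix.single a b (1 : ℂ) * B) i j = A i a * B b j := by
  rw [Matrix.mul_apply, Finset.sum_eq_single b]
  · rw [Matrix.mul_single_apply_same, mul_one]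
  · intro c _ hc
    rw [Matrix.mul_single_apply_of_ne _ _ _ _ _ hc, zero_mul]
  · intro h
    exact absurd (Finset.mem_univ b) h

/-- a matrix `X₀ = P X₀ P` commuting with `P Y P` for all `Y` is a multiple of the idempotent `P` -/
theorem corner_scalar (P X₀ : Matrix n n ℂ) (hP : P * P = P) (hX : P * X₀ * P = X₀)
    (h : ∀ Y : Matrix n n ℂ, X₀ * (P * Y * P) = (P * Y * P) * X₀) : ∃ c : ℂ, X₀ = c • P := by
  have hXP : X₀ * P = X₀ := by
    conv_lhs => rw [← hX]
    rw [Matrix.mul_assoc, hP, hX]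
  have hPX : P * X₀ = X₀ := by
    conv_lhs => rw [← hX]
    rw [← Matrix.mul_assoc, ← Matrix.mul_assoc, hP, hX]
  have key : ∀ a b i j, X₀ i a * P b j = P i a * X₀ b j := by
    intro a b i j
    have h1 := h (Matrix.single a b (1 : ℂ))
    have h2 : X₀ * (P * Matrix.single a b (1 : ℂ) * P) = X₀ * Matrix.single a b (1 : ℂ) * P := by
      rw [← Matrix.mul_assoc, ← Matrix.mul_assoc, hXP]
    have h3 : (P * Matrix.single a b (1 : ℂ) * P) * X₀ = P * Matrix.single a b (1 : ℂ) * X₀ := by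
      rw [Matrix.mul_assoc, hPX]
    rw [h2, h3] at h1
    have h4 := congrFun (congrFun h1 i) j
    rwa [b2_mul_single_mul, b2_mul_single_mul] at h4
  by_cases h0 : P = 0
  · refine ⟨0, ?_⟩
    rw [← hX, h0]
    simp
  · obtain ⟨b, j, hbj⟩ : ∃ b j, P b j ≠ 0 := by
      by_contra hcon
      apply h0
      ext b j
      by_contra hne
      exact hcon ⟨b, j, hne⟩
    refine ⟨X₀ b j / P b j, ?_⟩
    ext i a
    rw [Matrix.smul_apply, smul_eq_mul]
    have := key a b i j
    field_simp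
    linear_combination this

theorem b2_eq_sum_munit (x : GA G) :
    x = ∑ j : Irr G, ∑ a, ∑ b, blockRep j x a b • munit j a b := by
  conv_lhs => rw [← one_mul x, ← sum_idem, Finset.sum_mul]
  exact Finset.sum_congr rfl fun j _ => idem_mul_eq_sum_munit j x

theorem b2_comm_of_munit (U : GA G →ₐ[ℂ] Matrix n n ℂ) (Y : Matrix n n ℂ)
    (h : ∀ (j : Irr G) (c d : Fin (dimI j)), Y * U (munit j c d) = U (munit j c d) * Y) (x : GA G) :
    Y * U x = U x * Y := by
  rw [b2_eq_sum_munit x]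
  simp only [map_sum, map_smul, Finset.mul_sum, Finset.sum_mul, Matrix.mul_smul, Matrix.smul_mul, h]

/-- the average `∑ a, F a 0 * Y₀ * F 0 a` -/
noncomputable def b2_avg (U : GA G →ₐ[ℂ] Matrix n n ℂ) (i : Irr G) (Y₀ : Matrix n n ℂ) :
    Matrix n n ℂ :=
  ∑ a, U (munit i a 0) * Y₀ * U (munit i 0 a)

theorem b2_avg_mul_munit (U : GA G →ₐ[ℂ] Matrix n n ℂ) (i : Irr G) (Y₀ : Matrix n n ℂ)
    (c d : Fin (dimI i)) :
    b2_avg U i Y₀ * U (munit i c d) = U (munit i c 0) * Y₀ * U (munit i 0 d) := by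
  rw [b2_avg, Finset.sum_mul, Finset.sum_eq_single c]
  · rw [Matrix.mul_assoc, ← map_mul, munit_mul_munit, if_pos rfl]
  · intro a _ ha
    rw [Matrix.mul_assoc, ← map_mul, munit_mul_munit, if_neg ha, map_zero, Matrix.mul_zero]
  · intro h
    exact absurd (Finset.mem_univ c) h

theorem b2_munit_mul_avg (U : GA G →ₐ[ℂ] Matrix n n ℂ) (i : Irr G) (Y₀ : Matrix n n ℂ)
    (c d : Fin (dimI i)) :
    U (munit i c d) * b2_avg U i Y₀ = U (munit i c 0) * Y₀ * U (munit i 0 d) := by
  rw [b2_avg, Finset.mul_sum, Finset.sum_eq_single d]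
  · rw [← Matrix.mul_assoc, ← Matrix.mul_assoc, ← map_mul, munit_mul_munit, if_pos rfl]
  · intro a _ ha
    rw [← Matrix.mul_assoc, ← Matrix.mul_assoc, ← map_mul, munit_mul_munit, if_neg (Ne.symm ha),
      map_zero, Matrix.zero_mul, Matrix.zero_mul]
  · intro h
    exact absurd (Finset.mem_univ d) h

theorem b2_avg_comm (U : GA G →ₐ[ℂ] Matrix n n ℂ) (i : Irr G) (Y₀ : Matrix n n ℂ) (x : GA G) :
    b2_avg U i Y₀ * U x = U x * b2_avg U i Y₀ := by
  apply b2_comm_of_munit
  intro j c d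
  by_cases hij : i = j
  · subst hij
    rw [b2_avg_mul_munit, b2_munit_mul_avg]
  · have h1 : b2_avg U i Y₀ * U (munit j c d) = 0 := by
      rw [b2_avg, Finset.sum_mul]
      refine Finset.sum_eq_zero fun a _ => ?_
      rw [Matrix.mul_assoc, ← map_mul, munit_mul_munit_ne i j hij, map_zero, Matrix.mul_zero]
    have h2 : U (munit j c d) * b2_avg U i Y₀ = 0 := by
      rw [b2_avg, Finset.mul_sum]
      refine Finset.sum_eq_zero fun a _ => ?_
      rw [← Matrix.mul_assoc, ← Matrix.mul_assoc, ← map_mul,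
        munit_mul_munit_ne j i (Ne.symm hij), map_zero, Matrix.zero_mul, Matrix.zero_mul]
    rw [h1, h2]

theorem b2_block_scalar (U : GA G →ₐ[ℂ] Matrix n n ℂ) (X : Matrix n n ℂ)
    (h1 : ∀ a, X * U a = U a * X)
    (h2 : ∀ Y : Matrix n n ℂ, (∀ a, Y * U a = U a * Y) → X * Y = Y * X) (i : Irr G) :
    ∃ c : ℂ, X * U (idem i) = c • U (idem i) := by
  set P := U (munit i 0 0) with hPdef
  have hP : P * P = P := by rw [hPdef, ← map_mul, munit_mul_munit, if_pos rfl]
  have hXP : X * P = P * X := h1 _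
  have hcorner : ∀ Y₀, P * b2_avg U i Y₀ * P = P * Y₀ * P := by
    intro Y₀
    rw [hPdef, b2_munit_mul_avg, Matrix.mul_assoc, ← map_mul, munit_mul_munit, if_pos rfl]
  obtain ⟨c, hc⟩ := corner_scalar P (X * P) hP
    (by rw [← Matrix.mul_assoc, ← hXP, Matrix.mul_assoc, Matrix.mul_assoc, hP, hP])
    (fun Y₀ => by
      have hY := h2 _ (b2_avg_comm U i Y₀)
      rw [← hcorner Y₀]
      set Y := b2_avg U i Y₀
      calc X * P * (P * Y * P) = X * (P * P) * Y * P := by simp only [Matrix.mul_assoc]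
        _ = P * (X * Y) * P := by rw [hP, hXP]; simp only [Matrix.mul_assoc]
        _ = P * Y * (X * P) * P := by rw [hY]; simp only [Matrix.mul_assoc]; rw [hP]
        _ = P * Y * P * (X * P) := by rw [hXP]; simp only [Matrix.mul_assoc]; rw [← Matrix.mul_assoc P P, hP, ← Matrix.mul_assoc P X P, ← hXP, Matrix.mul_assoc, hP])
  refine ⟨c, ?_⟩
  have hterm : ∀ a, X * U (munit i a a) = c • U (munit i a a) := by
    intro a
    have e1 : munit i a a = munit i a 0 * munit i 0 0 * munit i 0 a := by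
      rw [munit_mul_munit, if_pos rfl, munit_mul_munit, if_pos rfl]
    calc X * U (munit i a a) = X * (U (munit i a 0) * P * U (munit i 0 a)) := by
          rw [e1, map_mul, map_mul]
      _ = U (munit i a 0) * (X * P) * U (munit i 0 a) := by
          rw [← Matrix.mul_assoc, ← Matrix.mul_assoc, h1, Matrix.mul_assoc (U (munit i a 0)) X P]
      _ = c • U (munit i a a) := by
          rw [hc, Matrix.mul_smul, Matrix.smul_mul, e1, map_mul, map_mul]
  rw [← sum_munit_diag, map_sum, Finset.mul_sum, Finset.smul_sum]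
  exact Finset.sum_congr rfl fun a _ => hterm a

/-- **Bicommutant lemma**: what commutes with a representation and with its commutant is a
function of the labels. -/
theorem bicommutant (U : GA G →ₐ[ℂ] Matrix n n ℂ) (X : Matrix n n ℂ)
    (h1 : ∀ a, X * U a = U a * X)
    (h2 : ∀ Y : Matrix n n ℂ, (∀ a, Y * U a = U a * Y) → X * Y = Y * X) :
    ∃ c : Irr G → ℂ, X = U (cfun c) := by
  choose c hc using b2_block_scalar U X h1 h2
  refine ⟨c, ?_⟩
  calc X = X * U (∑ i, idem i) := by rw [sum_idem, map_one, Matrix.mul_one]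
    _ = ∑ i, c i • U (idem i) := by
        rw [map_sum, Finset.mul_sum]
        exact Finset.sum_congr rfl fun i _ => hc i
    _ = U (cfun c) := by
        rw [cfun, map_sum]
        exact Finset.sum_congr rfl fun i _ => (map_smul U _ _).symm

/-- the coefficients in the bicommutant lemma -/
theorem trace_mul_cfun (U : GA G →ₐ[ℂ] Matrix n n ℂ) (c : Irr G → ℂ) (i : Irr G) :
    trace (U (cfun c) * U (idem i)) = c i * trace (U (idem i)) := by
  rw [← map_mul, cfun_mul_idem, map_smul, Matrix.trace_smul, smul_eq_mul]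

omit [Fintype G] in
theorem repAlg_of (U : G →* Matrix n n ℂ) (g : G) : repAlg U (MonoidAlgebra.of ℂ G g) = U g := by
  rw [repAlg, MonoidAlgebra.lift_of]

theorem b2_eq_sum_of (a : GA G) : a = ∑ g, a.coeff g • MonoidAlgebra.of ℂ G g := by
  conv_lhs => rw [← MonoidAlgebra.sum_coeff_single a]
  rw [Finsupp.sum_fintype _ _ (fun g => by simp)]
  refine Finset.sum_congr rfl fun g _ => ?_
  rw [MonoidAlgebra.of_apply, MonoidAlgebra.smul_single, smul_eq_mul, mul_one]

theorem repAlg_eq_sum (U : G →* Matrix n n ℂ) (a : GA G) :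
    repAlg U a = ∑ g, a.coeff g • U g := by
  conv_lhs => rw [b2_eq_sum_of a]
  rw [map_sum]
  exact Finset.sum_congr rfl fun g _ => by rw [map_smul, repAlg_of]

theorem repAlg_gstar (U : G →* Matrix n n ℂ) (hU : ∀ g, (U g)ᴴ = U g⁻¹) (a : GA G) :
    (repAlg U a)ᴴ = repAlg U (gstar a) := by
  rw [repAlg_eq_sum, gstar, map_sum, Matrix.conjTranspose_sum]
  refine Finset.sum_congr rfl fun g _ => ?_
  rw [Matrix.conjTranspose_smul, hU, map_smul, repAlg_of]
  rfl

theorem repAlg_idem_isHermitian (U : G →* Matrix n n ℂ) (hU : ∀ g, (U g)ᴴ = U g⁻¹) (i : Irr G) :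
    (repAlg U (idem i)).IsHermitian := by
  rw [Matrix.IsHermitian, repAlg_gstar U hU, gstar_idem]

theorem repAlg_idem_posSemidef (U : G →* Matrix n n ℂ) (hU : ∀ g, (U g)ᴴ = U g⁻¹) (i : Irr G) :
    (repAlg U (idem i)).PosSemidef := by
  have h : repAlg U (idem i) = (repAlg U (idem i))ᴴ * repAlg U (idem i) := by
    rw [(repAlg_idem_isHermitian U hU i).eq, ← map_mul, idem_mul_idem, if_pos rfl]
  rw [h]
  exact Matrix.posSemidef_conjTranspose_mul_self _

theorem repAlg_cfun_isHermitian (U : G →* Matrix n n ℂ) (hU : ∀ g, (U g)ᴴ = U g⁻¹)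
    (φ : Irr G → ℝ) : (repAlg U (cfun fun i => (φ i : ℂ))).IsHermitian := by
  rw [Matrix.IsHermitian, repAlg_gstar U hU, gstar_cfun]
  simp only [Complex.conj_ofReal]

theorem b2_repAlg_cfun (U : G →* Matrix n n ℂ) (φ : Irr G → ℝ) :
    repAlg U (cfun fun i => (φ i : ℂ)) = ∑ i, φ i • repAlg U (idem i) := by
  rw [cfun, map_sum]
  refine Finset.sum_congr rfl fun i _ => ?_
  rw [map_smul]
  ext a b
  simp

theorem repAlg_cfun_posSemidef (U : G →* Matrix n n ℂ) (hU : ∀ g, (U g)ᴴ = U g⁻¹)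
    (φ : Irr G → ℝ) (h : ∀ i, 0 ≤ φ i) : (repAlg U (cfun fun i => (φ i : ℂ))).PosSemidef := by
  rw [b2_repAlg_cfun]
  exact Matrix.posSemidef_sum _ fun i _ => (repAlg_idem_posSemidef U hU i).smul (h i)

/-- monotonicity of the central calculus -/
theorem repAlg_cfun_mono (U : G →* Matrix n n ℂ) (hU : ∀ g, (U g)ᴴ = U g⁻¹)
    (φ ψ : Irr G → ℝ) (h : ∀ i, repAlg U (idem i) ≠ 0 → φ i ≤ ψ i) :
    (repAlg U (cfun fun i => (ψ i : ℂ)) - repAlg U (cfun fun i => (φ i : ℂ))).PosSemidef := by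
  rw [b2_repAlg_cfun, b2_repAlg_cfun, ← Finset.sum_sub_distrib]
  refine Matrix.posSemidef_sum _ fun i _ => ?_
  rw [← sub_smul]
  by_cases h0 : repAlg U (idem i) = 0
  · rw [h0, smul_zero]
    exact Matrix.PosSemidef.zero
  · exact (repAlg_idem_posSemidef U hU i).smul (sub_nonneg.2 (h i h0))

end Claimed.Agent.R296.Rep
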