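import Claimed.Agent.R296.Rep.BlockB1
import Claimed.Agent.R296.Rep.BlockB2

/-!
# BB_Rep L0-C: Kronecker multiplicities (merging subsystems) and commuting subgroups (copy groups)

Abstract forms of `lem:schur` (3), (4) of P1 Sec. 5.

* `kronMult_nat`, `kron_dim_le`: the Kronecker product `g ↦ blockRep i g ⊗ₖ blockRep j g` is a
  representation of size `d_i d_j`; apply `mult_nat` with `P = 1`:
  `trace (U (idem l)) = m * d_l ≤ d_i d_j` and, by `idem_coeff`, `trace (U (idem l)) =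
  d_l * kronMult i j l`.
* `bitracial_eq`: `tracial_eq` in each variable.
* `res_mult_nat`: with `φ a := chi i (gmap f₁ a * gmap f₂ (idem β))` (tracial on `GA H₁` because the
  images commute) `tracial_munit` gives `chi i (e_α e_β) = d_α chi i (E^α_00 e_β)`; the same in the
  second variable gives `d_α d_β chi i (E^α_00 E^β_00)`, and `E^α_00 E^β_00` is an idempotent
  (`chi_idempotent_nat`).
* `res_dim_ge`: `regular_trace` for `x = e_α e_β`: `|G| x(1) = ∑_λ d_λ chi_λ(x)`, all terms `≥ 0`,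
  `x(1) = e_α(1) e_β(1) = d_α² d_β² / (|H₁| |H₂|)` by injectivity and `idem_coeff`.
-/

set_option autoImplicit false
set_option linter.unusedSectionVars false

namespace Claimed.Agent.R296.Rep

open Matrix
open scoped ComplexOrder Kronecker

variable {G : Type} [Group G] [Fintype G]
variable {n : Type} [Fintype n] [DecidableEq n]

/-! ### C1: Kronecker multiplicities -/

/-- multiplicity of the block `l` in the product of the blocks `i`, `j` -/
noncomputable def kronMult (i j l : Irr G) : ℂ :=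
  (Fintype.card G : ℂ)⁻¹ * ∑ g, chiG i g * chiG j g * chiG l g⁻¹

/-- the Kronecker product of two blocks, as a representation -/
noncomputable def kronRep (i j : Irr G) :
    G →* Matrix (Fin (dimI i) × Fin (dimI j)) (Fin (dimI i) × Fin (dimI j)) ℂ where
  toFun g := blockRep i (MonoidAlgebra.of ℂ G g) ⊗ₖ blockRep j (MonoidAlgebra.of ℂ G g)
  map_one' := by simp only [map_one, one_kronecker_one]
  map_mul' g h := by simp only [map_mul, mul_kronecker_mul]

theorem trace_kronRep (i j : Irr G) (g : G) : trace (kronRep i j g) = chiG i g * chiG j g := by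
  change trace (blockRep i (MonoidAlgebra.of ℂ G g) ⊗ₖ blockRep j (MonoidAlgebra.of ℂ G g)) = _
  rw [trace_kronecker]
  rfl

theorem trace_kronRep_idem (i j l : Irr G) :
    trace (repAlg (kronRep i j) (idem l)) = dimI l * kronMult i j l := by
  rw [repAlg_eq_sum, trace_sum, kronMult, Finset.mul_sum, Finset.mul_sum]
  refine Finset.sum_congr rfl fun g _ => ?_
  rw [trace_smul, trace_kronRep, idem_coeff, smul_eq_mul]
  ring

theorem exists_kronMult_nat (i j l : Irr G) :
    ∃ m : ℕ, kronMult i j l = m ∧ m * dimI l ≤ dimI i * dimI j := by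
  have hd : (dimI l : ℂ) ≠ 0 := by exact_mod_cast (dimI_pos l).ne'
  obtain ⟨m, hm, -⟩ := mult_nat (repAlg (kronRep i j)) 1 (one_mul 1)
    (fun a => by rw [one_mul, mul_one]) l
  have h1 := hm 1
  rw [one_mul, mul_one, trace_kronRep_idem, chi_apply, map_one, trace_one, Fintype.card_fin] at h1
  have h2 : kronMult i j l = m := by
    rw [mul_comm] at h1
    exact mul_right_cancel₀ hd h1
  refine ⟨m, h2, ?_⟩
  have h3 : repAlg (kronRep i j) (idem l) * repAlg (kronRep i j) (idem l)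
      = repAlg (kronRep i j) (idem l) := by
    rw [← map_mul, idem_mul_idem, if_pos rfl]
  have h4 := trace_idempotent_le _ h3 (m * dimI l) (by
    rw [trace_kronRep_idem, h2]; push_cast; ring)
  rwa [Fintype.card_prod, Fintype.card_fin, Fintype.card_fin] at h4

theorem kronMult_nat (i j l : Irr G) : ∃ m : ℕ, kronMult i j l = m := by
  obtain ⟨m, hm, -⟩ := exists_kronMult_nat i j l
  exact ⟨m, hm⟩

theorem kron_dim_le (i j l : Irr G) (h : kronMult i j l ≠ 0) : dimI l ≤ dimI i * dimI j := by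
  obtain ⟨m, hm, hle⟩ := exists_kronMult_nat i j l
  have hm0 : m ≠ 0 := by
    rintro rfl
    exact h (by rw [hm]; simp)
  calc dimI l = 1 * dimI l := (one_mul _).symm
    _ ≤ m * dimI l := Nat.mul_le_mul_right _ (Nat.one_le_iff_ne_zero.2 hm0)
    _ ≤ dimI i * dimI j := hle

theorem sum_kronMult_dim (i j : Irr G) :
    ∑ l, kronMult i j l * dimI l = (dimI i : ℂ) * dimI j := by
  have h : ∑ l, trace (repAlg (kronRep i j) (idem l)) = (dimI i : ℂ) * dimI j := by
    rw [← trace_sum, ← map_sum, sum_idem, map_one, trace_one, Fintype.card_prod, Fintype.card_fin,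
      Fintype.card_fin]
    push_cast
    rfl
  rw [← h]
  refine Finset.sum_congr rfl fun l _ => ?_
  rw [trace_kronRep_idem, mul_comm]

/-- in an ambivalent group (every element conjugate to its inverse) the characters are real -/
theorem chiG_inv_of_ambivalent (hamb : ∀ g : G, ∃ h : G, h * g * h⁻¹ = g⁻¹) (i : Irr G) (g : G) :
    chiG i g⁻¹ = chiG i g := by
  obtain ⟨h, hh⟩ := hamb g
  rw [← hh, chiG_conj]

theorem kronMult_rotate (hamb : ∀ g : G, ∃ h : G, h * g * h⁻¹ = g⁻¹) (i j l : Irr G) :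
    kronMult i j l = kronMult l j i := by
  rw [kronMult, kronMult]
  congr 1
  refine Finset.sum_congr rfl fun g _ => ?_
  rw [chiG_inv_of_ambivalent hamb, chiG_inv_of_ambivalent hamb]
  ring

/-- second inequality of `replicas:merge-dimensions` -/
theorem kron_dim_le' (hamb : ∀ g : G, ∃ h : G, h * g * h⁻¹ = g⁻¹) (i j l : Irr G)
    (h : kronMult i j l ≠ 0) : dimI i ≤ dimI l * dimI j := by
  rw [kronMult_rotate hamb] at h
  exact kron_dim_le l j i h

/-! ### C2: separately tracial bilinear functionals -/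

theorem bitracial_eq (φ : GA G →ₗ[ℂ] GA G →ₗ[ℂ] ℂ)
    (h1 : ∀ a a' b, φ (a * a') b = φ (a' * a) b) (h2 : ∀ a b b', φ a (b * b') = φ a (b' * b))
    (i j : Irr G) (a b : GA G) :
    φ (idem i * a) (idem j * b)
      = φ (idem i) (idem j) / ((dimI i : ℂ) * dimI j) * (chi i a * chi j b) := by
  have e1 := tracial_eq (φ.flip (idem j * b)) (fun a a' => h1 a a' _) i a
  have e2 := tracial_eq (φ (idem i)) (fun b b' => h2 _ b b') j b
  simp only [LinearMap.flip_apply] at e1
  rw [e1, e2]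
  have hi : (dimI i : ℂ) ≠ 0 := by exact_mod_cast (dimI_pos i).ne'
  have hj : (dimI j : ℂ) ≠ 0 := by exact_mod_cast (dimI_pos j).ne'
  field_simp

/-- conditional probability of the merged label: `g d_ν / (d_λ d_μ)` -/
theorem bitracial_merge (φ : GA G →ₗ[ℂ] GA G →ₗ[ℂ] ℂ)
    (h1 : ∀ a a' b, φ (a * a') b = φ (a' * a) b) (h2 : ∀ a b b', φ a (b * b') = φ a (b' * b))
    (i j l : Irr G) :
    ∑ g, (idem l).coeff g *
        φ (idem i * MonoidAlgebra.of ℂ G g) (idem j * MonoidAlgebra.of ℂ G g)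
      = φ (idem i) (idem j) * (kronMult i j l * dimI l / ((dimI i : ℂ) * dimI j)) := by
  have hi : (dimI i : ℂ) ≠ 0 := by exact_mod_cast (dimI_pos i).ne'
  have hj : (dimI j : ℂ) ≠ 0 := by exact_mod_cast (dimI_pos j).ne'
  have hG : (Fintype.card G : ℂ) ≠ 0 := by exact_mod_cast Fintype.card_ne_zero
  simp only [bitracial_eq φ h1 h2, idem_coeff]
  rw [kronMult, Finset.mul_sum, Finset.sum_mul, Finset.sum_div, Finset.mul_sum]
  refine Finset.sum_congr rfl fun g _ => ?_
  change _ * (_ * (chiG i g * chiG j g)) = _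
  field_simp

/-- product of two commuting representations -/
def mulRep (U₁ U₂ : G →* Matrix n n ℂ) (hc : ∀ g h, U₁ g * U₂ h = U₂ h * U₁ g) :
    G →* Matrix n n ℂ where
  toFun g := U₁ g * U₂ g
  map_one' := by simp
  map_mul' g h := by
    rw [map_mul, map_mul, mul_assoc, mul_assoc, ← mul_assoc (U₁ h), hc h g, mul_assoc]

theorem repAlg_commute (U₁ U₂ : G →* Matrix n n ℂ) (hc : ∀ g h, U₁ g * U₂ h = U₂ h * U₁ g)
    (a b : GA G) : repAlg U₁ a * repAlg U₂ b = repAlg U₂ b * repAlg U₁ a := by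
  rw [repAlg_eq_sum, repAlg_eq_sum, Finset.sum_mul_sum, Finset.sum_mul_sum, Finset.sum_comm]
  refine Finset.sum_congr rfl fun h _ => Finset.sum_congr rfl fun g _ => ?_
  rw [smul_mul_smul_comm, smul_mul_smul_comm, hc, mul_comm]

theorem mulRep_apply (U₁ U₂ : G →* Matrix n n ℂ) (hc : ∀ g h, U₁ g * U₂ h = U₂ h * U₁ g) (g : G) :
    mulRep U₁ U₂ hc g = U₁ g * U₂ g := rfl

/-- images of central elements under the first factor commute with the merged representation -/
theorem central_commute_mulRep (U₁ U₂ : G →* Matrix n n ℂ)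
    (hc : ∀ g h, U₁ g * U₂ h = U₂ h * U₁ g) (z : GA G) (hz : ∀ a, z * a = a * z) (a : GA G) :
    repAlg U₁ z * repAlg (mulRep U₁ U₂ hc) a = repAlg (mulRep U₁ U₂ hc) a * repAlg U₁ z := by
  rw [repAlg_eq_sum (mulRep U₁ U₂ hc) a, Finset.mul_sum, Finset.sum_mul]
  refine Finset.sum_congr rfl fun g _ => ?_
  have e1 : repAlg U₁ z * U₁ g = U₁ g * repAlg U₁ z := by
    rw [← repAlg_of U₁ g, ← map_mul, ← map_mul, hz]
  have e2 : repAlg U₁ z * U₂ g = U₂ g * repAlg U₁ z := by
    rw [← repAlg_of U₂ g, repAlg_commute U₁ U₂ hc]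
  rw [mulRep_apply, mul_smul_comm, smul_mul_assoc, ← mul_assoc, e1, mul_assoc, e2, mul_assoc]

/-- images of central elements under the second factor commute with the merged representation -/
theorem central_commute_mulRep' (U₁ U₂ : G →* Matrix n n ℂ)
    (hc : ∀ g h, U₁ g * U₂ h = U₂ h * U₁ g) (z : GA G) (hz : ∀ a, z * a = a * z) (a : GA G) :
    repAlg U₂ z * repAlg (mulRep U₁ U₂ hc) a = repAlg (mulRep U₁ U₂ hc) a * repAlg U₂ z := by
  rw [repAlg_eq_sum (mulRep U₁ U₂ hc) a, Finset.mul_sum, Finset.sum_mul]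
  refine Finset.sum_congr rfl fun g _ => ?_
  have e1 : repAlg U₂ z * U₂ g = U₂ g * repAlg U₂ z := by
    rw [← repAlg_of U₂ g, ← map_mul, ← map_mul, hz]
  have e2 : repAlg U₂ z * U₁ g = U₁ g * repAlg U₂ z := by
    rw [← repAlg_of U₁ g, repAlg_commute U₁ U₂ hc]
  rw [mulRep_apply, mul_smul_comm, smul_mul_assoc, ← mul_assoc, e2, mul_assoc, e1, mul_assoc]

/-- central elements of the smaller system commute with the merged representation -/
theorem cfun_commute_mulRep (U₁ U₂ : G →* Matrix n n ℂ) (hc : ∀ g h, U₁ g * U₂ h = U₂ h * U₁ g)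
    (φ : Irr G → ℂ) (a : GA G) :
    repAlg U₁ (cfun φ) * repAlg (mulRep U₁ U₂ hc) a
      = repAlg (mulRep U₁ U₂ hc) a * repAlg U₁ (cfun φ) := by
  exact central_commute_mulRep U₁ U₂ hc (cfun φ) (cfun_comm φ) a

/-- the separately tracial form `(a, b) ↦ Tr (U₁ a * U₂ b)` -/
noncomputable def trForm (U₁ U₂ : G →* Matrix n n ℂ) : GA G →ₗ[ℂ] GA G →ₗ[ℂ] ℂ :=
  LinearMap.mk₂ ℂ (fun a b => trace (repAlg U₁ a * repAlg U₂ b))
    (fun a a' b => by rw [map_add, add_mul, trace_add])
    (fun c a b => by rw [map_smul, smul_mul_assoc, trace_smul])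
    (fun a b b' => by rw [map_add, mul_add, trace_add])
    (fun c a b => by rw [map_smul, mul_smul_comm, trace_smul])

theorem trForm_apply (U₁ U₂ : G →* Matrix n n ℂ) (a b : GA G) :
    trForm U₁ U₂ a b = trace (repAlg U₁ a * repAlg U₂ b) := rfl

theorem trForm_tracial_left (U₁ U₂ : G →* Matrix n n ℂ) (hc : ∀ g h, U₁ g * U₂ h = U₂ h * U₁ g)
    (a a' b : GA G) : trForm U₁ U₂ (a * a') b = trForm U₁ U₂ (a' * a) b := by
  rw [trForm_apply, trForm_apply, map_mul, map_mul, mul_assoc, trace_mul_comm, mul_assoc,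
    ← repAlg_commute U₁ U₂ hc a b, mul_assoc]

theorem trForm_tracial_right (U₁ U₂ : G →* Matrix n n ℂ) (hc : ∀ g h, U₁ g * U₂ h = U₂ h * U₁ g)
    (a b b' : GA G) : trForm U₁ U₂ a (b * b') = trForm U₁ U₂ a (b' * b) := by
  rw [trForm_apply, trForm_apply, map_mul, map_mul, ← mul_assoc, trace_mul_comm, ← mul_assoc,
    ← repAlg_commute U₁ U₂ hc a b', mul_assoc]

/-- trace of the product of the three label projections -/
theorem trace_merge (U₁ U₂ : G →* Matrix n n ℂ) (hc : ∀ g h, U₁ g * U₂ h = U₂ h * U₁ g)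
    (i j l : Irr G) :
    trace (repAlg U₁ (idem i) * repAlg U₂ (idem j) * repAlg (mulRep U₁ U₂ hc) (idem l))
      = trace (repAlg U₁ (idem i) * repAlg U₂ (idem j))
        * (kronMult i j l * dimI l / ((dimI i : ℂ) * dimI j)) := by
  have h := bitracial_merge (trForm U₁ U₂) (trForm_tracial_left U₁ U₂ hc)
    (trForm_tracial_right U₁ U₂ hc) i j l
  rw [trForm_apply] at h
  rw [← h, repAlg_eq_sum (mulRep U₁ U₂ hc), Finset.mul_sum, trace_sum]
  refine Finset.sum_congr rfl fun g _ => ?_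
  rw [mul_smul_comm, trace_smul, smul_eq_mul, trForm_apply, map_mul, map_mul, repAlg_of, repAlg_of,
    mulRep_apply]
  congr 2
  have e : repAlg U₂ (idem j) * U₁ g = U₁ g * repAlg U₂ (idem j) := by
    rw [← repAlg_of U₁ g, repAlg_commute U₁ U₂ hc]
  rw [mul_assoc, ← mul_assoc (repAlg U₂ (idem j)), e, mul_assoc, mul_assoc]

theorem repAlg_idem_sq (U : G →* Matrix n n ℂ) (i : Irr G) :
    repAlg U (idem i) * repAlg U (idem i) = repAlg U (idem i) := by
  rw [← map_mul, idem_mul_idem, if_pos rfl]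

/-- the product of two commuting idempotents is an idempotent -/
theorem idempotent_mul_of_commute {A : Type*} [Semigroup A] {P Q : A} (hP : P * P = P)
    (hQ : Q * Q = Q) (hPQ : P * Q = Q * P) : (P * Q) * (P * Q) = P * Q := by
  rw [mul_assoc, ← mul_assoc Q, ← hPQ, mul_assoc, hQ, ← mul_assoc, hP]

theorem merge_pair_idempotent (U₁ U₂ : G →* Matrix n n ℂ)
    (hc : ∀ g h, U₁ g * U₂ h = U₂ h * U₁ g) (i j : Irr G) :
    (repAlg U₁ (idem i) * repAlg U₂ (idem j)) * (repAlg U₁ (idem i) * repAlg U₂ (idem j))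
      = repAlg U₁ (idem i) * repAlg U₂ (idem j) :=
  idempotent_mul_of_commute (repAlg_idem_sq U₁ i) (repAlg_idem_sq U₂ j)
    (repAlg_commute U₁ U₂ hc _ _)

theorem merge_pair_commute (U₁ U₂ : G →* Matrix n n ℂ)
    (hc : ∀ g h, U₁ g * U₂ h = U₂ h * U₁ g) (i j l : Irr G) :
    (repAlg U₁ (idem i) * repAlg U₂ (idem j)) * repAlg (mulRep U₁ U₂ hc) (idem l)
      = repAlg (mulRep U₁ U₂ hc) (idem l) * (repAlg U₁ (idem i) * repAlg U₂ (idem j)) := by
  rw [mul_assoc, central_commute_mulRep' U₁ U₂ hc (idem j) (idem_comm j), ← mul_assoc,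
    central_commute_mulRep U₁ U₂ hc (idem i) (idem_comm i), mul_assoc]

/-- compatible labels have a nonzero Kronecker multiplicity -/
theorem merge_compat (U₁ U₂ : G →* Matrix n n ℂ) (hc : ∀ g h, U₁ g * U₂ h = U₂ h * U₁ g)
    (i j l : Irr G)
    (h : repAlg U₁ (idem i) * repAlg U₂ (idem j) * repAlg (mulRep U₁ U₂ hc) (idem l) ≠ 0) :
    kronMult i j l ≠ 0 := by
  intro hk
  apply h
  apply idempotent_eq_zero_of_trace
  · exact idempotent_mul_of_commute (merge_pair_idempotent U₁ U₂ hc i j)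
      (repAlg_idem_sq _ l) (merge_pair_commute U₁ U₂ hc i j l)
  · rw [trace_merge, hk, zero_mul, zero_div, mul_zero]

/-- bound of the Kronecker multiplicity by the ambient multiplicities:
`g * (Tr π^λ_Q π^μ_E) / (d_λ d_μ) ≤ Tr π^ν_{QE} / d_ν` -/
theorem kronMult_le (U₁ U₂ : G →* Matrix n n ℂ) (hc : ∀ g h, U₁ g * U₂ h = U₂ h * U₁ g)
    (i j l : Irr G) :
    (kronMult i j l).re * (trace (repAlg U₁ (idem i) * repAlg U₂ (idem j))).re
        / ((dimI i : ℝ) * dimI j)
      ≤ (trace (repAlg (mulRep U₁ U₂ hc) (idem l))).re / dimI l := by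
  have hi : (0 : ℝ) < dimI i := by exact_mod_cast dimI_pos i
  have hj : (0 : ℝ) < dimI j := by exact_mod_cast dimI_pos j
  have hl : (0 : ℝ) < dimI l := by exact_mod_cast dimI_pos l
  set Q := repAlg U₁ (idem i) * repAlg U₂ (idem j) with hQ
  set R := repAlg (mulRep U₁ U₂ hc) (idem l) with hR
  have hQQ : Q * Q = Q := merge_pair_idempotent U₁ U₂ hc i j
  have hRR : R * R = R := repAlg_idem_sq _ l
  have hQR : Q * R = R * Q := merge_pair_commute U₁ U₂ hc i j l
  obtain ⟨k, hk⟩ := kronMult_nat i j l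
  obtain ⟨T, hT⟩ := trace_idempotent_nat Q hQQ
  -- `R - Q R` is an idempotent, so its trace is a natural number
  have hS : (R - Q * R) * (R - Q * R) = R - Q * R := by
    have e1 : Q * R * R = Q * R := by rw [mul_assoc, hRR]
    have e2 : R * (Q * R) = Q * R := by rw [← mul_assoc, ← hQR, mul_assoc, hRR]
    have e3 : Q * R * (Q * R) = Q * R := idempotent_mul_of_commute hQQ hRR hQR
    rw [sub_mul, mul_sub, mul_sub, hRR, e1, e2, e3]
    abel
  obtain ⟨S, hS'⟩ := trace_idempotent_nat _ hS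
  have h1 := trace_merge U₁ U₂ hc i j l
  rw [← hQ, ← hR, hk, hT] at h1
  rw [trace_sub, h1] at hS'
  have h2 : (trace R).re = S + (T : ℝ) * (k * dimI l / ((dimI i : ℝ) * dimI j)) := by
    have h3 : trace R = S + (T : ℂ) * (k * dimI l / ((dimI i : ℂ) * dimI j)) := by
      rw [← hS']; ring
    have h4 : (S + (T : ℂ) * (k * dimI l / ((dimI i : ℂ) * dimI j)))
        = ((S + (T : ℝ) * (k * dimI l / ((dimI i : ℝ) * dimI j)) : ℝ) : ℂ) := by
      push_cast; rfl
    rw [h3, h4, Complex.ofReal_re]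
  rw [hk, hT, h2, Complex.natCast_re, Complex.natCast_re, le_div_iff₀ hl]
  have hS0 : (0 : ℝ) ≤ S := Nat.cast_nonneg S
  have e : (k : ℝ) * T / ((dimI i : ℝ) * dimI j) * dimI l
      = (T : ℝ) * (k * dimI l / ((dimI i : ℝ) * dimI j)) := by
    field_simp
  rw [e]
  linarith

/-! ### C3: two commuting subgroups -/

variable {H₁ H₂ : Type} [Group H₁] [Fintype H₁] [Group H₂] [Fintype H₂]

theorem gmap_of {H : Type} [Group H] (f : H →* G) (h : H) :
    gmap f (MonoidAlgebra.of ℂ H h) = MonoidAlgebra.of ℂ G (f h) := by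
  simp [gmap, MonoidAlgebra.of_apply]

theorem gmap_eq_sum {H : Type} [Group H] [Fintype H] (f : H →* G) (x : GA H) :
    gmap f x = ∑ h, x.coeff h • MonoidAlgebra.of ℂ G (f h) := by
  conv_lhs => rw [ga_eq_sum_coeff x]
  rw [map_sum]
  refine Finset.sum_congr rfl fun h _ => ?_
  rw [map_smul, gmap_of]

theorem gmap_commute (f₁ : H₁ →* G) (f₂ : H₂ →* G) (hc : ∀ a b, f₁ a * f₂ b = f₂ b * f₁ a)
    (x : GA H₁) (y : GA H₂) : gmap f₁ x * gmap f₂ y = gmap f₂ y * gmap f₁ x := by
  rw [gmap_eq_sum, gmap_eq_sum, Finset.sum_mul_sum, Finset.sum_mul_sum, Finset.sum_comm]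
  refine Finset.sum_congr rfl fun b _ => Finset.sum_congr rfl fun a _ => ?_
  rw [smul_mul_smul_comm, smul_mul_smul_comm, ← map_mul, ← map_mul, hc, mul_comm]

theorem gmap_idem_sq {H : Type} [Group H] [Fintype H] (f : H →* G) (α : Irr H) :
    gmap f (idem α) * gmap f (idem α) = gmap f (idem α) := by
  rw [← map_mul, idem_mul_idem, if_pos rfl]

theorem gmap_munit_sq {H : Type} [Group H] [Fintype H] (f : H →* G) (α : Irr H)
    (a : Fin (dimI α)) : gmap f (munit α a a) * gmap f (munit α a a) = gmap f (munit α a a) := by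
  rw [← map_mul, munit_mul_munit, if_pos rfl]

/-- `chi i (e_α e_β) = d_α d_β chi i (E^α_00 E^β_00)` -/
theorem chi_res_eq (f₁ : H₁ →* G) (f₂ : H₂ →* G) (hc : ∀ a b, f₁ a * f₂ b = f₂ b * f₁ a)
    (i : Irr G) (α : Irr H₁) (β : Irr H₂) :
    chi i (gmap f₁ (idem α) * gmap f₂ (idem β)) =
      (dimI α : ℂ) * dimI β * chi i (gmap f₁ (munit α 0 0) * gmap f₂ (munit β 0 0)) := by
  have e1 := tracial_munit
    ((chi i).comp ((LinearMap.mulRight ℂ (gmap f₂ (idem β))).comp (gmap f₁).toLinearMap))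
    (fun a a' => by
      simp only [LinearMap.comp_apply, AlgHom.toLinearMap_apply, LinearMap.mulRight_apply, map_mul]
      rw [mul_assoc, chi_mul_comm, mul_assoc, ← gmap_commute f₁ f₂ hc a, mul_assoc]) α 0
  have e2 := tracial_munit
    ((chi i).comp ((LinearMap.mulLeft ℂ (gmap f₁ (munit α 0 0))).comp (gmap f₂).toLinearMap))
    (fun b b' => by
      simp only [LinearMap.comp_apply, AlgHom.toLinearMap_apply, LinearMap.mulLeft_apply, map_mul]
      rw [← mul_assoc, chi_mul_comm, ← mul_assoc, ← gmap_commute f₁ f₂ hc _ b', mul_assoc]) β 0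
  simp only [LinearMap.comp_apply, AlgHom.toLinearMap_apply, LinearMap.mulRight_apply,
    LinearMap.mulLeft_apply] at e1 e2
  rw [e1, e2]
  ring

theorem res_mult_nat (f₁ : H₁ →* G) (f₂ : H₂ →* G) (hc : ∀ a b, f₁ a * f₂ b = f₂ b * f₁ a)
    (i : Irr G) (α : Irr H₁) (β : Irr H₂) :
    ∃ c : ℕ, chi i (gmap f₁ (idem α) * gmap f₂ (idem β)) = c * ((dimI α : ℂ) * dimI β) ∧
      c * (dimI α * dimI β) ≤ dimI i := by
  obtain ⟨c, hcc, -⟩ := chi_idempotent_nat (gmap f₁ (munit α 0 0) * gmap f₂ (munit β 0 0))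
    (idempotent_mul_of_commute (gmap_munit_sq f₁ α 0) (gmap_munit_sq f₂ β 0)
      (gmap_commute f₁ f₂ hc _ _)) i
  obtain ⟨m, hm, hle⟩ := chi_idempotent_nat (gmap f₁ (idem α) * gmap f₂ (idem β))
    (idempotent_mul_of_commute (gmap_idem_sq f₁ α) (gmap_idem_sq f₂ β)
      (gmap_commute f₁ f₂ hc _ _)) i
  have h := chi_res_eq f₁ f₂ hc i α β
  refine ⟨c, by rw [h, hcc]; ring, ?_⟩
  have h2 : (m : ℂ) = ((c * (dimI α * dimI β) : ℕ) : ℂ) := by
    rw [← hm, h, hcc]; push_cast; ring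
  have h3 : m = c * (dimI α * dimI β) := by exact_mod_cast h2
  rw [← h3]
  exact hle

/-- lower bound in `replicas:group-dimensions` -/
theorem res_dim_le (f₁ : H₁ →* G) (f₂ : H₂ →* G) (hc : ∀ a b, f₁ a * f₂ b = f₂ b * f₁ a)
    (i : Irr G) (α : Irr H₁) (β : Irr H₂)
    (h : chi i (gmap f₁ (idem α) * gmap f₂ (idem β)) ≠ 0) : dimI α * dimI β ≤ dimI i := by
  obtain ⟨c, hcc, hle⟩ := res_mult_nat f₁ f₂ hc i α β
  have hc0 : c ≠ 0 := by
    rintro rfl
    exact h (by rw [hcc]; simp)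
  calc dimI α * dimI β = 1 * (dimI α * dimI β) := (one_mul _).symm
    _ ≤ c * (dimI α * dimI β) := Nat.mul_le_mul_right _ (Nat.one_le_iff_ne_zero.2 hc0)
    _ ≤ dimI i := hle

theorem idem_coeff_one {H : Type} [Group H] [Fintype H] (α : Irr H) :
    (idem α).coeff 1 = (dimI α : ℂ) ^ 2 / Fintype.card H := by
  rw [idem_coeff, inv_one, chiG_one]
  ring

theorem tau1_of (g : G) [Decidable (g = 1)] :
    tau1 (MonoidAlgebra.of ℂ G g) = if g = 1 then 1 else 0 := by
  rw [tau1_apply, MonoidAlgebra.of_apply, MonoidAlgebra.coeff_single, Finsupp.single_apply]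

/-- the value at `1` of the product of the two idempotents -/
theorem tau1_res (f₁ : H₁ →* G) (f₂ : H₂ →* G)
    (hinj : Function.Injective fun p : H₁ × H₂ => f₁ p.1 * f₂ p.2) (x : GA H₁) (y : GA H₂) :
    tau1 (gmap f₁ x * gmap f₂ y) = x.coeff 1 * y.coeff 1 := by
  classical
  rw [gmap_eq_sum, gmap_eq_sum, Finset.sum_mul_sum, map_sum, Finset.sum_eq_single 1]
  · rw [map_sum, Finset.sum_eq_single 1]
    · rw [smul_mul_smul_comm, map_smul, ← map_mul, tau1_of, map_one f₁, map_one f₂, one_mul,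
        if_pos rfl, smul_eq_mul, mul_one]
    · intro b _ hb
      rw [smul_mul_smul_comm, map_smul, ← map_mul, tau1_of, if_neg, smul_zero]
      intro h
      have := hinj (a₁ := (1, b)) (a₂ := (1, 1)) (by simpa using h)
      exact hb (congrArg Prod.snd this)
    · intro h
      exact absurd (Finset.mem_univ _) h
  · intro a _ ha
    rw [map_sum]
    refine Finset.sum_eq_zero fun b _ => ?_
    rw [smul_mul_smul_comm, map_smul, ← map_mul, tau1_of, if_neg, smul_zero]
    intro h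
    have := hinj (a₁ := (a, b)) (a₂ := (1, 1)) (by simpa using h)
    exact ha (congrArg Prod.fst this)
  · intro h
    exact absurd (Finset.mem_univ _) h

/-- upper bound in `replicas:group-dimensions` -/
theorem res_dim_ge (f₁ : H₁ →* G) (f₂ : H₂ →* G) (hc : ∀ a b, f₁ a * f₂ b = f₂ b * f₁ a)
    (hinj : Function.Injective fun p : H₁ × H₂ => f₁ p.1 * f₂ p.2)
    (i : Irr G) (α : Irr H₁) (β : Irr H₂)
    (h : chi i (gmap f₁ (idem α) * gmap f₂ (idem β)) ≠ 0) :
    dimI i * (Fintype.card H₁ * Fintype.card H₂) ≤ Fintype.card G * (dimI α * dimI β) := by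
  have hx : (gmap f₁ (idem α) * gmap f₂ (idem β)) * (gmap f₁ (idem α) * gmap f₂ (idem β))
      = gmap f₁ (idem α) * gmap f₂ (idem β) :=
    idempotent_mul_of_commute (gmap_idem_sq f₁ α) (gmap_idem_sq f₂ β) (gmap_commute f₁ f₂ hc _ _)
  choose m hm _ using fun l : Irr G => chi_idempotent_nat _ hx l
  have hreg := regular_trace (gmap f₁ (idem α) * gmap f₂ (idem β))
  rw [← tau1_apply, tau1_res f₁ f₂ hinj, idem_coeff_one, idem_coeff_one] at hreg
  simp only [hm] at hreg
  have h1 : (Fintype.card H₁ : ℂ) ≠ 0 := by exact_mod_cast Fintype.card_ne_zero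
  have h2 : (Fintype.card H₂ : ℂ) ≠ 0 := by exact_mod_cast Fintype.card_ne_zero
  have hN : Fintype.card G * (dimI α ^ 2 * dimI β ^ 2)
      = (∑ l, dimI l * m l) * (Fintype.card H₁ * Fintype.card H₂) := by
    have : ((Fintype.card G * (dimI α ^ 2 * dimI β ^ 2) : ℕ) : ℂ)
        = (((∑ l, dimI l * m l) * (Fintype.card H₁ * Fintype.card H₂) : ℕ) : ℂ) := by
      push_cast
      rw [← hreg]
      field_simp
    exact_mod_cast this
  have hmi : dimI α * dimI β ≤ m i := by
    obtain ⟨c, hcc, -⟩ := res_mult_nat f₁ f₂ hc i α β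
    have hc0 : c ≠ 0 := by
      rintro rfl
      exact h (by rw [hcc]; simp)
    have h3 : (m i : ℂ) = ((c * (dimI α * dimI β) : ℕ) : ℂ) := by
      rw [← hm, hcc]; push_cast; ring
    have h4 : m i = c * (dimI α * dimI β) := by exact_mod_cast h3
    rw [h4]
    exact Nat.le_mul_of_pos_left _ (Nat.pos_of_ne_zero hc0)
  have hsum : dimI i * (dimI α * dimI β) ≤ ∑ l, dimI l * m l :=
    (Nat.mul_le_mul_left _ hmi).trans
      (Finset.single_le_sum (f := fun l => dimI l * m l) (fun l _ => Nat.zero_le _)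
        (Finset.mem_univ i))
  have hpos : 0 < dimI α * dimI β := Nat.mul_pos (dimI_pos α) (dimI_pos β)
  apply Nat.le_of_mul_le_mul_left _ hpos
  calc dimI α * dimI β * (dimI i * (Fintype.card H₁ * Fintype.card H₂))
      = dimI i * (dimI α * dimI β) * (Fintype.card H₁ * Fintype.card H₂) := by ring
    _ ≤ (∑ l, dimI l * m l) * (Fintype.card H₁ * Fintype.card H₂) :=
        Nat.mul_le_mul_right _ hsum
    _ = Fintype.card G * (dimI α ^ 2 * dimI β ^ 2) := hN.symm
    _ = dimI α * dimI β * (Fintype.card G * (dimI α * dimI β)) := by ring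

/-- incompatible labels: the product of the idempotents vanishes in the group algebra -/
theorem idem_res_eq_zero (f₁ : H₁ →* G) (f₂ : H₂ →* G) (hc : ∀ a b, f₁ a * f₂ b = f₂ b * f₁ a)
    (i : Irr G) (α : Irr H₁) (β : Irr H₂)
    (h : chi i (gmap f₁ (idem α) * gmap f₂ (idem β)) = 0) :
    idem i * (gmap f₁ (idem α) * gmap f₂ (idem β)) = 0 := by
  have hx : (gmap f₁ (idem α) * gmap f₂ (idem β)) * (gmap f₁ (idem α) * gmap f₂ (idem β))
      = gmap f₁ (idem α) * gmap f₂ (idem β) :=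
    idempotent_mul_of_commute (gmap_idem_sq f₁ α) (gmap_idem_sq f₂ β) (gmap_commute f₁ f₂ hc _ _)
  apply ga_idempotent_eq_zero
  · exact idempotent_mul_of_commute (by rw [idem_mul_idem, if_pos rfl]) hx (idem_comm i _)
  · intro j
    rw [chi_idem_mul]
    split_ifs
    · exact h
    · rfl

/-- one subgroup: value of a tracial functional on a branch -/
theorem tracial_branch (f₁ : H₁ →* G) (φ : GA G →ₗ[ℂ] ℂ) (hφ : ∀ a b, φ (a * b) = φ (b * a))
    (i : Irr G) (α : Irr H₁) :
    φ (idem i * gmap f₁ (idem α)) = φ (idem i) / dimI i * chi i (gmap f₁ (idem α)) := by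
  exact tracial_eq φ hφ i _

/-- `chi i (gmap f (idem α)) = d_α ⟨Res χ_i, χ_α⟩` -/
theorem chi_gmap_idem (f₁ : H₁ →* G) (i : Irr G) (α : Irr H₁) :
    chi i (gmap f₁ (idem α))
      = (dimI α : ℂ) / Fintype.card H₁ * ∑ h, chiG α h⁻¹ * chiG i (f₁ h) := by
  rw [gmap_eq_sum, map_sum, Finset.mul_sum]
  refine Finset.sum_congr rfl fun h _ => ?_
  rw [map_smul, idem_coeff, smul_eq_mul, mul_assoc]
  rfl

end Claimed.Agent.R296.Rep
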