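import Claimed.Agent.R296.Rep.Mixture

/-!
# BB_Rep L4-B: functional calculus of the branches `(λ, λ - e_i)`

`brIdem d j₀ lam i = idem (blk lam) * gsub j₀ (idem (blk (lam - e_i)))` are pairwise orthogonal
self-adjoint idempotents of `ℂ[Perm κ]`; on `(ℂ^α)^{⊗κ}`, `card α ≤ d`, they sum to `1`.
`W_k`, `W_{k-1}`, `R`, `R⁻¹`, `J` and all polynomials in `J` are `brOp`'s there.
-/

set_option autoImplicit false

namespace Claimed.Agent.R296.Rep

open Matrix Real Equiv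
open scoped Matrix.Norms.L2Operator

variable {κ : Type} [Fintype κ] [DecidableEq κ]

theorem gsub_comm_idem (j₀ : κ) (x : GA (Perm {j // j ≠ j₀})) (i : Irr (Perm κ)) :
    idem i * gsub j₀ x = gsub j₀ x * idem i := idem_comm i _

theorem gstar_gsub (j₀ : κ) (x : GA (Perm {j // j ≠ j₀})) :
    gstar (gsub j₀ x) = gsub j₀ (gstar x) := by
  rw [gsub, gmap_eq_sum, gstar_sum]
  conv_rhs => rw [gstar, map_sum]
  refine Finset.sum_congr rfl fun h _ => ?_
  rw [gstar_smul, gstar_of, map_smul, gmap_of, map_inv Perm.ofSubtype]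

open Classical in
theorem brIdem_mul_brIdem (d : ℕ) (j₀ : κ) (lam mu : Fin d → ℕ)
    (hl : IsLab d (Fintype.card κ) lam) (hm : IsLab d (Fintype.card κ) mu) (i j : Fin d)
    (hi : Removable lam i) (hj : Removable mu j) :
    brIdem d j₀ lam i * brIdem d j₀ mu j
      = if lam = mu ∧ i = j then brIdem d j₀ lam i else 0 := by
  have h1 : brIdem d j₀ lam i * brIdem d j₀ mu j
      = (idem (blk d lam) * idem (blk d mu)) *
        gsub j₀ (idem (blk d (subBox lam i)) * idem (blk d (subBox mu j))) := by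
    rw [brIdem, brIdem, map_mul, mul_assoc, ← mul_assoc (gsub j₀ _) (idem _), ← gsub_comm_idem]
    simp only [mul_assoc]
  rw [h1, idem_mul_idem, idem_mul_idem]
  by_cases hlm : lam = mu
  · subst hlm
    by_cases hij : i = j
    · subst hij
      simp [brIdem]
    · have : (blk d (subBox lam i) : Irr (Perm {j // j ≠ j₀})) ≠ blk d (subBox lam j) :=
        fun h => hij (fc_branch_inj d lam hl j₀ i j hi hj h)
      simp [this, hij]
  · have : (blk d lam : Irr (Perm κ)) ≠ blk d mu := fun h => hlm (blk_injOn d _ _ hl hm h)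
    simp [this, hlm]

theorem gstar_brIdem (d : ℕ) (j₀ : κ) (lam : Fin d → ℕ) (i : Fin d) :
    gstar (brIdem d j₀ lam i) = brIdem d j₀ lam i := by
  rw [brIdem, gstar_mul, gstar_idem, gstar_gsub, gstar_idem, ← gsub_comm_idem]

open Classical in
/-- the finite set of branches -/
noncomputable def brSet (d k : ℕ) : Finset ((Fin d → ℕ) × Fin d) :=
  ((labels d k) ×ˢ Finset.univ).filter fun p => Removable p.1 p.2

theorem mem_brSet {d k : ℕ} {p : (Fin d → ℕ) × Fin d} :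
    p ∈ brSet d k ↔ IsLab d k p.1 ∧ Removable p.1 p.2 := by
  classical
  simp [brSet, mem_labels]

theorem brOp_eq_sum (d : ℕ) (j₀ : κ) (c : (Fin d → ℕ) → Fin d → ℂ) :
    brOp d j₀ c = ∑ p ∈ brSet d (Fintype.card κ), c p.1 p.2 • brIdem d j₀ p.1 p.2 := by
  classical
  rw [brOp, brSet, Finset.sum_filter, Finset.sum_product]

theorem brOp_mul_brIdem (d : ℕ) (j₀ : κ) (c : (Fin d → ℕ) → Fin d → ℂ) (lam : Fin d → ℕ)
    (hl : IsLab d (Fintype.card κ) lam) (i : Fin d) (hi : Removable lam i) :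
    brOp d j₀ c * brIdem d j₀ lam i = c lam i • brIdem d j₀ lam i := by
  classical
  rw [brOp_eq_sum, Finset.sum_mul, Finset.sum_eq_single (lam, i)]
  · rw [smul_mul_assoc, brIdem_mul_brIdem d j₀ lam lam hl hl i i hi hi, if_pos ⟨rfl, rfl⟩]
  · intro p hp hne
    rw [smul_mul_assoc, brIdem_mul_brIdem d j₀ p.1 lam (mem_brSet.mp hp).1 hl p.2 i
      (mem_brSet.mp hp).2 hi, if_neg, smul_zero]
    rintro ⟨h1, h2⟩
    exact hne (Prod.ext h1 h2)
  · intro h
    exact absurd (mem_brSet.mpr ⟨hl, hi⟩) h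

theorem brOp_mul (d : ℕ) (j₀ : κ) (c c' : (Fin d → ℕ) → Fin d → ℂ) :
    brOp d j₀ c * brOp d j₀ c' = brOp d j₀ (fun lam i => c lam i * c' lam i) := by
  conv_lhs => rw [brOp_eq_sum d j₀ c']
  rw [brOp_eq_sum d j₀ (fun lam i => c lam i * c' lam i), Finset.mul_sum]
  refine Finset.sum_congr rfl fun p hp => ?_
  rw [mul_smul_comm, brOp_mul_brIdem d j₀ c p.1 (mem_brSet.mp hp).1 p.2 (mem_brSet.mp hp).2,
    smul_smul, mul_comm]

theorem brOp_add (d : ℕ) (j₀ : κ) (c c' : (Fin d → ℕ) → Fin d → ℂ) :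
    brOp d j₀ c + brOp d j₀ c' = brOp d j₀ (fun lam i => c lam i + c' lam i) := by
  simp only [brOp_eq_sum, ← Finset.sum_add_distrib, add_smul]

theorem brOp_sub (d : ℕ) (j₀ : κ) (c c' : (Fin d → ℕ) → Fin d → ℂ) :
    brOp d j₀ c - brOp d j₀ c' = brOp d j₀ (fun lam i => c lam i - c' lam i) := by
  simp only [brOp_eq_sum, ← Finset.sum_sub_distrib, sub_smul]

theorem brOp_smul (d : ℕ) (j₀ : κ) (a : ℂ) (c : (Fin d → ℕ) → Fin d → ℂ) :
    a • brOp d j₀ c = brOp d j₀ (fun lam i => a * c lam i) := by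
  simp only [brOp_eq_sum, Finset.smul_sum, smul_smul]

theorem gstar_brOp (d : ℕ) (j₀ : κ) (c : (Fin d → ℕ) → Fin d → ℂ) :
    gstar (brOp d j₀ c) = brOp d j₀ (fun lam i => (starRingEnd ℂ) (c lam i)) := by
  simp only [brOp_eq_sum, gstar_sum, gstar_smul, gstar_brIdem]

/-- the sum of all branches is the sum of the labelled blocks -/
theorem brOp_one (d : ℕ) (j₀ : κ) :
    brOp d j₀ (fun _ _ => 1) = ∑ lam ∈ labels d (Fintype.card κ), idem (blk d lam) := by
  classical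
  rw [brOp]
  refine Finset.sum_congr rfl fun lam hlam => ?_
  rw [idem_blk_eq_sum_branch d lam (mem_labels.mp hlam) j₀]
  refine Finset.sum_congr rfl fun i _ => ?_
  simp only [one_smul, brIdem]

open Classical in
/-- value of a tracial functional on the branch calculus -/
theorem tracial_brOp (d : ℕ) (j₀ : κ) (c : (Fin d → ℕ) → Fin d → ℂ)
    (φ : GA (Perm κ) →ₗ[ℂ] ℂ) (hφ : ∀ a b, φ (a * b) = φ (b * a)) :
    φ (brOp d j₀ c) = ∑ lam ∈ labels d (Fintype.card κ), φ (idem (blk d lam)) *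
      ∑ i, (if Removable lam i then c lam i *
        ((dimI (blk d (subBox lam i) : Irr (Perm {j // j ≠ j₀})) : ℂ)
          / dimI (blk d lam : Irr (Perm κ))) else 0) := by
  rw [brOp, map_sum]
  refine Finset.sum_congr rfl fun lam hlam => ?_
  rw [map_sum, Finset.mul_sum]
  refine Finset.sum_congr rfl fun i _ => ?_
  by_cases hi : Removable lam i
  · rw [if_pos hi, if_pos hi, map_smul, brIdem,
      tracial_branch_blk d lam (mem_labels.mp hlam) j₀ i hi φ hφ, smul_eq_mul]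
    ring
  · rw [if_neg hi, if_neg hi, map_zero, mul_zero]

section
variable {n : Type} [Fintype n] [DecidableEq n]

theorem br_norm_one_le : ‖(1 : Matrix n n ℂ)‖ ≤ 1 := by
  rcases subsingleton_or_nontrivial (Matrix n n ℂ) with h | h
  · rw [Subsingleton.elim (1 : Matrix n n ℂ) 0, norm_zero]
    exact zero_le_one
  · exact (CStarRing.norm_one).le

open scoped MatrixOrder ComplexOrder in
theorem br_norm_le_of_gram (T : Matrix n n ℂ) (M : ℝ) (hM : 0 ≤ M)
    (h : (((M ^ 2 : ℝ) : ℂ) • (1 : Matrix n n ℂ) - Tᴴ * T).PosSemidef) : ‖T‖ ≤ M := by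
  have h1 : ‖Tᴴ * T‖ ≤ ‖((M ^ 2 : ℝ) : ℂ) • (1 : Matrix n n ℂ)‖ := by
    apply CStarAlgebra.norm_le_norm_of_nonneg_of_le
    · rw [Matrix.nonneg_iff_posSemidef]
      exact Matrix.posSemidef_conjTranspose_mul_self T
    · rw [Matrix.le_iff]
      exact h
  have h2 : ‖((M ^ 2 : ℝ) : ℂ) • (1 : Matrix n n ℂ)‖ ≤ M ^ 2 := by
    calc ‖((M ^ 2 : ℝ) : ℂ) • (1 : Matrix n n ℂ)‖ ≤ ‖((M ^ 2 : ℝ) : ℂ)‖ * ‖(1 : Matrix n n ℂ)‖ :=
          norm_smul_le _ _
      _ ≤ M ^ 2 * 1 := by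
          rw [Complex.norm_real, Real.norm_of_nonneg (sq_nonneg M)]
          exact mul_le_mul_of_nonneg_left br_norm_one_le (sq_nonneg M)
      _ = M ^ 2 := mul_one _
  rw [l2_opNorm_conjTranspose_mul_self] at h1
  nlinarith [norm_nonneg T]

end


theorem brOp_congr (d : ℕ) (j₀ : κ) (c c' : (Fin d → ℕ) → Fin d → ℂ)
    (h : ∀ lam i, IsLab d (Fintype.card κ) lam → Removable lam i → c lam i = c' lam i) :
    brOp d j₀ c = brOp d j₀ c' := by
  rw [brOp_eq_sum, brOp_eq_sum]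
  refine Finset.sum_congr rfl fun p hp => ?_
  rw [h p.1 p.2 (mem_brSet.mp hp).1 (mem_brSet.mp hp).2]

/-- central functions of both levels act as scalars on a branch -/
theorem br_cfun_mul_brIdem (d : ℕ) (j₀ : κ) (φ : Irr (Perm κ) → ℂ)
    (ψ : Irr (Perm {j // j ≠ j₀}) → ℂ) (lam : Fin d → ℕ) (i : Fin d) :
    cfun φ * gsub j₀ (cfun ψ) * brIdem d j₀ lam i
      = (φ (blk d lam) * ψ (blk d (subBox lam i))) • brIdem d j₀ lam i := by
  have h1 : cfun φ * gsub j₀ (cfun ψ) * brIdem d j₀ lam i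
      = (cfun φ * idem (blk d lam)) * gsub j₀ (cfun ψ * idem (blk d (subBox lam i))) := by
    rw [brIdem, map_mul, mul_assoc, ← mul_assoc (gsub j₀ _) (idem _), ← gsub_comm_idem]
    simp only [mul_assoc]
  rw [h1, cfun_mul_idem, cfun_mul_idem, map_smul, smul_mul_smul_comm, brIdem]

/-- multiplication of a labelled block by `R`, `R⁻¹`, `J` -/
theorem Rel_mul_brIdem (d : ℕ) (hd : 1 ≤ d) (t : ℝ) (ht0 : 0 < t) (j₀ : κ) (lam : Fin d → ℕ)
    (hl : IsLab d (Fintype.card κ) lam) (i : Fin d) (hi : Removable lam i) :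
    Rel d t j₀ * brIdem d j₀ lam i
      = ((rhoMB d t (Fintype.card κ) (sh d lam i) : ℝ) : ℂ) • brIdem d j₀ lam i := by
  rw [Rel, Wpow, Wpow, br_cfun_mul_brIdem, wIrr_blk d t lam hl,
    wIrr_blk d t _ (fc_isLab d lam hl j₀ i hi), ← wLab_div_subBox d hd t ht0 _ lam hl i hi.1,
    Real.rpow_one, Real.rpow_neg_one, ← Complex.ofReal_mul, div_eq_mul_inv]

theorem RelInv_mul_brIdem (d : ℕ) (hd : 1 ≤ d) (t : ℝ) (ht0 : 0 < t) (j₀ : κ) (lam : Fin d → ℕ)
    (hl : IsLab d (Fintype.card κ) lam) (i : Fin d) (hi : Removable lam i) :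
    RelInv d t j₀ * brIdem d j₀ lam i
      = (((rhoMB d t (Fintype.card κ) (sh d lam i))⁻¹ : ℝ) : ℂ) • brIdem d j₀ lam i := by
  rw [RelInv, Wpow, Wpow, br_cfun_mul_brIdem, wIrr_blk d t lam hl,
    wIrr_blk d t _ (fc_isLab d lam hl j₀ i hi), ← wLab_div_subBox d hd t ht0 _ lam hl i hi.1,
    Real.rpow_one, Real.rpow_neg_one, ← Complex.ofReal_mul, inv_div, div_eq_mul_inv, mul_comm]

theorem br_sh_sub (d : ℕ) (lam : Fin d → ℕ) (i : Fin d) :
    (sh d lam i : ℝ) - d = (lam i : ℝ) - 1 - (i : ℕ) := by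
  have h : sh d lam i + 1 + (i : ℕ) = lam i + d := by
    have := i.2
    simp only [sh, stair]
    omega
  have h' : (sh d lam i : ℝ) + 1 + (i : ℕ) = (lam i : ℝ) + d := by exact_mod_cast h
  linarith

theorem Jel_mul_brIdem (d : ℕ) (j₀ : κ) (lam : Fin d → ℕ)
    (hl : IsLab d (Fintype.card κ) lam) (i : Fin d) (hi : Removable lam i) :
    Jel j₀ * brIdem d j₀ lam i
      = (((((sh d lam i : ℝ) - d) / Fintype.card κ : ℝ)) : ℂ) • brIdem d j₀ lam i := by
  rw [Jel, smul_mul_assoc, brIdem, jm_mul_branch d lam hl j₀ i hi, smul_smul, br_sh_sub]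
  congr 1
  push_cast
  ring

theorem br_succ_le (d k : ℕ) (lam : Fin d → ℕ) (hl : IsLab d k lam) (i : Fin d)
    (hi : 1 ≤ lam i) : (i : ℕ) + 1 ≤ k := by
  rw [← hl.2, ← Fin.card_Iic, Finset.card_eq_sum_ones]
  calc ∑ _j ∈ Finset.Iic i, 1 ≤ ∑ j ∈ Finset.Iic i, lam j :=
        Finset.sum_le_sum fun j hj => hi.trans (hl.1 (Finset.mem_Iic.mp hj))
    _ ≤ ∑ j, lam j := Finset.sum_le_sum_of_subset (Finset.subset_univ _)

theorem br_le_card (d k : ℕ) (lam : Fin d → ℕ) (hl : IsLab d k lam) (i : Fin d) : lam i ≤ k := by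
  rw [← hl.2]
  exact Finset.single_le_sum (fun _ _ => Nat.zero_le _) (Finset.mem_univ i)

/-- the star eigenvalues lie in `[-1, 1]` -/
theorem star_eigenvalue_mem (d k : ℕ) (lam : Fin d → ℕ) (hl : IsLab d k lam) (i : Fin d)
    (hi : Removable lam i) :
    ((sh d lam i : ℝ) - d) / k ∈ Set.Icc (-1 : ℝ) 1 := by
  have h1 : ((i : ℕ) : ℝ) + 1 ≤ k := by exact_mod_cast br_succ_le d k lam hl i hi.1
  have h2 : (lam i : ℝ) ≤ k := by exact_mod_cast br_le_card d k lam hl i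
  have h3 : (1 : ℝ) ≤ lam i := by exact_mod_cast hi.1
  have h4 : (0 : ℝ) ≤ ((i : ℕ) : ℝ) := Nat.cast_nonneg _
  have hk : (0 : ℝ) < k := by linarith
  rw [br_sh_sub]
  constructor
  · rw [le_div_iff₀ hk]
    linarith
  · rw [div_le_iff₀ hk]
    linarith

theorem sh_le (d k : ℕ) (lam : Fin d → ℕ) (hl : IsLab d k lam) (i : Fin d) :
    sh d lam i ≤ k + d := by
  have := br_le_card d k lam hl i
  simp only [sh, stair]
  omega

section OnTensor

variable {α : Type} [Fintype α] [DecidableEq α]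

theorem tRep_brOp_one (d : ℕ) (hα : Fintype.card α ≤ d) (j₀ : κ) :
    tRep α κ (brOp d j₀ (fun _ _ => 1)) = 1 := by
  rw [brOp_one, map_sum, sum_tRep_idem_blk d hα]

/-- an element acting as a scalar on every branch is a `brOp` on tensor space -/
theorem br_tRep_eq (d : ℕ) (hα : Fintype.card α ≤ d) (j₀ : κ) (x : GA (Perm κ))
    (c : (Fin d → ℕ) → Fin d → ℂ)
    (h : ∀ lam i, IsLab d (Fintype.card κ) lam → Removable lam i →
      x * brIdem d j₀ lam i = c lam i • brIdem d j₀ lam i) :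
    tRep α κ x = tRep α κ (brOp d j₀ c) := by
  have h1 : x * brOp d j₀ (fun _ _ => 1) = brOp d j₀ c := by
    rw [brOp_eq_sum, brOp_eq_sum, Finset.mul_sum]
    refine Finset.sum_congr rfl fun p hp => ?_
    rw [one_smul, h p.1 p.2 (mem_brSet.mp hp).1 (mem_brSet.mp hp).2]
  rw [← h1, map_mul, tRep_brOp_one d hα, mul_one]

theorem tRep_Rel (d : ℕ) (hd : 1 ≤ d) (hα : Fintype.card α ≤ d) (t : ℝ) (ht0 : 0 < t) (j₀ : κ) :
    tRep α κ (Rel d t j₀) = tRep α κ (brOp d j₀ fun lam i =>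
      ((rhoMB d t (Fintype.card κ) (sh d lam i) : ℝ) : ℂ)) :=
  br_tRep_eq d hα j₀ _ _ fun lam i hl hi => Rel_mul_brIdem d hd t ht0 j₀ lam hl i hi

theorem tRep_RelInv (d : ℕ) (hd : 1 ≤ d) (hα : Fintype.card α ≤ d) (t : ℝ) (ht0 : 0 < t)
    (j₀ : κ) :
    tRep α κ (RelInv d t j₀) = tRep α κ (brOp d j₀ fun lam i =>
      (((rhoMB d t (Fintype.card κ) (sh d lam i))⁻¹ : ℝ) : ℂ)) :=
  br_tRep_eq d hα j₀ _ _ fun lam i hl hi => RelInv_mul_brIdem d hd t ht0 j₀ lam hl i hi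

theorem tRep_Jel (d : ℕ) (hα : Fintype.card α ≤ d) (j₀ : κ) :
    tRep α κ (Jel j₀) = tRep α κ (brOp d j₀ fun lam i =>
      ((((sh d lam i : ℝ) - d) / Fintype.card κ : ℝ) : ℂ)) :=
  br_tRep_eq d hα j₀ _ _ fun lam i hl hi => Jel_mul_brIdem d j₀ lam hl i hi

/-- polynomials in the star operator -/
theorem aeval_tRep_Jel (d : ℕ) (hα : Fintype.card α ≤ d) (j₀ : κ) (p : Polynomial ℝ) :
    Polynomial.aeval (tRep α κ (Jel j₀)) p = tRep α κ (brOp d j₀ fun lam i =>
      ((p.eval (((sh d lam i : ℝ) - d) / Fintype.card κ) : ℝ) : ℂ)) := by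
  induction p using Polynomial.induction_on with
  | C a =>
    rw [Polynomial.aeval_C]
    simp only [Polynomial.eval_C]
    have h1 : brOp d j₀ (fun _ _ => ((a : ℝ) : ℂ)) = (a : ℂ) • brOp d j₀ (fun _ _ => 1) := by
      rw [brOp_smul]
      simp only [mul_one]
    rw [h1, map_smul, tRep_brOp_one d hα, Algebra.algebraMap_eq_smul_one]
    ext f g
    simp
  | add p q hp hq =>
    rw [map_add, hp, hq, ← map_add, brOp_add]
    simp only [Polynomial.eval_add, Complex.ofReal_add]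
  | monomial n a h =>
    rw [pow_succ, ← mul_assoc, map_mul, h, Polynomial.aeval_X, tRep_Jel d hα j₀, ← map_mul,
      brOp_mul]
    simp only [Polynomial.eval_mul, Polynomial.eval_X, Complex.ofReal_mul]

theorem tRep_gstar (a : GA (Perm κ)) : tRep α κ (gstar a) = (tRep α κ a)ᴴ :=
  (repAlg_gstar (tU α κ) (tU_conjTranspose) a).symm

open scoped ComplexOrder in
/-- operator norm of the branch calculus -/
theorem norm_tRep_brOp_le (d : ℕ) (j₀ : κ) (c : (Fin d → ℕ) → Fin d → ℂ) (M : ℝ) (hM : 0 ≤ M)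
    (h : ∀ lam i, IsLab d (Fintype.card κ) lam → Removable lam i → ‖c lam i‖ ≤ M) :
    ‖tRep α κ (brOp d j₀ c)‖ ≤ M := by
  apply br_norm_le_of_gram _ M hM
  set P := tRep α κ (brOp d j₀ (fun _ _ => 1)) with hP
  set S := tRep α κ (brOp d j₀ (fun lam i => ((Real.sqrt (M ^ 2 - ‖c lam i‖ ^ 2) : ℝ) : ℂ)))
    with hS
  have hPP : P * P = P := by
    rw [hP, ← map_mul, brOp_mul]
    simp only [mul_one]
  have hPH : Pᴴ = P := by
    rw [hP, ← tRep_gstar, gstar_brOp]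
    simp only [map_one]
  have h1 : ((M ^ 2 : ℝ) : ℂ) • P - (tRep α κ (brOp d j₀ c))ᴴ * tRep α κ (brOp d j₀ c)
      = Sᴴ * S := by
    rw [hP, hS, ← tRep_gstar, ← tRep_gstar, ← map_mul, ← map_mul, ← map_smul, ← map_sub,
      gstar_brOp, gstar_brOp, brOp_mul, brOp_mul, brOp_smul, brOp_sub]
    congr 1
    apply brOp_congr
    intro lam i hl hi
    have h2 : 0 ≤ M ^ 2 - ‖c lam i‖ ^ 2 := by
      have := h lam i hl hi
      nlinarith [norm_nonneg (c lam i)]
    rw [Complex.conj_ofReal, ← Complex.ofReal_mul, Real.mul_self_sqrt h2, mul_one,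
      Complex.conj_mul', Complex.ofReal_sub, Complex.ofReal_pow, Complex.ofReal_pow]
  have h3 : ((M ^ 2 : ℝ) : ℂ) • (1 : Matrix (κ → α) (κ → α) ℂ)
        - (tRep α κ (brOp d j₀ c))ᴴ * tRep α κ (brOp d j₀ c)
      = Sᴴ * S + ((M : ℂ) • (1 - P))ᴴ * ((M : ℂ) • (1 - P)) := by
    rw [← h1, conjTranspose_smul, conjTranspose_sub, conjTranspose_one, hPH, smul_mul_smul_comm,
      mul_sub, sub_mul, sub_mul, one_mul, one_mul, mul_one, hPP, sub_self, sub_zero,
      Complex.star_def, Complex.conj_ofReal, smul_sub]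
    push_cast
    rw [sq]
    abel
  rw [h3]
  exact (Matrix.posSemidef_conjTranspose_mul_self S).add
    (Matrix.posSemidef_conjTranspose_mul_self _)

end OnTensor

end Claimed.Agent.R296.Rep
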