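import Claimed.Agent.R296.Rep.Tensor

/-!
# BB_Rep L2-H: Haar probability measure on the unitary group `U(d)`

Mathlib provides `MeasureTheory.Measure.haarMeasure` for topological groups; what is missing is the
compactness of `Matrix.unitaryGroup (Fin d) ℂ` (closed and bounded in a finite-dimensional space:
`entry_norm_bound_of_unitary`, `isClosed` of the equations `star u * u = 1`).
Only LEFT invariance is used.
-/

set_option autoImplicit false

namespace Claimed.Agent.R296.Rep

open Matrix MeasureTheory

/-- the unitary group -/
abbrev UG (d : ℕ) : Type := Matrix.unitaryGroup (Fin d) ℂ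

noncomputable instance instMeasurableSpaceUG (d : ℕ) : MeasurableSpace (UG d) := borel _

instance instBorelSpaceUG (d : ℕ) : BorelSpace (UG d) := ⟨rfl⟩

instance instCompactSpaceUG (d : ℕ) : CompactSpace (UG d) := by
  refine isCompact_iff_compactSpace.1
    (?_ : IsCompact ((Matrix.unitaryGroup (Fin d) ℂ : Submonoid _) : Set (Matrix (Fin d) (Fin d) ℂ)))
  have hK : IsCompact (Set.pi Set.univ fun _ : Fin d => Set.pi Set.univ fun _ : Fin d =>
      Metric.closedBall (0 : ℂ) 1) :=
    isCompact_univ_pi fun _ => isCompact_univ_pi fun _ => isCompact_closedBall _ _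
  refine hK.of_isClosed_subset (isClosed_unitary (R := Matrix (Fin d) (Fin d) ℂ)) ?_
  intro u hu i _ j _
  rw [mem_closedBall_zero_iff]
  exact entry_norm_bound_of_unitary hu i j

/-- the Haar probability measure on `U(d)` -/
noncomputable def haarU (d : ℕ) : Measure (UG d) := Measure.haarMeasure ⊤

instance instIsProbabilityMeasureHaarU (d : ℕ) : IsProbabilityMeasure (haarU d) := by
  constructor
  have h := Measure.haarMeasure_self (K₀ := (⊤ : TopologicalSpace.PositiveCompacts (UG d)))
  simpa [haarU] using h

theorem haarU_integral_mul_left (d : ℕ) (F : UG d → ℂ) (h : UG d) :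
    ∫ g, F (h * g) ∂haarU d = ∫ g, F g ∂haarU d := by
  have : (haarU d).IsMulLeftInvariant :=
    inferInstanceAs (Measure.haarMeasure (⊤ : TopologicalSpace.PositiveCompacts (UG d))).IsMulLeftInvariant
  exact integral_mul_left_eq_self F h

theorem haarU_integrable_of_continuous (d : ℕ) (F : UG d → ℂ) (hF : Continuous F) :
    Integrable F (haarU d) := by
  exact hF.integrable_of_hasCompactSupport (HasCompactSupport.of_compactSpace F)

theorem continuous_UG_entry (d : ℕ) (i j : Fin d) :
    Continuous fun u : UG d => (u : Matrix (Fin d) (Fin d) ℂ) i j := by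
  exact (continuous_apply j).comp ((continuous_apply i).comp continuous_subtype_val)

/-- entries of `u^{⊗κ} X (u^{⊗κ})ᴴ` are continuous in `u` -/
theorem continuous_conj_tpow_entry (d : ℕ) (κ : Type) [Fintype κ] [DecidableEq κ]
    (X : Matrix (κ → Fin d) (κ → Fin d) ℂ) (f g : κ → Fin d) :
    Continuous fun u : UG d =>
      (tpow κ (u : Matrix (Fin d) (Fin d) ℂ) * X * (tpow κ (u : Matrix (Fin d) (Fin d) ℂ))ᴴ) f g := by
  have h1 : ∀ f g : κ → Fin d,
      Continuous fun u : UG d => tpow κ (u : Matrix (Fin d) (Fin d) ℂ) f g := by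
    intro f g
    simp only [tpow, Matrix.of_apply]
    exact continuous_finsetProd _ fun j _ => continuous_UG_entry d (f j) (g j)
  simp only [Matrix.mul_apply, Matrix.conjTranspose_apply]
  refine continuous_finsetSum _ fun a _ => ?_
  refine Continuous.mul ?_ (continuous_star.comp (h1 g a))
  exact continuous_finsetSum _ fun b _ => (h1 f b).mul continuous_const

end Claimed.Agent.R296.Rep
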