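import Claimed.Agent.R296.Rep.TensorA
import Claimed.Agent.R296.Rep.Haar

/-!
# BB_Rep L2-C: what commutes with all `u^{⊗κ}`, `u` unitary, commutes with the commutant of `Perm κ`

Steps.
 (c1) `comm_tpow_diagonal`: if `X` commutes with `D(x)^{⊗κ}` for all unimodular `x`, then `X f g ≠ 0`
      forces equal weights of `f`, `g` (test `x = (1,..,ζ,..,1)`, `ζ = exp(i)` is not a root of unity),
      hence `X` commutes with `D(x)^{⊗κ}` for ALL complex `x`.
 (c2) `exists_polar`: an invertible `A` is `u₁ * diagonal a * u₂` with `u₁ u₂` unitary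
      (spectral theorem for `Aᴴ A = v D² vᴴ`; `u := A v D⁻¹ vᴴ` is unitary).
 (c3) `comm_tpow_all`: `A + ε` is invertible for all but finitely many `ε`, and the entries of
      `X * tpow (A + ε) - tpow (A + ε) * X` are polynomials (or just continuous functions) in `ε`.
 (c4) `ryser` / `mem_span_tpow`: polarisation.  For `a : κ → Matrix α α ℂ`,
      `∑_π ⊗_j a_{π j} = ∑_{S ⊆ κ} (-1)^{k-|S|} (∑_{i∈S} a_i)^{⊗κ}`; a matrix commuting with all
      `tU π` equals its symmetrisation, and each `E_{f g}` is `⊗_j E_{f j, g j}`.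
-/

set_option autoImplicit false
set_option linter.unusedSectionVars false

namespace Claimed.Agent.R296.Rep

open Matrix Equiv
open scoped ComplexOrder

variable {κ : Type} [Fintype κ] [DecidableEq κ]

/-- the weight of a configuration as a product of powers -/
theorem cm_weight (d : ℕ) (x : Fin d → ℂ) (f : κ → Fin d) :
    ∏ j, x (f j) = ∏ i, x i ^ (Finset.univ.filter fun j => f j = i).card := by
  rw [← Finset.prod_fiberwise Finset.univ f fun j => x (f j)]
  refine Finset.prod_congr rfl fun i _ => ?_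
  rw [← Finset.prod_const]
  refine Finset.prod_congr rfl fun j hj => ?_
  rw [(Finset.mem_filter.1 hj).2]

theorem comm_tpow_diagonal (d : ℕ) (X : Matrix (κ → Fin d) (κ → Fin d) ℂ)
    (h : ∀ x : Fin d → ℂ, (∀ i, ‖x i‖ = 1) →
      X * tpow κ (diagonal x) = tpow κ (diagonal x) * X) (x : Fin d → ℂ) :
    X * tpow κ (diagonal x) = tpow κ (diagonal x) * X := by
  ext f g
  rw [tpow_diagonal, Matrix.mul_diagonal, Matrix.diagonal_mul]
  by_cases hX : X f g = 0
  · simp [hX]
  have hcount : ∀ i, (Finset.univ.filter fun j => f j = i).card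
      = (Finset.univ.filter fun j => g j = i).card := by
    intro i
    set N := Fintype.card κ + 1 with hN
    set ζ : ℂ := Complex.exp (2 * Real.pi * Complex.I / N) with hζ
    have hprim : IsPrimitiveRoot ζ N := Complex.isPrimitiveRoot_exp N (by omega)
    have hnorm : ‖ζ‖ = 1 := hprim.norm'_eq_one (by omega)
    have h1 := h (Function.update (fun _ => 1) i ζ) (by
      intro i'
      by_cases hi : i' = i
      · subst hi; simpa using hnorm
      · simp [Function.update_of_ne hi])
    have h2 := congrFun (congrFun h1 f) g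
    rw [tpow_diagonal, Matrix.mul_diagonal, Matrix.diagonal_mul, cm_weight, cm_weight] at h2
    have h3 : ∀ e : κ → Fin d, ∏ i', (Function.update (fun _ => (1 : ℂ)) i ζ) i' ^
        (Finset.univ.filter fun j => e j = i').card
        = ζ ^ (Finset.univ.filter fun j => e j = i).card := by
      intro e
      rw [Finset.prod_eq_single i]
      · simp
      · intro b _ hb; simp [Function.update_of_ne hb]
      · intro hb; exact absurd (Finset.mem_univ _) hb
    rw [h3, h3, mul_comm] at h2
    have h4 := mul_right_cancel₀ hX h2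
    have hlt : ∀ e : κ → Fin d, (Finset.univ.filter fun j => e j = i).card < N := by
      intro e
      have := Finset.card_le_univ (Finset.univ.filter fun j => e j = i)
      omega
    exact (hprim.pow_inj (hlt g) (hlt f) h4).symm
  have : ∏ j, x (g j) = ∏ j, x (f j) := by
    rw [cm_weight, cm_weight]
    exact Finset.prod_congr rfl fun i _ => by rw [hcount i]
  rw [this, mul_comm]

theorem exists_polar (d : ℕ) (A : Matrix (Fin d) (Fin d) ℂ) (hA : IsUnit A) :
    ∃ (u₁ u₂ : UG d) (a : Fin d → ℂ),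
      A = (u₁ : Matrix (Fin d) (Fin d) ℂ) * diagonal a * (u₂ : Matrix (Fin d) (Fin d) ℂ) := by
  have hP : (Aᴴ * A).PosSemidef := posSemidef_conjTranspose_mul_self A
  have hH : (Aᴴ * A).IsHermitian := hP.1
  set v : Matrix (Fin d) (Fin d) ℂ := (hH.eigenvectorUnitary : Matrix (Fin d) (Fin d) ℂ) with hv
  have hvv : vᴴ * v = 1 := mem_unitaryGroup_iff'.1 hH.eigenvectorUnitary.2
  have hvv' : v * vᴴ = 1 := mem_unitaryGroup_iff.1 hH.eigenvectorUnitary.2
  set lam := hH.eigenvalues with hlam
  have hspec : Aᴴ * A = v * diagonal (fun i => ((lam i : ℝ) : ℂ)) * vᴴ := by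
    conv_lhs => rw [hH.spectral_theorem]
    rfl
  have hpos : ∀ i, 0 < lam i := by
    intro i
    have h0 : 0 ≤ lam i := hP.eigenvalues_nonneg i
    refine lt_of_le_of_ne h0 fun h1 => ?_
    have hdet : (Aᴴ * A).det ≠ 0 := by
      rw [det_mul, det_conjTranspose]
      have := (Matrix.isUnit_iff_isUnit_det A).1 hA
      exact mul_ne_zero (star_ne_zero.2 this.ne_zero) this.ne_zero
    rw [hH.det_eq_prod_eigenvalues] at hdet
    apply hdet
    refine Finset.prod_eq_zero (Finset.mem_univ i) ?_
    rw [← hlam, ← h1]; simp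
  set sq : Fin d → ℂ := fun i => ((Real.sqrt (lam i) : ℝ) : ℂ) with hsq
  have hsq0 : ∀ i, sq i ≠ 0 := fun i => by
    have := (Real.sqrt_pos.2 (hpos i)).ne'
    show ((Real.sqrt (lam i) : ℝ) : ℂ) ≠ 0
    exact_mod_cast this
  set u : Matrix (Fin d) (Fin d) ℂ := A * v * diagonal (fun i => (sq i)⁻¹) with hu
  have huu : star u * u = 1 := by
    rw [star_eq_conjTranspose, hu, conjTranspose_mul, conjTranspose_mul, diagonal_conjTranspose]
    calc diagonal (star fun i => (sq i)⁻¹) * (vᴴ * Aᴴ) * (A * v * diagonal fun i => (sq i)⁻¹)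
        = diagonal (star fun i => (sq i)⁻¹) * (vᴴ * (Aᴴ * A) * v) * diagonal fun i => (sq i)⁻¹ := by
          simp only [Matrix.mul_assoc]
      _ = diagonal (star fun i => (sq i)⁻¹) * ((vᴴ * v) * diagonal (fun i => ((lam i : ℝ) : ℂ))
            * (vᴴ * v)) * diagonal fun i => (sq i)⁻¹ := by
          rw [hspec]; simp only [Matrix.mul_assoc]
      _ = 1 := by
          rw [hvv, Matrix.one_mul, Matrix.mul_one, diagonal_mul_diagonal, diagonal_mul_diagonal,
            ← diagonal_one]
          congr 1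
          funext i
          have h1 : ((lam i : ℝ) : ℂ) = sq i * sq i := by
            rw [hsq]
            simp only
            rw [← Complex.ofReal_mul, Real.mul_self_sqrt (hpos i).le]
          have h2 : star (sq i)⁻¹ = (sq i)⁻¹ := by
            rw [hsq]; simp
          simp only [Pi.star_apply, h2, h1]
          field_simp [hsq0 i]
  refine ⟨⟨u, mem_unitaryGroup_iff'.2 huu⟩, star hH.eigenvectorUnitary, sq, ?_⟩
  show A = u * diagonal sq * vᴴ
  rw [hu]
  calc A = A * (v * vᴴ) := by rw [hvv', Matrix.mul_one]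
    _ = A * v * (diagonal (fun i => (sq i)⁻¹) * diagonal sq) * vᴴ := by
        rw [diagonal_mul_diagonal]
        have : (fun i => (sq i)⁻¹ * sq i) = fun _ => (1 : ℂ) := by
          funext i; exact inv_mul_cancel₀ (hsq0 i)
        rw [this, diagonal_one, Matrix.mul_one, Matrix.mul_assoc]
    _ = _ := by simp only [Matrix.mul_assoc]

theorem cm_comm_tpow_unit (d : ℕ) (X : Matrix (κ → Fin d) (κ → Fin d) ℂ)
    (h : ∀ u : UG d, X * tpow κ (u : Matrix (Fin d) (Fin d) ℂ)
      = tpow κ (u : Matrix (Fin d) (Fin d) ℂ) * X) (A : Matrix (Fin d) (Fin d) ℂ)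
    (hA : IsUnit A) : X * tpow κ A = tpow κ A * X := by
  obtain ⟨u₁, u₂, a, rfl⟩ := exists_polar d A hA
  have hdiag : X * tpow κ (diagonal a) = tpow κ (diagonal a) * X := by
    refine comm_tpow_diagonal d X (fun x hx => ?_) a
    have hxu : diagonal x ∈ unitaryGroup (Fin d) ℂ := by
      rw [mem_unitaryGroup_iff, star_eq_conjTranspose, diagonal_conjTranspose,
        diagonal_mul_diagonal, ← diagonal_one]
      congr 1
      funext i
      simp only [Pi.star_apply, RCLike.star_def, Complex.mul_conj, Complex.normSq_eq_norm_sq, hx i]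
      simp
    exact h ⟨diagonal x, hxu⟩
  rw [tpow_mul, tpow_mul]
  calc X * (tpow κ (u₁ : Matrix (Fin d) (Fin d) ℂ) * tpow κ (diagonal a) * tpow κ (u₂ : Matrix (Fin d) (Fin d) ℂ))
      = (X * tpow κ (u₁ : Matrix (Fin d) (Fin d) ℂ)) * tpow κ (diagonal a) * tpow κ (u₂ : Matrix (Fin d) (Fin d) ℂ) := by
        simp only [Matrix.mul_assoc]
    _ = tpow κ (u₁ : Matrix (Fin d) (Fin d) ℂ) * (X * tpow κ (diagonal a)) * tpow κ (u₂ : Matrix (Fin d) (Fin d) ℂ) := by
        rw [h u₁]; simp only [Matrix.mul_assoc]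
    _ = tpow κ (u₁ : Matrix (Fin d) (Fin d) ℂ) * tpow κ (diagonal a) * (X * tpow κ (u₂ : Matrix (Fin d) (Fin d) ℂ)) := by
        rw [hdiag]; simp only [Matrix.mul_assoc]
    _ = _ := by rw [h u₂]; simp only [Matrix.mul_assoc]

theorem cm_continuous_tpow (d : ℕ) (A : Matrix (Fin d) (Fin d) ℂ) :
    Continuous fun ε : ℂ => tpow κ (A + ε • (1 : Matrix (Fin d) (Fin d) ℂ)) := by
  refine continuous_matrix fun f g => ?_
  simp only [tpow, Matrix.of_apply, Matrix.add_apply, Matrix.smul_apply, smul_eq_mul]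
  fun_prop

theorem comm_tpow_all (d : ℕ) (X : Matrix (κ → Fin d) (κ → Fin d) ℂ)
    (h : ∀ u : UG d, X * tpow κ (u : Matrix (Fin d) (Fin d) ℂ)
      = tpow κ (u : Matrix (Fin d) (Fin d) ℂ) * X) (A : Matrix (Fin d) (Fin d) ℂ) :
    X * tpow κ A = tpow κ A * X := by
  have hfin : (spectrum ℂ (-A)).Finite := Matrix.finite_spectrum (-A)
  have hdense : Dense (spectrum ℂ (-A))ᶜ := hfin.countable.dense_compl ℂ
  have hc := cm_continuous_tpow (κ := κ) d A
  have heq : (fun ε : ℂ => X * tpow κ (A + ε • (1 : Matrix (Fin d) (Fin d) ℂ)))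
      = fun ε : ℂ => tpow κ (A + ε • (1 : Matrix (Fin d) (Fin d) ℂ)) * X := by
    refine Continuous.ext_on hdense (continuous_const.matrix_mul hc)
      (hc.matrix_mul continuous_const) fun ε hε => ?_
    refine cm_comm_tpow_unit d X h _ ?_
    have h1 : IsUnit (algebraMap ℂ (Matrix (Fin d) (Fin d) ℂ) ε - -A) := by
      by_contra hcon
      exact hε hcon
    have h2 : algebraMap ℂ (Matrix (Fin d) (Fin d) ℂ) ε - -A = A + ε • 1 := by
      rw [Algebra.algebraMap_eq_smul_one]; abel
    rwa [h2] at h1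
  have := congrFun heq 0
  simpa using this

theorem cm_incl_excl (T : Finset κ) :
    ∑ S : Finset κ, (if T ⊆ S then (-1 : ℤ) ^ (Fintype.card κ - S.card) else 0)
      = if T = Finset.univ then 1 else 0 := by
  have h1 : ∑ S : Finset κ, (if T ⊆ S then (-1 : ℤ) ^ (Fintype.card κ - S.card) else 0)
      = ∑ S : Finset κ, (if T ⊆ Sᶜ then (-1 : ℤ) ^ (Fintype.card κ - Sᶜ.card) else 0) :=
    (Equiv.sum_comp ((compl_involutive (α := Finset κ)).toPerm _)
      (fun S => if T ⊆ S then (-1 : ℤ) ^ (Fintype.card κ - S.card) else 0)).symm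
  rw [h1]
  have h2 : ∀ S : Finset κ, (if T ⊆ Sᶜ then (-1 : ℤ) ^ (Fintype.card κ - Sᶜ.card) else 0)
      = if S ∈ Tᶜ.powerset then (-1 : ℤ) ^ S.card else 0 := by
    intro S
    have e1 : T ⊆ Sᶜ ↔ S ∈ Tᶜ.powerset := by
      rw [Finset.mem_powerset, Finset.subset_compl_comm]
    have e2 : Fintype.card κ - Sᶜ.card = S.card := by
      rw [Finset.card_compl]
      have := Finset.card_le_univ S
      omega
    simp only [e1, e2]
  simp only [h2]
  rw [Finset.sum_ite_mem, Finset.univ_inter, Finset.sum_powerset_neg_one_pow_card]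
  simp [Finset.compl_eq_empty_iff]

/-- Ryser's formula (polarisation identity) -/
theorem ryser {R : Type} [CommRing R] (M : κ → κ → R) :
    ∑ π : Perm κ, ∏ j, M (π j) j
      = ∑ S : Finset κ, (-1) ^ (Fintype.card κ - S.card) * ∏ j, ∑ i ∈ S, M i j := by
  classical
  have h1 : ∀ S : Finset κ, ∏ j, ∑ i ∈ S, M i j
      = ∑ φ : κ → κ, if Finset.univ.image φ ⊆ S then ∏ j, M (φ j) j else 0 := by
    intro S
    rw [Finset.prod_univ_sum, ← Finset.sum_filter]
    refine Finset.sum_congr ?_ fun _ _ => rfl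
    ext φ
    simp [Fintype.mem_piFinset, Finset.image_subset_iff]
  simp only [h1, Finset.mul_sum]
  rw [Finset.sum_comm]
  have h2 : ∀ φ : κ → κ, ∑ S : Finset κ, (-1 : R) ^ (Fintype.card κ - S.card) *
      (if Finset.univ.image φ ⊆ S then ∏ j, M (φ j) j else 0)
      = if Function.Surjective φ then ∏ j, M (φ j) j else 0 := by
    intro φ
    have h3 := congrArg (Int.cast : ℤ → R) (cm_incl_excl (Finset.univ.image φ))
    push_cast at h3
    have h4 : ∑ S : Finset κ, (-1 : R) ^ (Fintype.card κ - S.card) *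
        (if Finset.univ.image φ ⊆ S then ∏ j, M (φ j) j else 0)
        = (∑ S : Finset κ, (if Finset.univ.image φ ⊆ S then
            (-1 : R) ^ (Fintype.card κ - S.card) else 0)) * ∏ j, M (φ j) j := by
      rw [Finset.sum_mul]
      refine Finset.sum_congr rfl fun S _ => ?_
      split_ifs <;> simp
    rw [h4]
    have h5 : (∑ S : Finset κ, (if Finset.univ.image φ ⊆ S then
            (-1 : R) ^ (Fintype.card κ - S.card) else 0))
        = if Finset.univ.image φ = Finset.univ then 1 else 0 := by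
      rw [← h3]
    have h6 : Finset.univ.image φ = Finset.univ ↔ Function.Surjective φ := by
      constructor
      · intro h y
        have : y ∈ Finset.univ.image φ := by rw [h]; exact Finset.mem_univ y
        obtain ⟨x, _, hx⟩ := Finset.mem_image.1 this
        exact ⟨x, hx⟩
      · exact Finset.image_univ_of_surjective
    rw [h5]
    simp only [h6]
    split_ifs <;> simp
  simp only [h2]
  rw [← Finset.sum_filter]
  refine Finset.sum_bij (fun π _ => (π : κ → κ)) ?_ ?_ ?_ ?_
  · intro π _
    simp [π.surjective]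
  · intro π _ σ _ h
    exact DFunLike.coe_injective h
  · intro φ hφ
    simp only [Finset.mem_filter, Finset.mem_univ, true_and] at hφ
    exact ⟨Equiv.ofBijective φ ⟨Finite.injective_iff_surjective.2 hφ, hφ⟩, Finset.mem_univ _, rfl⟩
  · intro π _
    rfl

/-- entries of a matrix commuting with the permutations of the factors -/
theorem cm_entry_inv {α : Type} [Fintype α] [DecidableEq α] (Y : Matrix (κ → α) (κ → α) ℂ)
    (hY : ∀ π, Y * tU α κ π = tU α κ π * Y) (π : Perm κ) (f g : κ → α) :
    Y (f ∘ π) (g ∘ π) = Y f g := by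
  have h := congrFun (congrFun (hY π) f) (g ∘ π)
  simp only [Matrix.mul_apply, tU_apply] at h
  rw [Finset.sum_eq_single g, Finset.sum_eq_single (f ∘ π)] at h
  · simpa using h.symm
  · intro b _ hb; simp [Ne.symm hb]
  · intro hb; exact absurd (Finset.mem_univ _) hb
  · intro b _ hb
    have : b ∘ π ≠ g ∘ π := fun h' => hb (by
      funext j
      have := congrFun h' (π.symm j)
      simpa using this)
    simp [this]
  · intro hb; exact absurd (Finset.mem_univ _) hb

/-- the symmetrised matrix unit is a combination of tensor powers -/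
theorem cm_sym_single {α : Type} [Fintype α] [DecidableEq α] (f g : κ → α) :
    ∑ π : Perm κ, Matrix.single (f ∘ π) (g ∘ π) (1 : ℂ)
      = ∑ S : Finset κ, ((-1 : ℂ) ^ (Fintype.card κ - S.card)) •
          tpow κ (∑ i ∈ S, Matrix.single (f i) (g i) (1 : ℂ)) := by
  ext f' g'
  have h := ryser (R := ℂ) (fun i j => Matrix.single (f i) (g i) (1 : ℂ) (f' j) (g' j))
  simp only [Matrix.sum_apply, Matrix.smul_apply, tpow, Matrix.of_apply, smul_eq_mul]
  rw [← h]
  refine Finset.sum_congr rfl fun π _ => ?_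
  simp only [Matrix.single_apply]
  rw [Finset.prod_boole]
  congr 1
  simp only [Finset.mem_univ, true_implies, eq_iff_iff]
  constructor
  · rintro ⟨h1, h2⟩ j
    exact ⟨congrFun h1 j, congrFun h2 j⟩
  · intro h'
    exact ⟨funext fun j => (h' j).1, funext fun j => (h' j).2⟩

theorem mem_span_tpow {α : Type} [Fintype α] [DecidableEq α] (Y : Matrix (κ → α) (κ → α) ℂ)
    (hY : ∀ π, Y * tU α κ π = tU α κ π * Y) :
    Y ∈ Submodule.span ℂ (Set.range fun A : Matrix α α ℂ => tpow κ A) := by
  have key : (Fintype.card (Perm κ) : ℂ) • Y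
      = ∑ f, ∑ g, Y f g • ∑ π : Perm κ, Matrix.single (f ∘ π) (g ∘ π) (1 : ℂ) := by
    ext f' g'
    simp only [Matrix.smul_apply, Matrix.sum_apply, smul_eq_mul, Finset.mul_sum]
    have h1 : ∀ π : Perm κ, ∑ f, ∑ g, Y f g * Matrix.single (f ∘ π) (g ∘ π) (1 : ℂ) f' g'
        = Y f' g' := by
      intro π
      rw [Finset.sum_eq_single (f' ∘ π.symm), Finset.sum_eq_single (g' ∘ π.symm)]
      · have e1 : (f' ∘ π.symm) ∘ π = f' := by funext j; simp
        have e2 : (g' ∘ π.symm) ∘ π = g' := by funext j; simp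
        rw [e1, e2, Matrix.single_apply_same, mul_one]
        have := cm_entry_inv Y hY π (f' ∘ π.symm) (g' ∘ π.symm)
        rw [e1, e2] at this
        exact this.symm
      · intro g _ hg
        have : g ∘ π ≠ g' := fun h' => hg (by rw [← h']; funext j; simp)
        rw [Matrix.single_apply, if_neg (fun h' => this h'.2), mul_zero]
      · intro hb; exact absurd (Finset.mem_univ _) hb
      · intro f _ hf
        have : f ∘ π ≠ f' := fun h' => hf (by rw [← h']; funext j; simp)
        refine Finset.sum_eq_zero fun g _ => ?_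
        rw [Matrix.single_apply, if_neg (fun h' => this h'.1), mul_zero]
      · intro hb; exact absurd (Finset.mem_univ _) hb
    calc (Fintype.card (Perm κ) : ℂ) * Y f' g' = ∑ _π : Perm κ, Y f' g' := by simp
      _ = ∑ π : Perm κ, ∑ f, ∑ g, Y f g * Matrix.single (f ∘ π) (g ∘ π) (1 : ℂ) f' g' :=
          Finset.sum_congr rfl fun π _ => (h1 π).symm
      _ = _ := by
          rw [Finset.sum_comm]
          refine Finset.sum_congr rfl fun f _ => ?_
          rw [Finset.sum_comm]
  have hcard : (Fintype.card (Perm κ) : ℂ) ≠ 0 := by exact_mod_cast Fintype.card_ne_zero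
  have hY' : Y = (Fintype.card (Perm κ) : ℂ)⁻¹ • ((Fintype.card (Perm κ) : ℂ) • Y) := by
    rw [smul_smul, inv_mul_cancel₀ hcard, one_smul]
  rw [hY', key]
  refine Submodule.smul_mem _ _ (Submodule.sum_mem _ fun f _ => Submodule.sum_mem _ fun g _ =>
    Submodule.smul_mem _ _ ?_)
  rw [cm_sym_single]
  exact Submodule.sum_mem _ fun S _ => Submodule.smul_mem _ _ (Submodule.subset_span ⟨_, rfl⟩)

/-- **Schur-Weyl, commutant side** -/
theorem commute_of_unitary (d : ℕ) (X : Matrix (κ → Fin d) (κ → Fin d) ℂ)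
    (h : ∀ u : UG d, X * tpow κ (u : Matrix (Fin d) (Fin d) ℂ)
      = tpow κ (u : Matrix (Fin d) (Fin d) ℂ) * X)
    (Y : Matrix (κ → Fin d) (κ → Fin d) ℂ) (hY : ∀ π, Y * tU (Fin d) κ π = tU (Fin d) κ π * Y) :
    X * Y = Y * X := by
  have hmem := mem_span_tpow Y hY
  clear hY
  induction hmem using Submodule.span_induction with
  | mem y hy =>
    obtain ⟨A, rfl⟩ := hy
    exact comm_tpow_all d X h A
  | zero => simp
  | add y z _ _ hy hz => rw [Matrix.mul_add, Matrix.add_mul, hy, hz]
  | smul c y _ hy => rw [Matrix.mul_smul, Matrix.smul_mul, hy]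

end Claimed.Agent.R296.Rep
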