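import Claimed.Agent.R296.Rep.MetricDefs

/-!
# BB_Rep L3-D: Dirichlet moments by the Gamma trick

The simplex integral of the paper is replaced by an integral over the positive orthant with the
weight `e^{-|x|}`, `|x| = ∑ x_i`, and the normalisation `s = x/|x|`.  Needed identity:

  `∫_{x>0} ∏ x_i^{v_i} |x|^{-β} e^{-|x|} dx = ∏ Γ(1+v_i) · Γ(d+|v|-β)/Γ(d+|v|)`.

Proof for `β > 0` (Tonelli only; all integrands are nonnegative):
 `Γ(β) |x|^{-β} = ∫_0^∞ τ^{β-1} e^{-τ|x|} dτ`  (`Real.integral_rpow_mul_exp_neg_mul_Ioi`),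
 `∫_{x>0} ∏ x_i^{v_i} e^{-(1+τ)|x|} dx = ∏ Γ(1+v_i) (1+τ)^{-(d+|v|)}`  (product of 1-d integrals,
   `MeasureTheory.integral_fintype_prod_eq_prod`),
 `∫_0^∞ τ^{β-1} (1+τ)^{-c} dτ = Γ(β)Γ(c-β)/Γ(c)`  (`beta_Ioi`; again the Gamma trick:
   `Γ(c)(1+τ)^{-c} = ∫ y^{c-1} e^{-(1+τ)y} dy`, swap, `∫ τ^{β-1} e^{-τy} dτ = Γ(β) y^{-β}`).

Statements by helper116 (architect), proofs by helper299 (helper lemmas have the prefix `dir_`).
-/

set_option autoImplicit false

namespace Claimed.Agent.R296.Rep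

open Real MeasureTheory

/-- the open positive orthant -/
def orth (d : ℕ) : Set (Fin d → ℝ) := {x | ∀ i, 0 < x i}

theorem dir_orth_eq_pi (d : ℕ) : orth d = Set.pi Set.univ (fun _ => Set.Ioi (0 : ℝ)) := by
  ext x
  simp [orth]

theorem measurableSet_orth (d : ℕ) : MeasurableSet (orth d) := by
  rw [dir_orth_eq_pi]
  exact MeasurableSet.univ_pi fun _ => measurableSet_Ioi

/-! ### From `lintegral` to `integral` -/

theorem dir_of_lintegral {α : Type*} [MeasurableSpace α] {μ : Measure α} {f : α → ℝ} {V : ℝ}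
    (hm : AEStronglyMeasurable f μ) (h0 : 0 ≤ᵐ[μ] f) (hV : 0 ≤ V)
    (h : ∫⁻ x, ENNReal.ofReal (f x) ∂μ = ENNReal.ofReal V) :
    Integrable f μ ∧ ∫ x, f x ∂μ = V := by
  refine ⟨⟨hm, ?_⟩, ?_⟩
  · rw [hasFiniteIntegral_iff_ofReal h0, h]
    exact ENNReal.ofReal_lt_top
  · rw [integral_eq_lintegral_of_nonneg_ae h0 hm, h, ENNReal.toReal_ofReal hV]

/-! ### The one-dimensional Gamma integral -/

theorem dir_gamma_integrable {a r : ℝ} (ha : 0 < a) (hr : 0 < r) :
    IntegrableOn (fun t : ℝ => t ^ (a - 1) * exp (-(r * t))) (Set.Ioi 0) := by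
  by_contra h
  have h1 := integral_rpow_mul_exp_neg_mul_Ioi ha hr
  rw [integral_undef h] at h1
  have h2 : 0 < (1 / r) ^ a * Gamma a := mul_pos (rpow_pos_of_pos (by positivity) _)
    (Gamma_pos_of_pos ha)
  linarith

theorem dir_gamma_lintegral {a r : ℝ} (ha : 0 < a) (hr : 0 < r) :
    ∫⁻ t in Set.Ioi (0 : ℝ), ENNReal.ofReal (t ^ (a - 1) * exp (-(r * t)))
      = ENNReal.ofReal ((1 / r) ^ a * Gamma a) := by
  rw [← integral_rpow_mul_exp_neg_mul_Ioi ha hr,
    ofReal_integral_eq_lintegral_ofReal (dir_gamma_integrable ha hr)]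
  filter_upwards [ae_restrict_mem measurableSet_Ioi] with t ht
  have : (0 : ℝ) < t := ht
  positivity

/-! ### The Gamma trick -/

theorem dir_trick {α : Type*} [MeasurableSpace α] {μ : Measure α} [SFinite μ] {g : α → ENNReal}
    (hg : Measurable g) {S : α → ℝ} (hS : Measurable S) (hpos : ∀ᵐ x ∂μ, 0 < S x) {β : ℝ}
    (hβ : 0 < β) :
    ENNReal.ofReal (Gamma β) * ∫⁻ x, g x * ENNReal.ofReal (S x ^ (-β)) ∂μ =
      ∫⁻ τ in Set.Ioi (0 : ℝ), ENNReal.ofReal (τ ^ (β - 1)) *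
        ∫⁻ x, g x * ENNReal.ofReal (exp (-(τ * S x))) ∂μ := by
  calc ENNReal.ofReal (Gamma β) * ∫⁻ x, g x * ENNReal.ofReal (S x ^ (-β)) ∂μ
      = ∫⁻ x, g x * (ENNReal.ofReal (S x ^ (-β)) * ENNReal.ofReal (Gamma β)) ∂μ := by
        rw [← lintegral_const_mul' _ _ ENNReal.ofReal_ne_top]
        congr 1
        ext x
        ring
    _ = ∫⁻ x, g x * (∫⁻ τ in Set.Ioi (0 : ℝ), ENNReal.ofReal (τ ^ (β - 1)) *
          ENNReal.ofReal (exp (-(τ * S x)))) ∂μ := by
        refine lintegral_congr_ae (hpos.mono fun x hx => ?_)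
        simp only
        congr 1
        have h1 := dir_gamma_lintegral hβ hx
        rw [ENNReal.ofReal_mul (by positivity), one_div, inv_rpow hx.le, ← rpow_neg hx.le] at h1
        rw [← h1]
        refine setLIntegral_congr_fun measurableSet_Ioi fun τ hτ => ?_
        have hτ' : (0 : ℝ) < τ := hτ
        rw [← ENNReal.ofReal_mul (by positivity), mul_comm τ (S x)]
    _ = ∫⁻ x, (∫⁻ τ in Set.Ioi (0 : ℝ), g x * (ENNReal.ofReal (τ ^ (β - 1)) *
          ENNReal.ofReal (exp (-(τ * S x))))) ∂μ := by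
        congr 1
        ext x
        rw [lintegral_const_mul _ (by fun_prop)]
    _ = ∫⁻ τ in Set.Ioi (0 : ℝ), ∫⁻ x, g x * (ENNReal.ofReal (τ ^ (β - 1)) *
          ENNReal.ofReal (exp (-(τ * S x)))) ∂μ := by
        rw [lintegral_lintegral_swap]
        refine Measurable.aemeasurable ?_
        unfold Function.uncurry
        fun_prop
    _ = _ := by
        congr 1
        ext τ
        rw [← lintegral_const_mul' _ _ ENNReal.ofReal_ne_top]
        congr 1
        ext x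
        ring

/-! ### The beta integral on the half line -/

theorem dir_beta_lintegral (β c : ℝ) (hβ : 0 < β) (hc : β < c) :
    ∫⁻ τ in Set.Ioi (0 : ℝ), ENNReal.ofReal (τ ^ (β - 1) * (1 + τ) ^ (-c))
      = ENNReal.ofReal (Gamma β * Gamma (c - β) / Gamma c) := by
  have hc0 : 0 < c := hβ.trans hc
  have hcβ : 0 < c - β := sub_pos.mpr hc
  have hpos : ∀ᵐ τ ∂(volume.restrict (Set.Ioi (0 : ℝ))), 0 < 1 + τ := by
    filter_upwards [ae_restrict_mem measurableSet_Ioi] with τ hτ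
    have : (0 : ℝ) < τ := hτ
    linarith
  have key := dir_trick (μ := volume.restrict (Set.Ioi (0 : ℝ)))
    (g := fun τ => ENNReal.ofReal (τ ^ (β - 1))) (by fun_prop) (S := fun τ => 1 + τ)
    (by fun_prop) hpos hc0
  have inner : ∀ y ∈ Set.Ioi (0 : ℝ), ENNReal.ofReal (y ^ (c - 1)) *
      ∫⁻ τ in Set.Ioi (0 : ℝ), ENNReal.ofReal (τ ^ (β - 1)) * ENNReal.ofReal (exp (-(y * (1 + τ))))
      = ENNReal.ofReal (Gamma β) * ENNReal.ofReal (y ^ (c - β - 1) * exp (-(1 * y))) := by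
    intro y hy
    have hy' : (0 : ℝ) < y := hy
    have h1 : ∫⁻ τ in Set.Ioi (0 : ℝ), ENNReal.ofReal (τ ^ (β - 1)) *
        ENNReal.ofReal (exp (-(y * (1 + τ)))) =
        ENNReal.ofReal (exp (-y)) * ENNReal.ofReal ((1 / y) ^ β * Gamma β) := by
      rw [← dir_gamma_lintegral hβ hy', ← lintegral_const_mul' _ _ ENNReal.ofReal_ne_top]
      refine setLIntegral_congr_fun measurableSet_Ioi fun τ hτ => ?_
      have hτ' : (0 : ℝ) < τ := hτ
      rw [← ENNReal.ofReal_mul (by positivity), ← ENNReal.ofReal_mul (by positivity)]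
      congr 1
      have : exp (-(y * (1 + τ))) = exp (-y) * exp (-(y * τ)) := by
        rw [← exp_add]
        congr 1
        ring
      rw [this]
      ring
    rw [h1, ← ENNReal.ofReal_mul (by positivity), ← ENNReal.ofReal_mul (by positivity),
      ← ENNReal.ofReal_mul (Gamma_pos_of_pos hβ).le]
    congr 1
    have : y ^ (c - β - 1) = y ^ (c - 1) * (1 / y) ^ β := by
      rw [one_div, inv_rpow hy'.le, ← rpow_neg hy'.le, ← rpow_add hy']
      congr 1
      ring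
    rw [this, one_mul]
    ring
  rw [setLIntegral_congr_fun measurableSet_Ioi inner,
    lintegral_const_mul' _ _ ENNReal.ofReal_ne_top, dir_gamma_lintegral hcβ one_pos] at key
  have e1 : ∫⁻ τ in Set.Ioi (0 : ℝ), ENNReal.ofReal (τ ^ (β - 1) * (1 + τ) ^ (-c)) =
      ∫⁻ τ in Set.Ioi (0 : ℝ), ENNReal.ofReal (τ ^ (β - 1)) * ENNReal.ofReal ((1 + τ) ^ (-c)) := by
    refine setLIntegral_congr_fun measurableSet_Ioi fun τ hτ => ?_
    have hτ' : (0 : ℝ) < τ := hτ
    rw [← ENNReal.ofReal_mul (by positivity)]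
  rw [e1, ENNReal.ofReal_div_of_pos (Gamma_pos_of_pos hc0), ENNReal.eq_div_iff
    (by simpa using Gamma_pos_of_pos hc0) ENNReal.ofReal_ne_top, key,
    ← ENNReal.ofReal_mul (Gamma_pos_of_pos hβ).le]
  simp

theorem dir_beta_aux (β c : ℝ) (hβ : 0 < β) (hc : β < c) :
    IntegrableOn (fun τ : ℝ => τ ^ (β - 1) * (1 + τ) ^ (-c)) (Set.Ioi 0) ∧
    ∫ τ in Set.Ioi (0 : ℝ), τ ^ (β - 1) * (1 + τ) ^ (-c) = Gamma β * Gamma (c - β) / Gamma c := by
  have hc0 : 0 < c := hβ.trans hc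
  have hcβ : 0 < c - β := sub_pos.mpr hc
  refine dir_of_lintegral (Measurable.aestronglyMeasurable (by fun_prop)) ?_ ?_
    (dir_beta_lintegral β c hβ hc)
  · filter_upwards [ae_restrict_mem measurableSet_Ioi] with τ hτ
    have : (0 : ℝ) < τ := hτ
    simp only [Pi.zero_apply]
    positivity
  · have := Gamma_pos_of_pos hβ
    have := Gamma_pos_of_pos hc0
    have := Gamma_pos_of_pos hcβ
    positivity

theorem beta_Ioi (β c : ℝ) (hβ : 0 < β) (hc : β < c) :
    ∫ τ in Set.Ioi (0 : ℝ), τ ^ (β - 1) * (1 + τ) ^ (-c) = Gamma β * Gamma (c - β) / Gamma c :=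
  (dir_beta_aux β c hβ hc).2

/-! ### Products of Gamma integrals on the orthant -/

theorem dir_restrict_orth (d : ℕ) : (volume : Measure (Fin d → ℝ)).restrict (orth d) =
    Measure.pi (fun _ => (volume : Measure ℝ).restrict (Set.Ioi 0)) := by
  rw [dir_orth_eq_pi, volume_pi, Measure.restrict_pi_pi]

theorem dir_integrand_eq (d : ℕ) (v : Fin d → ℝ) (a : ℝ) (x : Fin d → ℝ) :
    (∏ i, x i ^ v i) * exp (-(a * ∑ i, x i)) =
      ∏ i, (x i ^ (1 + v i - 1) * exp (-(a * x i))) := by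
  rw [Finset.prod_mul_distrib, ← exp_sum, Finset.mul_sum, Finset.sum_neg_distrib]
  simp

theorem dir_orth_integrable (d : ℕ) (v : Fin d → ℝ) (hv : ∀ i, -1 < v i) (a : ℝ) (ha : 0 < a) :
    IntegrableOn (fun x : Fin d → ℝ => (∏ i, x i ^ v i) * exp (-(a * ∑ i, x i))) (orth d) := by
  unfold IntegrableOn
  rw [dir_restrict_orth]
  simp_rw [dir_integrand_eq]
  exact Integrable.fintype_prod (f := fun i t => t ^ (1 + v i - 1) * exp (-(a * t)))
    fun i => dir_gamma_integrable (by linarith [hv i]) ha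

theorem orth_gamma_prod (d : ℕ) (v : Fin d → ℝ) (hv : ∀ i, -1 < v i) (a : ℝ) (ha : 0 < a) :
    ∫ x in orth d, (∏ i, x i ^ v i) * exp (-(a * ∑ i, x i))
      = (∏ i, Gamma (1 + v i)) * a ^ (-((d : ℝ) + ∑ i, v i)) := by
  rw [dir_restrict_orth]
  simp_rw [dir_integrand_eq]
  rw [integral_fintype_prod_eq_prod (f := fun i t => t ^ (1 + v i - 1) * exp (-(a * t)))]
  have h1 : ∀ i, ∫ t in Set.Ioi (0 : ℝ), t ^ (1 + v i - 1) * exp (-(a * t)) =
      (1 / a) ^ (1 + v i) * Gamma (1 + v i) := fun i =>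
    integral_rpow_mul_exp_neg_mul_Ioi (by linarith [hv i]) ha
  simp_rw [h1]
  rw [Finset.prod_mul_distrib, mul_comm]
  congr 1
  rw [← rpow_sum_of_pos (by positivity), one_div, inv_rpow ha.le, ← rpow_neg ha.le,
    Finset.sum_add_distrib]
  simp

theorem dir_orth_lintegral (d : ℕ) (v : Fin d → ℝ) (hv : ∀ i, -1 < v i) (a : ℝ) (ha : 0 < a) :
    ∫⁻ x in orth d, ENNReal.ofReal ((∏ i, x i ^ v i) * exp (-(a * ∑ i, x i)))
      = ENNReal.ofReal ((∏ i, Gamma (1 + v i)) * a ^ (-((d : ℝ) + ∑ i, v i))) := by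
  rw [← orth_gamma_prod d v hv a ha,
    ofReal_integral_eq_lintegral_ofReal (dir_orth_integrable d v hv a ha)]
  filter_upwards [ae_restrict_mem (measurableSet_orth d)] with x hx
  have : 0 ≤ ∏ i, x i ^ v i := Finset.prod_nonneg fun i _ => (rpow_pos_of_pos (hx i) _).le
  simp only [Pi.zero_apply]
  positivity

/-! ### The Dirichlet moment formula -/

theorem dir_prod_gamma_pos (d : ℕ) (v : Fin d → ℝ) (hv : ∀ i, -1 < v i) :
    0 < ∏ i, Gamma (1 + v i) :=
  Finset.prod_pos fun i _ => Gamma_pos_of_pos (by linarith [hv i])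

theorem dir_dirichlet_lintegral (d : ℕ) (v : Fin d → ℝ) (hv : ∀ i, -1 < v i) (β : ℝ)
    (hβ0 : 0 < β) (hβ : β < d + ∑ i, v i) :
    ∫⁻ x in orth d, ENNReal.ofReal ((∏ i, x i ^ v i) * (∑ i, x i) ^ (-β) * exp (-∑ i, x i))
      = ENNReal.ofReal
        ((∏ i, Gamma (1 + v i)) * Gamma (d + ∑ i, v i - β) / Gamma (d + ∑ i, v i)) := by
  have hd : 0 < d := by
    rcases Nat.eq_zero_or_pos d with rfl | h
    · simp at hβ
      linarith
    · exact h
  have hP := dir_prod_gamma_pos d v hv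
  set P := ∏ i, Gamma (1 + v i) with hPdef
  set c := (d : ℝ) + ∑ i, v i with hc
  have hc0 : 0 < c := hβ0.trans hβ
  have hsum : ∀ x ∈ orth d, 0 < ∑ i, x i := fun x hx =>
    Finset.sum_pos (fun i _ => hx i) ⟨⟨0, hd⟩, Finset.mem_univ _⟩
  have hpos : ∀ᵐ x ∂(volume.restrict (orth d)), 0 < ∑ i, x i := by
    filter_upwards [ae_restrict_mem (measurableSet_orth d)] with x hx
    exact hsum x hx
  have key := dir_trick (μ := volume.restrict (orth d))
    (g := fun x => ENNReal.ofReal ((∏ i, x i ^ v i) * exp (-∑ i, x i))) (by fun_prop)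
    (S := fun x => ∑ i, x i) (by fun_prop) hpos hβ0
  have inner : ∀ τ ∈ Set.Ioi (0 : ℝ), ENNReal.ofReal (τ ^ (β - 1)) *
      ∫⁻ x in orth d, ENNReal.ofReal ((∏ i, x i ^ v i) * exp (-∑ i, x i)) *
        ENNReal.ofReal (exp (-(τ * ∑ i, x i)))
      = ENNReal.ofReal P * ENNReal.ofReal (τ ^ (β - 1) * (1 + τ) ^ (-c)) := by
    intro τ hτ
    have hτ' : (0 : ℝ) < τ := hτ
    have h1 : ∫⁻ x in orth d, ENNReal.ofReal ((∏ i, x i ^ v i) * exp (-∑ i, x i)) *
        ENNReal.ofReal (exp (-(τ * ∑ i, x i))) = ENNReal.ofReal (P * (1 + τ) ^ (-c)) := by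
      rw [← dir_orth_lintegral d v hv (1 + τ) (by linarith)]
      refine lintegral_congr fun x => ?_
      rw [← ENNReal.ofReal_mul' (exp_pos _).le, mul_assoc, ← exp_add]
      congr 3
      ring
    rw [h1, ← ENNReal.ofReal_mul (by positivity), ← ENNReal.ofReal_mul hP.le]
    congr 1
    ring
  rw [setLIntegral_congr_fun measurableSet_Ioi inner,
    lintegral_const_mul' _ _ ENNReal.ofReal_ne_top, dir_beta_lintegral β c hβ0 hβ] at key
  have e1 : ∫⁻ x in orth d, ENNReal.ofReal ((∏ i, x i ^ v i) * (∑ i, x i) ^ (-β) *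
      exp (-∑ i, x i)) = ∫⁻ x in orth d, ENNReal.ofReal ((∏ i, x i ^ v i) * exp (-∑ i, x i)) *
        ENNReal.ofReal ((∑ i, x i) ^ (-β)) := by
    refine setLIntegral_congr_fun (measurableSet_orth d) fun x hx => ?_
    rw [← ENNReal.ofReal_mul' (rpow_pos_of_pos (hsum x hx) _).le]
    congr 1
    ring
  have hG := Gamma_pos_of_pos hβ0
  rw [e1, ← ENNReal.mul_right_inj (a := ENNReal.ofReal (Gamma β)) (by simpa using hG)
    ENNReal.ofReal_ne_top, key, ← ENNReal.ofReal_mul hP.le, ← ENNReal.ofReal_mul hG.le]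
  congr 1
  ring

theorem dir_dirichlet_aux (d : ℕ) (v : Fin d → ℝ) (hv : ∀ i, -1 < v i) (β : ℝ) (hβ0 : 0 ≤ β)
    (hβ : β < d + ∑ i, v i) :
    IntegrableOn (fun x : Fin d → ℝ => (∏ i, x i ^ v i) * (∑ i, x i) ^ (-β) * exp (-∑ i, x i))
      (orth d) ∧
    ∫ x in orth d, (∏ i, x i ^ v i) * (∑ i, x i) ^ (-β) * exp (-∑ i, x i)
      = (∏ i, Gamma (1 + v i)) * Gamma (d + ∑ i, v i - β) / Gamma (d + ∑ i, v i) := by
  have hP := dir_prod_gamma_pos d v hv
  rcases hβ0.eq_or_lt with rfl | hβ1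
  · have e : (fun x : Fin d → ℝ => (∏ i, x i ^ v i) * (∑ i, x i) ^ (-(0 : ℝ)) * exp (-∑ i, x i)) =
        fun x : Fin d → ℝ => (∏ i, x i ^ v i) * exp (-(1 * ∑ i, x i)) := by
      ext x
      simp
    rw [e]
    refine ⟨dir_orth_integrable d v hv 1 one_pos, ?_⟩
    rw [orth_gamma_prod d v hv 1 one_pos, one_rpow, mul_one, sub_zero,
      mul_div_cancel_right₀ _ (Gamma_pos_of_pos hβ).ne']
  · refine dir_of_lintegral (Measurable.aestronglyMeasurable (by fun_prop)) ?_ ?_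
      (dir_dirichlet_lintegral d v hv β hβ1 hβ)
    · filter_upwards [ae_restrict_mem (measurableSet_orth d)] with x hx
      have h1 : 0 ≤ ∏ i, x i ^ v i := Finset.prod_nonneg fun i _ => (rpow_pos_of_pos (hx i) _).le
      have h2 : 0 ≤ ∑ i, x i := Finset.sum_nonneg fun i _ => (hx i).le
      simp only [Pi.zero_apply]
      positivity
    · have := Gamma_pos_of_pos (hβ1.trans hβ)
      have := Gamma_pos_of_pos (sub_pos.mpr hβ)
      positivity

theorem dirichlet_integrable (d : ℕ) (v : Fin d → ℝ) (hv : ∀ i, -1 < v i) (β : ℝ) (hβ0 : 0 ≤ β)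
    (hβ : β < d + ∑ i, v i) :
    IntegrableOn (fun x : Fin d → ℝ => (∏ i, x i ^ v i) * (∑ i, x i) ^ (-β) * exp (-∑ i, x i))
      (orth d) :=
  (dir_dirichlet_aux d v hv β hβ0 hβ).1

/-- **Dirichlet moment formula** -/
theorem dirichlet_moment (d : ℕ) (v : Fin d → ℝ) (hv : ∀ i, -1 < v i) (β : ℝ) (hβ0 : 0 ≤ β)
    (hβ : β < d + ∑ i, v i) :
    ∫ x in orth d, (∏ i, x i ^ v i) * (∑ i, x i) ^ (-β) * exp (-∑ i, x i)
      = (∏ i, Gamma (1 + v i)) * Gamma (d + ∑ i, v i - β) / Gamma (d + ∑ i, v i) :=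
  (dir_dirichlet_aux d v hv β hβ0 hβ).2

end Claimed.Agent.R296.Rep
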