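import Claimed.Agent.R296.Rep.Block

/-!
# BB_Rep L1: Frobenius' class functions on `Perm κ` (definitions)

`κ` is the finite type of copies (`k = card κ`), `d` the number of variables (= padding dimension
`dim 𝒱` of P1 Sec. 5).  Labels are plain functions `lam : Fin d → ℕ` with the predicate
`IsLab d k lam` (weakly decreasing, sum `k`); rows are numbered from `0`, so the paper's
`l_i = λ_i + d - i` (`1 ≤ i ≤ d`) is `sh d lam i = lam i + (d - 1 - i)`.

* `pfix d π`     : `∑_{f : κ → Fin d, f ∘ π = f} ∏_j X (f j)`; this is the power-sum product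
                   `p_{cycle type π}`, and equals `Tr (U(π) D(x)^{⊗κ})`.  No cycle types are used.
* `vdm d`        : `∏_{i<j} (X i - X j)`.
* `alt d m`      : the alternant `∑_w sign w ∏_i X (w i) ^ m i`.
* `thetaSh d l π`: coefficient of `x^l` in `vdm d * pfix d π`.
* `theta d lam`  : `thetaSh d (sh d lam)`, Frobenius' formula for the irreducible character.
-/

set_option autoImplicit false

namespace Claimed.Agent.R296.Rep

open MvPolynomial Equiv

/-- the staircase `δ_i = d - 1 - i` -/
def stair (d : ℕ) (i : Fin d) : ℕ := d - 1 - i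

/-- shifted label `l = λ + δ` -/
def sh (d : ℕ) (lam : Fin d → ℕ) (i : Fin d) : ℕ := lam i + stair d i

/-- `lam` is a partition of `k` with at most `d` rows -/
def IsLab (d k : ℕ) (lam : Fin d → ℕ) : Prop := Antitone lam ∧ ∑ i, lam i = k

open Classical in
/-- the finite set of labels -/
noncomputable def labels (d k : ℕ) : Finset (Fin d → ℕ) :=
  (Finset.piAntidiag Finset.univ k).filter fun lam => Antitone lam

theorem mem_labels {d k : ℕ} {lam : Fin d → ℕ} : lam ∈ labels d k ↔ IsLab d k lam := by
  classical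
  simp [labels, IsLab, and_comm]

/-- exponent vector as a finitely supported function -/
noncomputable def toFs {d : ℕ} (l : Fin d → ℕ) : Fin d →₀ ℕ := Finsupp.equivFunOnFinite.symm l

/-- the Vandermonde product `∏_{i<j} (X i - X j)` -/
noncomputable def vdm (d : ℕ) : MvPolynomial (Fin d) ℤ :=
  ∏ i : Fin d, ∏ j ∈ Finset.Ioi i, (X i - X j)

/-- the alternant with exponents `m` -/
noncomputable def alt (d : ℕ) (m : Fin d → ℕ) : MvPolynomial (Fin d) ℤ :=
  ∑ w : Perm (Fin d), ((Perm.sign w : ℤ)) • ∏ i, X (w i) ^ m i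

section

variable {κ : Type} [Fintype κ] [DecidableEq κ]

/-- fixed-point polynomial of a permutation of the copies -/
noncomputable def pfix (d : ℕ) (π : Perm κ) : MvPolynomial (Fin d) ℤ :=
  ∑ f : κ → Fin d, if f ∘ π = f then ∏ j, X (f j) else 0

/-- coefficient of `x^l` in `vdm * pfix π` -/
noncomputable def thetaSh (d : ℕ) (l : Fin d → ℕ) (π : Perm κ) : ℤ :=
  coeff (toFs l) (vdm d * pfix d π)

/-- Frobenius' class function attached to the label `lam` -/
noncomputable def theta (d : ℕ) (lam : Fin d → ℕ) (π : Perm κ) : ℤ :=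
  thetaSh d (sh d lam) π

end

/-- remove one box from row `i` -/
def subBox {d : ℕ} (l : Fin d → ℕ) (i : Fin d) : Fin d → ℕ := Function.update l i (l i - 1)

/-- row `i` of `lam` ends with a removable box -/
def Removable {d : ℕ} (lam : Fin d → ℕ) (i : Fin d) : Prop := 1 ≤ lam i ∧ Antitone (subBox lam i)

/-- content sum of a label: `∑_i (λ_i (λ_i - 1) / 2 - i λ_i)` (rows from `0`) -/
def contentSum {d : ℕ} (lam : Fin d → ℕ) : ℤ :=
  ∑ i : Fin d, (((lam i).choose 2 : ℤ) - (i : ℤ) * lam i)

end Claimed.Agent.R296.Rep
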