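import Claimed.Agent.R296.Rep.FrobA
import Claimed.Agent.R296.Rep.BlockC

/-!
# BB_Rep L1-B: Frobenius' class functions are irreducible characters

* `theta_isVirtual`: by `thetaSh_eq_sum`, `theta` is an alternating sum of the characters of the
  permutation representations of `Perm κ` on `{f : κ → Fin d // fibre sizes = μ}`
  (`isVirtual_rep`, `IsVirtual.sum`, `IsVirtual.zsmul`).
* `exists_blk`: `irr_of_virtual` with `theta_orth` (and `thetaSh_inv`), `theta_one_pos`.
-/

set_option autoImplicit false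

namespace Claimed.Agent.R296.Rep

open MvPolynomial Equiv

variable {κ : Type} [Fintype κ] [DecidableEq κ]

set_option linter.unusedSectionVars false

/-- the permutation matrix representation attached to an action `φ : G →* Perm X` -/
noncomputable def fb_permRep {G X : Type} [Group G] [Fintype X] [DecidableEq X] (φ : G →* Perm X) :
    G →* Matrix X X ℂ where
  toFun g := Matrix.of fun x y => if φ g y = x then 1 else 0
  map_one' := by
    ext x y
    simp [Matrix.one_apply, eq_comm]
  map_mul' g h := by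
    ext x y
    rw [Matrix.mul_apply]
    simp only [Matrix.of_apply, map_mul, Perm.mul_apply]
    rw [Finset.sum_eq_single (φ h y)]
    · simp
    · intro z _ hz
      rw [if_neg (fun h' : φ h y = z => hz h'.symm), mul_zero]
    · intro h'
      exact absurd (Finset.mem_univ _) h'

theorem fb_trace_permRep {G X : Type} [Group G] [Fintype X] [DecidableEq X] (φ : G →* Perm X)
    (g : G) : Matrix.trace (fb_permRep φ g) = (Fintype.card {x // φ g x = x} : ℂ) := by
  rw [Matrix.trace, Fintype.card_subtype]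
  simp [fb_permRep, Matrix.diag]

theorem fb_isVirtual_perm {G X : Type} [Group G] [Fintype G] [Fintype X] [DecidableEq X]
    (φ : G →* Perm X) : IsVirtual (fun g => (Fintype.card {x // φ g x = x} : ℂ)) := by
  have h := isVirtual_rep (fb_permRep φ)
  simpa only [fb_trace_permRep] using h

/-- the action of `Perm κ` on an invariant set of colourings -/
def fb_colAct {d : ℕ} (P : (κ → Fin d) → Prop) (hP : ∀ (π : Perm κ) f, P f → P (f ∘ π)) :
    Perm κ →* Perm {f // P f} where
  toFun π :=
    { toFun := fun f => ⟨f.1 ∘ ⇑π⁻¹, hP _ _ f.2⟩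
      invFun := fun f => ⟨f.1 ∘ ⇑π, hP _ _ f.2⟩
      left_inv := fun f => by
        apply Subtype.ext
        funext j
        simp
      right_inv := fun f => by
        apply Subtype.ext
        funext j
        simp }
  map_one' := by
    ext f
    rfl
  map_mul' π σ := by
    ext f
    apply congrArg Fin.val
    simp [mul_inv_rev]

theorem fb_colAct_apply {d : ℕ} (P : (κ → Fin d) → Prop) (hP : ∀ (π : Perm κ) f, P f → P (f ∘ π))
    (π : Perm κ) (f : {f // P f}) : (fb_colAct P hP π f).1 = f.1 ∘ ⇑π⁻¹ := rfl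

theorem fb_comp_inv_eq_iff {d : ℕ} (π : Perm κ) (f : κ → Fin d) : f ∘ ⇑π⁻¹ = f ↔ f ∘ ⇑π = f := by
  constructor
  · intro h
    funext j
    have := congrFun h (π j)
    simpa using this.symm
  · intro h
    funext j
    have := congrFun h (π⁻¹ j)
    simpa using this.symm

theorem fb_card_fibre_comp {d : ℕ} (π : Perm κ) (f : κ → Fin d) (i : Fin d) :
    Fintype.card {j // (f ∘ π) j = i} = Fintype.card {j // f j = i} :=
  Fintype.card_congr (π.subtypeEquiv fun _ => Iff.rfl)

theorem fb_isVirtual_col {d : ℕ} (P : (κ → Fin d) → Prop) [DecidablePred P]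
    (hP : ∀ (π : Perm κ) f, P f → P (f ∘ π)) :
    IsVirtual (fun π : Perm κ => (Fintype.card {f : κ → Fin d // f ∘ π = f ∧ P f} : ℂ)) := by
  have h := fb_isVirtual_perm (fb_colAct P hP)
  have e : ∀ π : Perm κ, Fintype.card {x // fb_colAct P hP π x = x}
      = Fintype.card {f : κ → Fin d // f ∘ π = f ∧ P f} := by
    intro π
    refine Fintype.card_congr
      { toFun := fun x => ⟨x.1.1, (fb_comp_inv_eq_iff π _).1 (congrArg Subtype.val x.2), x.1.2⟩
        invFun := fun f => ⟨⟨f.1, f.2.2⟩, Subtype.ext ((fb_comp_inv_eq_iff π _).2 f.2.1)⟩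
        left_inv := fun x => rfl
        right_inv := fun f => rfl }
  simpa only [e] using h

theorem thetaSh_isVirtual (d : ℕ) (l : Fin d → ℕ) :
    IsVirtual (fun π : Perm κ => (thetaSh d l π : ℂ)) := by
  have h : IsVirtual (fun π : Perm κ => ∑ w ∈ (Finset.univ : Finset (Perm (Fin d))),
      (((Perm.sign w : ℤ) : ℤ) : ℂ) *
      (Fintype.card {f : κ → Fin d // f ∘ π = f ∧
        ∀ i, Fintype.card {j // f j = i} + stair d (w⁻¹ i) = l i} : ℂ)) := by
    refine IsVirtual.sum _ _ fun w _ => IsVirtual.zsmul ?_ _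
    refine fb_isVirtual_col (fun f : κ → Fin d =>
      ∀ i, Fintype.card {j // f j = i} + stair d (w⁻¹ i) = l i) ?_
    intro π f hf i
    rw [fb_card_fibre_comp]
    exact hf i
  convert h using 2 with π
  rw [thetaSh_eq_sum]
  push_cast
  rfl

theorem theta_isVirtual (d : ℕ) (lam : Fin d → ℕ) :
    IsVirtual (fun π : Perm κ => (theta d lam π : ℂ)) :=
  thetaSh_isVirtual d (sh d lam)

theorem exists_blk (d : ℕ) (lam : Fin d → ℕ) (hl : IsLab d (Fintype.card κ) lam) :
    ∃ i : Irr (Perm κ), ∀ π, chiG i π = (theta d lam π : ℂ) := by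
  refine irr_of_virtual (fun π : Perm κ => (theta d lam π : ℂ)) (theta_isVirtual d lam) ?_ ?_
  · have h := theta_orth (κ := κ) d lam lam hl hl.1
    rw [if_pos rfl] at h
    have h2 : ∀ π : Perm κ, theta d lam π⁻¹ = theta d lam π := fun π => thetaSh_inv d _ π
    simp only [h2]
    rw [Fintype.card_perm]
    exact_mod_cast h
  · have h := theta_one_pos (κ := κ) d lam hl
    show 0 < ((theta d lam (1 : Perm κ) : ℤ) : ℂ).re
    rw [Complex.intCast_re]
    exact_mod_cast h

/-- the block of `ℂ[Perm κ]` attached to a label (junk if `lam` is not a label of size `card κ`) -/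
noncomputable def blk (d : ℕ) (lam : Fin d → ℕ) : Irr (Perm κ) :=
  Classical.epsilon fun i => ∀ π, chiG i π = (theta d lam π : ℂ)

theorem chiG_blk (d : ℕ) (lam : Fin d → ℕ) (hl : IsLab d (Fintype.card κ) lam) (π : Perm κ) :
    chiG (blk d lam) π = (theta d lam π : ℂ) :=
  Classical.epsilon_spec (exists_blk (κ := κ) d lam hl) π

theorem dimI_blk (d : ℕ) (lam : Fin d → ℕ) (hl : IsLab d (Fintype.card κ) lam) :
    (dimI (blk d lam : Irr (Perm κ)) : ℤ) = theta d lam (1 : Perm κ) := by
  have h := chiG_blk (κ := κ) d lam hl 1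
  rw [chiG_one] at h
  exact_mod_cast h

theorem blk_injOn (d : ℕ) (lam mu : Fin d → ℕ) (hl : IsLab d (Fintype.card κ) lam)
    (hm : IsLab d (Fintype.card κ) mu) (h : (blk d lam : Irr (Perm κ)) = blk d mu) : lam = mu := by
  by_contra hne
  have h1 := theta_orth (κ := κ) d lam mu hl hm.1
  have h2 := theta_orth (κ := κ) d lam lam hl hl.1
  rw [if_neg hne] at h1
  rw [if_pos rfl] at h2
  have h3 : ∀ π : Perm κ, theta d lam π = theta d mu π := by
    intro π
    have e1 := chiG_blk (κ := κ) d lam hl π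
    have e2 := chiG_blk (κ := κ) d mu hm π
    rw [h, e2] at e1
    exact_mod_cast e1.symm
  simp only [← h3] at h1
  rw [h1] at h2
  have : (0 : ℤ) < ((Fintype.card κ).factorial : ℤ) := by exact_mod_cast Nat.factorial_pos _
  omega

/-- `d_λ = k! ∏_{i<j} (l_i - l_j) / ∏ l_i!` -/
theorem dimI_blk_formula (d : ℕ) (lam : Fin d → ℕ) (hl : IsLab d (Fintype.card κ) lam) :
    (dimI (blk d lam : Irr (Perm κ)) : ℤ) * ∏ i, ((sh d lam i).factorial : ℤ)
      = ((Fintype.card κ).factorial : ℤ)
          * ∏ i, ∏ j ∈ Finset.Ioi i, ((sh d lam i : ℤ) - sh d lam j) := by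
  rw [dimI_blk d lam hl]
  exact thetaSh_one (κ := κ) d (sh d lam) (by rw [sum_sh, hl.2])

theorem perm_ambivalent (g : Perm κ) : ∃ h : Perm κ, h * g * h⁻¹ = g⁻¹ := by
  have h : IsConj g g⁻¹ := by
    rw [Equiv.Perm.isConj_iff_cycleType_eq, Equiv.Perm.cycleType_inv]
  exact isConj_iff.1 h

/-- a block is *labelled* (at most `d` rows) -/
def IsLabelled (d : ℕ) (i : Irr (Perm κ)) : Prop :=
  ∃ lam, IsLab d (Fintype.card κ) lam ∧ blk d lam = i

end Claimed.Agent.R296.Rep
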