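import Claimed.Agent.R296.Rep.FrobB

/-!
# BB_Rep L1-C: branching `Perm κ ⊃ Perm (κ ∖ j₀)`   (`lem:schur` (6), first half)

* `chi_blk_res`: `chi_gmap_idem`, `theta_ofSubtype_ne`, `chiG_blk`, `chiG_orth`, `chiG_inv...`.
* `idem_blk_eq_sum_branch`: `sum_idem` in `GA (Perm (κ ∖ j₀))`, `idem_res_eq_zero` (take the second
  subgroup trivial, or redo its short proof) and `chi_blk_res`.
* `tracial_branch_blk`: `tracial_branch` + `chi_blk_res`.
* `branch_prob_le`: `theta_one_subBox`; a factor with an earlier row is `≤ 2`, with a later row `≤ 1`.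
-/

set_option autoImplicit false

namespace Claimed.Agent.R296.Rep

open MvPolynomial Equiv

variable {κ : Type} [Fintype κ] [DecidableEq κ]

/-! ### branching -/

/-- the embedding `ℂ[Perm (κ ∖ j₀)] → ℂ[Perm κ]` -/
noncomputable def gsub (j₀ : κ) : GA (Perm {j // j ≠ j₀}) →ₐ[ℂ] GA (Perm κ) :=
  gmap (Perm.ofSubtype : Perm {j // j ≠ j₀} →* Perm κ)

theorem isLab_subBox (d k : ℕ) (lam : Fin d → ℕ) (hl : IsLab d k lam) (i : Fin d)
    (hi : Removable lam i) : IsLab d (k - 1) (subBox lam i) := by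
  refine ⟨hi.2, ?_⟩
  have h1 : ∑ a, subBox lam i a + 1 = ∑ a, lam a := by
    rw [← Finset.add_sum_erase Finset.univ _ (Finset.mem_univ i),
      ← Finset.add_sum_erase Finset.univ lam (Finset.mem_univ i)]
    have : ∑ a ∈ Finset.univ.erase i, subBox lam i a = ∑ a ∈ Finset.univ.erase i, lam a := by
      refine Finset.sum_congr rfl fun a ha => ?_
      rw [subBox, Function.update_of_ne (Finset.mem_erase.mp ha).1]
    rw [this, subBox, Function.update_self]
    have := hi.1
    omega
  rw [hl.2] at h1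
  omega

theorem fc_card_ne (j₀ : κ) : Fintype.card {j // j ≠ j₀} = Fintype.card κ - 1 := by
  rw [Fintype.card_subtype_compl, Fintype.card_subtype_eq]

theorem fc_isLab (d : ℕ) (lam : Fin d → ℕ) (hl : IsLab d (Fintype.card κ) lam) (j₀ : κ)
    (i : Fin d) (hi : Removable lam i) :
    IsLab d (Fintype.card {j // j ≠ j₀}) (subBox lam i) := by
  rw [fc_card_ne]
  exact isLab_subBox d _ lam hl i hi

theorem fc_subBox_inj {d : ℕ} (lam : Fin d → ℕ) (i i' : Fin d) (hi : 1 ≤ lam i)
    (h : subBox lam i = subBox lam i') : i = i' := by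
  by_contra hne
  have h1 := congrFun h i
  rw [subBox, subBox, Function.update_self, Function.update_of_ne hne] at h1
  omega

/-- the branches of a label are pairwise different blocks -/
theorem fc_branch_inj (d : ℕ) (lam : Fin d → ℕ) (hl : IsLab d (Fintype.card κ) lam) (j₀ : κ)
    (i i' : Fin d) (hi : Removable lam i) (hi' : Removable lam i')
    (h : (blk d (subBox lam i) : Irr (Perm {j // j ≠ j₀})) = blk d (subBox lam i')) : i = i' :=
  fc_subBox_inj lam i i' hi.1
    (blk_injOn d _ _ (fc_isLab d lam hl j₀ i hi) (fc_isLab d lam hl j₀ i' hi') h)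

open Classical in
theorem fc_sum_branch {M : Type} [AddCommMonoid M] (d : ℕ) (lam : Fin d → ℕ)
    (hl : IsLab d (Fintype.card κ) lam) (j₀ : κ) (α : Irr (Perm {j // j ≠ j₀})) (x : M) :
    ∑ i, (if Removable lam i ∧ α = blk d (subBox lam i) then x else 0)
      = if ∃ i, Removable lam i ∧ α = blk d (subBox lam i) then x else 0 := by
  by_cases hex : ∃ i, Removable lam i ∧ α = blk d (subBox lam i)
  · rw [if_pos hex]
    obtain ⟨i₀, h0, h1⟩ := hex
    rw [Finset.sum_eq_single i₀, if_pos ⟨h0, h1⟩]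
    · intro i _ hne
      rw [if_neg]
      rintro ⟨h2, h3⟩
      exact hne (fc_branch_inj d lam hl j₀ i i₀ h2 h0 (h3.symm.trans h1))
    · intro h
      exact absurd (Finset.mem_univ _) h
  · rw [if_neg hex]
    refine Finset.sum_eq_zero fun i _ => ?_
    rw [if_neg]
    exact fun h => hex ⟨i, h⟩

open Classical in
/-- restriction of the block `lam` to the permutations fixing `j₀` -/
theorem chi_blk_res (d : ℕ) (lam : Fin d → ℕ) (hl : IsLab d (Fintype.card κ) lam) (j₀ : κ)
    (α : Irr (Perm {j // j ≠ j₀})) :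
    chi (blk d lam : Irr (Perm κ)) (gsub j₀ (idem α))
      = if ∃ i, Removable lam i ∧ α = blk d (subBox lam i) then (dimI α : ℂ) else 0 := by
  rw [← fc_sum_branch d lam hl j₀ α, gsub, chi_gmap_idem]
  have hH : (Fintype.card (Perm {j // j ≠ j₀}) : ℂ) ≠ 0 := by
    exact_mod_cast Fintype.card_ne_zero
  have h1 : ∀ h : Perm {j // j ≠ j₀},
      chiG α h⁻¹ * chiG (blk d lam : Irr (Perm κ)) (Perm.ofSubtype h)
        = ∑ i, if Removable lam i then
            chiG (blk d (subBox lam i) : Irr (Perm {j // j ≠ j₀})) h * chiG α h⁻¹ else 0 := by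
    intro h
    rw [chiG_blk d lam hl, theta_ofSubtype_ne d lam hl.1]
    push_cast
    rw [Finset.mul_sum]
    refine Finset.sum_congr rfl fun i _ => ?_
    by_cases hi : Removable lam i
    · rw [if_pos hi, if_pos hi, chiG_blk d _ (fc_isLab d lam hl j₀ i hi), mul_comm]
    · rw [if_neg hi, if_neg hi, mul_zero]
  rw [Finset.sum_congr rfl fun h _ => h1 h, Finset.sum_comm, Finset.mul_sum]
  refine Finset.sum_congr rfl fun i _ => ?_
  by_cases hi : Removable lam i
  · simp only [if_pos hi]
    rw [chiG_orth]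
    by_cases he : α = blk d (subBox lam i)
    · rw [if_pos he.symm, if_pos ⟨hi, he⟩]
      field_simp
    · rw [if_neg (fun h => he h.symm), if_neg (fun h => he h.2), mul_zero]
  · simp [hi]

/-- a block of the small group that does not occur in the restriction is killed -/
theorem fc_idem_mul_eq_zero (i : Irr (Perm κ)) (j₀ : κ) (α : Irr (Perm {j // j ≠ j₀}))
    (h : chi i (gsub j₀ (idem α)) = 0) : idem i * gsub j₀ (idem α) = 0 := by
  apply ga_idempotent_eq_zero
  · exact idempotent_mul_of_commute (by rw [idem_mul_idem, if_pos rfl]) (gmap_idem_sq _ α)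
      (idem_comm i _)
  · intro j
    rw [chi_idem_mul]
    split_ifs
    · exact h
    · rfl

open Classical in
/-- the branches exhaust the block -/
theorem idem_blk_eq_sum_branch (d : ℕ) (lam : Fin d → ℕ) (hl : IsLab d (Fintype.card κ) lam)
    (j₀ : κ) :
    idem (blk d lam : Irr (Perm κ))
      = ∑ i, if Removable lam i then
          idem (blk d lam : Irr (Perm κ)) * gsub j₀ (idem (blk d (subBox lam i))) else 0 := by
  have h1 : idem (blk d lam : Irr (Perm κ))
      = ∑ α : Irr (Perm {j // j ≠ j₀}), idem (blk d lam : Irr (Perm κ)) * gsub j₀ (idem α) := by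
    rw [← Finset.mul_sum, ← map_sum, sum_idem, map_one, mul_one]
  have h2 : ∀ α : Irr (Perm {j // j ≠ j₀}),
      idem (blk d lam : Irr (Perm κ)) * gsub j₀ (idem α)
        = ∑ i, (if Removable lam i ∧ α = blk d (subBox lam i) then
            idem (blk d lam : Irr (Perm κ)) * gsub j₀ (idem α) else 0) := by
    intro α
    rw [fc_sum_branch d lam hl j₀ α]
    by_cases hex : ∃ i, Removable lam i ∧ α = blk d (subBox lam i)
    · rw [if_pos hex]
    · rw [if_neg hex]
      apply fc_idem_mul_eq_zero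
      rw [chi_blk_res d lam hl, if_neg hex]
  conv_lhs => rw [h1]
  rw [Finset.sum_congr rfl fun α _ => h2 α, Finset.sum_comm]
  refine Finset.sum_congr rfl fun i _ => ?_
  by_cases hi : Removable lam i
  · simp only [hi, true_and, if_true]
    rw [Finset.sum_ite_eq' Finset.univ, if_pos (Finset.mem_univ _)]
  · simp [hi]

/-- branch probability of a tracial functional: `d_{λ - e_i} / d_λ` -/
theorem tracial_branch_blk (d : ℕ) (lam : Fin d → ℕ) (hl : IsLab d (Fintype.card κ) lam) (j₀ : κ)
    (i : Fin d) (hi : Removable lam i)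
    (φ : GA (Perm κ) →ₗ[ℂ] ℂ) (hφ : ∀ a b, φ (a * b) = φ (b * a)) :
    φ (idem (blk d lam) * gsub j₀ (idem (blk d (subBox lam i))))
      = φ (idem (blk d lam)) *
        ((dimI (blk d (subBox lam i) : Irr (Perm {j // j ≠ j₀})) : ℂ)
          / dimI (blk d lam : Irr (Perm κ))) := by
  have h := tracial_branch (Perm.ofSubtype : Perm {j // j ≠ j₀} →* Perm κ) φ hφ (blk d lam)
    (blk d (subBox lam i))
  have h2 := chi_blk_res d lam hl j₀ (blk d (subBox lam i))
  rw [if_pos ⟨i, hi, rfl⟩] at h2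
  rw [gsub] at h2 ⊢
  rw [h, h2]
  ring

/-- `p_{λ,i} ≤ 2^d l_i / k` -/
theorem branch_prob_le (d : ℕ) (lam : Fin d → ℕ) (hl : IsLab d (Fintype.card κ) lam) (j₀ : κ)
    (i : Fin d) (hi : Removable lam i) :
    ((dimI (blk d (subBox lam i) : Irr (Perm {j // j ≠ j₀})) : ℝ)
          / dimI (blk d lam : Irr (Perm κ)))
      ≤ 2 ^ d * (sh d lam i : ℝ) / Fintype.card κ := by
  have h0 := theta_one_subBox d lam hl j₀ i hi
  rw [← dimI_blk d lam hl, ← dimI_blk d _ (fc_isLab d lam hl j₀ i hi)] at h0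
  set A : ℕ := dimI (blk d (subBox lam i) : Irr (Perm {j // j ≠ j₀})) with hA
  set B : ℕ := dimI (blk d lam : Irr (Perm κ)) with hB
  have hBpos : (0 : ℝ) < B := by exact_mod_cast dimI_pos _
  have hk : (0 : ℝ) < Fintype.card κ := by
    exact_mod_cast Fintype.card_pos_iff.mpr ⟨j₀⟩
  set l := sh d lam with hldef
  have hinj : Function.Injective l := (sh_strictAnti d lam hl.1).injective
  have h1 : (Fintype.card κ : ℝ) * A * ∏ j ∈ Finset.univ.erase i, ((l i : ℝ) - l j)
      = (l i : ℝ) * B * ∏ j ∈ Finset.univ.erase i, ((l i : ℝ) - 1 - l j) := by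
    exact_mod_cast h0
  have hp : ∀ j ∈ Finset.univ.erase i, ((l i : ℝ) - l j) ≠ 0 := by
    intro j hj
    have hne : l i ≠ l j := fun h => (Finset.mem_erase.mp hj).1 (hinj h).symm
    have : (l i : ℝ) ≠ l j := by exact_mod_cast hne
    exact sub_ne_zero.2 this
  have hP : ∏ j ∈ Finset.univ.erase i, ((l i : ℝ) - l j) ≠ 0 := Finset.prod_ne_zero_iff.2 hp
  have hfac : ∀ j ∈ Finset.univ.erase i,
      0 ≤ ((l i : ℝ) - 1 - l j) / ((l i : ℝ) - l j)
        ∧ ((l i : ℝ) - 1 - l j) / ((l i : ℝ) - l j) ≤ 2 := by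
    intro j hj
    have hne : l i ≠ l j := fun h => (Finset.mem_erase.mp hj).1 (hinj h).symm
    rcases lt_or_gt_of_ne hne with hlt | hgt
    · have h2 : (l i : ℝ) + 1 ≤ l j := by exact_mod_cast hlt
      have h3 : (l i : ℝ) - l j < 0 := by linarith
      constructor
      · exact div_nonneg_of_nonpos (by linarith) h3.le
      · rw [div_le_iff_of_neg h3]
        linarith
    · have h2 : (l j : ℝ) + 1 ≤ l i := by exact_mod_cast hgt
      have h3 : 0 < (l i : ℝ) - l j := by linarith
      constructor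
      · exact div_nonneg (by linarith) h3.le
      · rw [div_le_iff₀ h3]
        linarith
  have hQ : (∏ j ∈ Finset.univ.erase i, ((l i : ℝ) - 1 - l j))
      / ∏ j ∈ Finset.univ.erase i, ((l i : ℝ) - l j) ≤ 2 ^ d := by
    rw [← Finset.prod_div_distrib]
    calc ∏ j ∈ Finset.univ.erase i, ((l i : ℝ) - 1 - l j) / ((l i : ℝ) - l j)
        ≤ ∏ _j ∈ Finset.univ.erase i, (2 : ℝ) :=
          Finset.prod_le_prod (fun j hj => (hfac j hj).1) fun j hj => (hfac j hj).2
      _ = 2 ^ (d - 1) := by
          rw [Finset.prod_const, Finset.card_erase_of_mem (Finset.mem_univ i), Finset.card_univ,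
            Fintype.card_fin]
      _ ≤ 2 ^ d := pow_le_pow_right₀ (by norm_num) (Nat.sub_le d 1)
  have h2 : (A : ℝ) / B = (l i : ℝ) / Fintype.card κ *
      ((∏ j ∈ Finset.univ.erase i, ((l i : ℝ) - 1 - l j))
        / ∏ j ∈ Finset.univ.erase i, ((l i : ℝ) - l j)) := by
    rw [div_mul_div_comm, div_eq_div_iff hBpos.ne' (mul_ne_zero hk.ne' hP)]
    linear_combination h1
  rw [h2]
  have h3 : (0 : ℝ) ≤ (l i : ℝ) / Fintype.card κ := by positivity
  calc (l i : ℝ) / Fintype.card κ * _ ≤ (l i : ℝ) / Fintype.card κ * 2 ^ d :=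
        mul_le_mul_of_nonneg_left hQ h3
    _ = 2 ^ d * (l i : ℝ) / Fintype.card κ := by ring

end Claimed.Agent.R296.Rep
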