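import Claimed.Agent.R296.Rep.MetricDefs

/-!
# BB_Rep L3-A: Gamma function estimates (no Stirling)

* `wendel_upper/lower`: log-convexity of `Γ` (`Real.convexOn_log_Gamma`, or Hölder form
  `Real.Gamma_mul_add_mul_le_rpow_Gamma_mul_rpow_Gamma`):
  `Γ(x+s) ≤ Γ(x)^{1-s} Γ(x+1)^s = x^s Γ(x)` and `Γ(x+1) ≤ Γ(x+s)^s Γ(x+s+1)^{1-s}`.
* `gamma_pow_compare`: with `f n = Γ(1+tn) / (t^{tn} (n!)^t)`, Wendel gives
  `(n+1)/(n+2) ≤ f(n+1)/f(n) ≤ (n+2)/(n+1)`, hence `1/(n+1) ≤ f n ≤ n+1` by induction.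
* `gamma_shift_compare`: `Γ(c+u)/Γ(1+u)` is between `c₀ > 0` and `C (u+1)^m` (`Γ(x+1) = xΓ(x)`
  and Wendel).
Owner: helper291 (statements of helper116's skeleton, verbatim).
-/

set_option autoImplicit false

namespace Claimed.Agent.R296.Rep

open Real

theorem wendel_upper (x s : ℝ) (hx : 0 < x) (hs0 : 0 ≤ s) (hs1 : s ≤ 1) :
    Gamma (x + s) ≤ x ^ s * Gamma x := by
  rcases hs0.eq_or_lt with rfl | hs0'
  · simp
  rcases hs1.eq_or_lt with rfl | hs1'
  · rw [Gamma_add_one hx.ne', rpow_one]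
  have h := Gamma_mul_add_mul_le_rpow_Gamma_mul_rpow_Gamma hx (by linarith : 0 < x + 1)
    (by linarith : 0 < 1 - s) hs0' (by ring)
  have e : (1 - s) * x + s * (x + 1) = x + s := by ring
  rw [e, Gamma_add_one hx.ne', mul_rpow hx.le (Gamma_pos_of_pos hx).le] at h
  refine h.trans (le_of_eq ?_)
  have h2 : Gamma x ^ (1 - s) * Gamma x ^ s = Gamma x := by
    rw [← rpow_add (Gamma_pos_of_pos hx)]
    simp
  calc Gamma x ^ (1 - s) * (x ^ s * Gamma x ^ s) = x ^ s * (Gamma x ^ (1 - s) * Gamma x ^ s) := by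
        ring
    _ = x ^ s * Gamma x := by rw [h2]

theorem wendel_lower (x s : ℝ) (hx : 0 < x) (hs0 : 0 ≤ s) (hs1 : s ≤ 1) :
    x ^ s * (x / (x + s)) ^ (1 - s) * Gamma x ≤ Gamma (x + s) := by
  have hxs : 0 < x + s := by linarith
  have h := wendel_upper (x + s) (1 - s) hxs (by linarith) (by linarith)
  have e : x + s + (1 - s) = x + 1 := by ring
  rw [e, Gamma_add_one hx.ne'] at h
  have hp : 0 < (x + s) ^ (1 - s) := rpow_pos_of_pos hxs _
  rw [div_rpow hx.le hxs.le]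
  have h2 : x ^ s * x ^ (1 - s) = x := by
    rw [← rpow_add hx]
    simp
  calc x ^ s * (x ^ (1 - s) / (x + s) ^ (1 - s)) * Gamma x
      = (x ^ s * x ^ (1 - s)) * Gamma x / (x + s) ^ (1 - s) := by ring
    _ = x * Gamma x / (x + s) ^ (1 - s) := by rw [h2]
    _ ≤ Gamma (x + s) := by
        rw [div_le_iff₀ hp]
        linarith

/-- one step of the comparison, upper bound -/
theorem gammaA_step_upper (t : ℝ) (ht0 : 0 < t) (ht1 : t ≤ 1) (n : ℕ) :
    Gamma (1 + t * ((n + 1 : ℕ) : ℝ))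
      ≤ (((n : ℝ) + 2) / ((n : ℝ) + 1)) * (t * ((n : ℝ) + 1)) ^ t * Gamma (1 + t * n) := by
  have hn : (0 : ℝ) ≤ n := Nat.cast_nonneg n
  have hx : 0 < 1 + t * (n : ℝ) := by positivity
  have h := wendel_upper (1 + t * n) t hx ht0.le ht1
  have e : 1 + t * ((n + 1 : ℕ) : ℝ) = 1 + t * n + t := by push_cast; ring
  rw [e]
  refine h.trans (mul_le_mul_of_nonneg_right ?_ (Gamma_pos_of_pos hx).le)
  have hb : 0 < t * ((n : ℝ) + 1) := by positivity
  have e2 : 1 + t * (n : ℝ) = (1 + (1 - t) / (t * ((n : ℝ) + 1))) * (t * ((n : ℝ) + 1)) := by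
    field_simp
    ring
  have hy : 0 ≤ (1 - t) / (t * ((n : ℝ) + 1)) := div_nonneg (by linarith) hb.le
  rw [e2, mul_rpow (by positivity) hb.le]
  refine mul_le_mul_of_nonneg_right ?_ (rpow_nonneg hb.le _)
  refine (rpow_one_add_le_one_add_mul_self (by linarith) ht0.le ht1).trans ?_
  have e3 : t * ((1 - t) / (t * ((n : ℝ) + 1))) = (1 - t) / ((n : ℝ) + 1) := by
    field_simp
  rw [e3, le_div_iff₀ (by positivity)]
  have : (1 + (1 - t) / ((n : ℝ) + 1)) * ((n : ℝ) + 1) = (n : ℝ) + 1 + (1 - t) := by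
    field_simp
  rw [this]
  linarith

/-- one step of the comparison, lower bound -/
theorem gammaA_step_lower (t : ℝ) (ht0 : 0 < t) (ht1 : t ≤ 1) (n : ℕ) :
    (((n : ℝ) + 1) / ((n : ℝ) + 2)) * (t * ((n : ℝ) + 1)) ^ t * Gamma (1 + t * n)
      ≤ Gamma (1 + t * ((n + 1 : ℕ) : ℝ)) := by
  have hn : (0 : ℝ) ≤ n := Nat.cast_nonneg n
  have hx : 0 < 1 + t * (n : ℝ) := by positivity
  have h := wendel_lower (1 + t * n) t hx ht0.le ht1
  have e : 1 + t * ((n + 1 : ℕ) : ℝ) = 1 + t * n + t := by push_cast; ring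
  rw [e]
  refine le_trans (mul_le_mul_of_nonneg_right ?_ (Gamma_pos_of_pos hx).le) h
  have hb : 0 < t * ((n : ℝ) + 1) := by positivity
  rw [mul_comm]
  have h1 : (t * ((n : ℝ) + 1)) ^ t ≤ (1 + t * (n : ℝ)) ^ t :=
    rpow_le_rpow hb.le (by nlinarith) ht0.le
  have hq0 : 0 < (1 + t * (n : ℝ)) / (1 + t * n + t) := by positivity
  have hq1 : (1 + t * (n : ℝ)) / (1 + t * n + t) ≤ 1 := by
    rw [div_le_one (by positivity)]
    linarith
  have h2 : ((n : ℝ) + 1) / ((n : ℝ) + 2) ≤ ((1 + t * (n : ℝ)) / (1 + t * n + t)) ^ (1 - t) := by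
    have h3 : (1 + t * (n : ℝ)) / (1 + t * n + t)
        ≤ ((1 + t * (n : ℝ)) / (1 + t * n + t)) ^ (1 - t) := by
      have := rpow_le_rpow_of_exponent_ge hq0 hq1 (by linarith : 1 - t ≤ 1)
      rwa [rpow_one] at this
    refine le_trans ?_ h3
    rw [div_le_div_iff₀ (by positivity) (by positivity)]
    nlinarith
  exact mul_le_mul h1 h2 (by positivity) (rpow_nonneg hx.le _)

/-- the comparison function satisfies `g (n+1) = (t (n+1))^t g n` -/
theorem gammaA_g_succ (t : ℝ) (ht0 : 0 < t) (n : ℕ) :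
    t ^ (t * ((n + 1 : ℕ) : ℝ)) * (((n + 1).factorial : ℝ)) ^ t
      = (t * ((n : ℝ) + 1)) ^ t * (t ^ (t * (n : ℝ)) * ((n.factorial : ℝ)) ^ t) := by
  have hn : (0 : ℝ) ≤ n := Nat.cast_nonneg n
  have e : t * ((n + 1 : ℕ) : ℝ) = t * n + t := by push_cast; ring
  rw [e, rpow_add ht0, Nat.factorial_succ, Nat.cast_mul, mul_rpow (by positivity) (by positivity),
    mul_rpow ht0.le (by positivity)]
  push_cast
  ring

/-- `Γ(1 + t n)` versus `t^{tn} (n!)^t`, up to polynomial factors -/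
theorem gamma_pow_compare (t : ℝ) (ht0 : 0 < t) (ht1 : t ≤ 1) :
    ∃ (C : ℝ) (m : ℕ), 0 < C ∧ ∀ n : ℕ,
      (C * ((n : ℝ) + 1) ^ m)⁻¹ * (t ^ (t * n) * ((n.factorial : ℝ)) ^ t) ≤ Gamma (1 + t * n) ∧
      Gamma (1 + t * n) ≤ C * ((n : ℝ) + 1) ^ m * (t ^ (t * n) * ((n.factorial : ℝ)) ^ t) := by
  refine ⟨1, 1, one_pos, fun n => ?_⟩
  simp only [one_mul, pow_one]
  induction n with
  | zero => simp
  | succ n ih =>
    obtain ⟨ih1, ih2⟩ := ih
    have hn : (0 : ℝ) ≤ n := Nat.cast_nonneg n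
    have hb : 0 ≤ (t * ((n : ℝ) + 1)) ^ t := rpow_nonneg (by positivity) _
    have hg : 0 ≤ t ^ (t * (n : ℝ)) * ((n.factorial : ℝ)) ^ t := by positivity
    rw [gammaA_g_succ t ht0 n]
    constructor
    · refine le_trans ?_ (gammaA_step_lower t ht0 ht1 n)
      have h3 : (((n : ℝ) + 1) / ((n : ℝ) + 2)) * (t * ((n : ℝ) + 1)) ^ t
          * (((n : ℝ) + 1)⁻¹ * (t ^ (t * (n : ℝ)) * ((n.factorial : ℝ)) ^ t))
          ≤ (((n : ℝ) + 1) / ((n : ℝ) + 2)) * (t * ((n : ℝ) + 1)) ^ t * Gamma (1 + t * n) :=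
        mul_le_mul_of_nonneg_left ih1 (by positivity)
      refine le_trans (le_of_eq ?_) h3
      push_cast
      field_simp
      ring
    · refine (gammaA_step_upper t ht0 ht1 n).trans ?_
      have h3 : (((n : ℝ) + 2) / ((n : ℝ) + 1)) * (t * ((n : ℝ) + 1)) ^ t * Gamma (1 + t * n)
          ≤ (((n : ℝ) + 2) / ((n : ℝ) + 1)) * (t * ((n : ℝ) + 1)) ^ t
          * (((n : ℝ) + 1) * (t ^ (t * (n : ℝ)) * ((n.factorial : ℝ)) ^ t)) :=
        mul_le_mul_of_nonneg_left ih2 (by positivity)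
      refine h3.trans (le_of_eq ?_)
      push_cast
      field_simp
      ring

/-- upper bound for a shift by `δ ∈ [0,k]` -/
theorem gammaA_shift_upper (k : ℕ) : ∀ y δ : ℝ, 1 ≤ y → 0 ≤ δ → δ ≤ k →
    Gamma (y + δ) ≤ (y + k) ^ k * Gamma y := by
  induction k with
  | zero =>
    intro y δ _ h0 h1
    have : δ = 0 := le_antisymm (by simpa using h1) h0
    simp [this]
  | succ k ih =>
    intro y δ hy h0 h1
    have hy0 : 0 < y := by linarith
    have hG := (Gamma_pos_of_pos hy0).le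
    have hk : (0 : ℝ) ≤ k := Nat.cast_nonneg k
    push_cast at h1 ⊢
    rcases le_total δ 1 with hδ | hδ
    · refine (wendel_upper y δ hy0 h0 hδ).trans (mul_le_mul_of_nonneg_right ?_ hG)
      have h2 : y ^ δ ≤ y := by
        have := rpow_le_rpow_of_exponent_le hy hδ
        rwa [rpow_one] at this
      refine h2.trans ?_
      have h3 : (y + (k + 1)) ^ 1 ≤ (y + ((k : ℝ) + 1)) ^ (k + 1) :=
        pow_le_pow_right₀ (by linarith) (by omega)
      rw [pow_one] at h3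
      linarith
    · have h2 := ih (y + 1) (δ - 1) (by linarith) (by linarith) (by linarith)
      have e : y + 1 + (δ - 1) = y + δ := by ring
      rw [e, Gamma_add_one hy0.ne'] at h2
      refine h2.trans ?_
      have e2 : y + 1 + (k : ℝ) = y + (k + 1) := by ring
      rw [e2, pow_succ, ← mul_assoc]
      refine mul_le_mul_of_nonneg_right ?_ hG
      exact mul_le_mul_of_nonneg_left (by linarith) (by positivity)

/-- lower bound for a shift by `δ ∈ [0,k]` -/
theorem gammaA_shift_lower (k : ℕ) : ∀ y δ : ℝ, 1 ≤ y → 0 ≤ δ → δ ≤ k →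
    (1 / 2) * Gamma y ≤ Gamma (y + δ) := by
  induction k with
  | zero =>
    intro y δ hy h0 h1
    have : δ = 0 := le_antisymm (by simpa using h1) h0
    have hG := (Gamma_pos_of_pos (by linarith : 0 < y)).le
    rw [this, add_zero]
    linarith
  | succ k ih =>
    intro y δ hy h0 h1
    have hy0 : 0 < y := by linarith
    have hG := (Gamma_pos_of_pos hy0).le
    push_cast at h1
    rcases le_total δ 1 with hδ | hδ
    · refine le_trans (mul_le_mul_of_nonneg_right ?_ hG) (wendel_lower y δ hy0 h0 hδ)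
      have h2 : 1 ≤ y ^ δ := one_le_rpow hy h0
      have hq0 : 0 < y / (y + δ) := by positivity
      have hq1 : y / (y + δ) ≤ 1 := by
        rw [div_le_one (by positivity)]
        linarith
      have h3 : y / (y + δ) ≤ (y / (y + δ)) ^ (1 - δ) := by
        have := rpow_le_rpow_of_exponent_ge hq0 hq1 (by linarith : 1 - δ ≤ 1)
        rwa [rpow_one] at this
      have h4 : 1 / 2 ≤ y / (y + δ) := by
        rw [div_le_div_iff₀ (by norm_num) (by positivity)]
        linarith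
      calc (1 / 2 : ℝ) = 1 * (1 / 2) := by ring
        _ ≤ y ^ δ * (y / (y + δ)) ^ (1 - δ) :=
          mul_le_mul h2 (h4.trans h3) (by norm_num) (by positivity)
    · have h2 := ih (y + 1) (δ - 1) (by linarith) (by linarith) (by linarith)
      have e : y + 1 + (δ - 1) = y + δ := by ring
      rw [e, Gamma_add_one hy0.ne'] at h2
      refine le_trans ?_ h2
      nlinarith

/-- shifting the argument by a constant costs a polynomial factor -/
theorem gamma_shift_compare (c : ℝ) (hc : 1 ≤ c) :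
    ∃ (C : ℝ) (m : ℕ), 0 < C ∧ ∀ u : ℝ, 0 ≤ u →
      C⁻¹ * Gamma (1 + u) ≤ Gamma (c + u) ∧ Gamma (c + u) ≤ C * (u + 1) ^ m * Gamma (1 + u) := by
  obtain ⟨k, hk⟩ := exists_nat_ge (c - 1)
  have hk0 : (0 : ℝ) ≤ k := Nat.cast_nonneg k
  have hK : (1 : ℝ) ≤ (1 + (k : ℝ)) ^ k := one_le_pow₀ (by linarith)
  refine ⟨2 * (1 + (k : ℝ)) ^ k, k, by positivity, fun u hu => ?_⟩
  have hG := (Gamma_pos_of_pos (by linarith : 0 < 1 + u)).le
  have e : c + u = 1 + u + (c - 1) := by ring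
  rw [e]
  constructor
  · refine le_trans (mul_le_mul_of_nonneg_right ?_ hG)
      (gammaA_shift_lower k (1 + u) (c - 1) (by linarith) (by linarith) hk)
    rw [one_div]
    exact inv_anti₀ (by norm_num) (by linarith)
  · refine (gammaA_shift_upper k (1 + u) (c - 1) (by linarith) (by linarith) hk).trans
      (mul_le_mul_of_nonneg_right ?_ hG)
    have h1 : (1 + u + (k : ℝ)) ^ k ≤ ((1 + (k : ℝ)) * (u + 1)) ^ k :=
      pow_le_pow_left₀ (by positivity) (by nlinarith) k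
    rw [mul_pow] at h1
    have h2 : 0 ≤ (1 + (k : ℝ)) ^ k * (u + 1) ^ k := by positivity
    linarith

end Claimed.Agent.R296.Rep
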