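import Claimed.Agent.R296.Rep.GammaA

/-!
# BB_Rep L3-B: `w_k(λ)` versus `d_λ^{-t}`  (replicas:W-comparison, scalar form)

`w = Γ(c)/Γ(c+tk) ∏ Γ(1+t l_i)/Γ(1+t δ_i)` and `d_λ^{-t} = (∏ l_i!)^t / ((k!)^t Δ(l)^t)`.
By `gamma_pow_compare`, `Γ(1+t l_i) ≍ t^{t l_i} (l_i!)^t` and, with `gamma_shift_compare`,
`Γ(c+tk) ≍ t^{tk} (k!)^t`, up to polynomial factors in `k` (`l_i ≤ k + d`);
`∏ t^{t l_i} = t^{tk} t^{t d(d-1)/2}`; `1 ≤ Δ(l) ≤ (k+d)^{d(d-1)/2}`.  No entropy function is needed.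
-/

set_option autoImplicit false
set_option linter.unusedVariables false

namespace Claimed.Agent.R296.Rep

open Real

theorem cMB_ge_one (d : ℕ) (hd : 1 ≤ d) (t : ℝ) (ht0 : 0 ≤ t) : 1 ≤ cMB d t := by
  unfold cMB
  have h1 : (1 : ℝ) ≤ d := by exact_mod_cast hd
  have h2 : 0 ≤ (1 + t) * ((d * (d - 1) / 2 : ℕ) : ℝ) := by positivity
  linarith

theorem gB_arg_pos (t : ℝ) (ht0 : 0 ≤ t) (n : ℕ) : 0 < 1 + t * (n : ℝ) := by positivity

theorem wLab_pos (d : ℕ) (hd : 1 ≤ d) (t : ℝ) (ht0 : 0 < t) (lam : Fin d → ℕ) :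
    0 < wLab d t lam := by
  have hc := cMB_ge_one d hd t ht0.le
  unfold wLab
  apply mul_pos
  · apply div_pos (Gamma_pos_of_pos (by linarith))
    apply Gamma_pos_of_pos
    have : 0 ≤ t * ((∑ i, lam i : ℕ) : ℝ) := by positivity
    linarith
  · apply Finset.prod_pos
    intro i _
    exact div_pos (Gamma_pos_of_pos (gB_arg_pos t ht0.le _)) (Gamma_pos_of_pos (gB_arg_pos t ht0.le _))

theorem gB_sh_lt {d : ℕ} {lam : Fin d → ℕ} (hl : Antitone lam) {i j : Fin d} (hij : i < j) :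
    sh d lam j < sh d lam i := by
  unfold sh stair
  have h1 := hl hij.le
  have h2 : (i : ℕ) < j := hij
  have h3 : (j : ℕ) < d := j.2
  omega

theorem gB_delta_factor {d : ℕ} {lam : Fin d → ℕ} (hl : Antitone lam) {i j : Fin d} (hij : i < j) :
    (1 : ℝ) ≤ (sh d lam i : ℝ) - sh d lam j := by
  have := gB_sh_lt hl hij
  have h2 : (sh d lam j : ℝ) + 1 ≤ sh d lam i := by exact_mod_cast this
  linarith

theorem dimLab_pos (d : ℕ) (lam : Fin d → ℕ) (hl : Antitone lam) : 0 < dimLab d lam := by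
  unfold dimLab
  apply div_pos
  · apply mul_pos (by exact_mod_cast Nat.factorial_pos _)
    apply Finset.prod_pos
    intro i _
    apply Finset.prod_pos
    intro j hj
    have := gB_delta_factor hl (Finset.mem_Ioi.mp hj)
    linarith
  · apply Finset.prod_pos
    intro i _
    exact_mod_cast Nat.factorial_pos _

theorem wLab_zero (d : ℕ) (hd : 1 ≤ d) (t : ℝ) (ht0 : 0 < t) : wLab d t (fun _ => 0) = 1 := by
  have hc := cMB_ge_one d hd t ht0.le
  unfold wLab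
  have h1 : Gamma (cMB d t) ≠ 0 := (Gamma_pos_of_pos (by linarith)).ne'
  have h2 : ∀ i : Fin d, Gamma (1 + t * (sh d (fun _ => 0) i : ℝ)) / Gamma (1 + t * (stair d i : ℝ)) = 1 := by
    intro i
    have : sh d (fun _ => 0) i = stair d i := by simp [sh]
    rw [this]
    exact div_self (Gamma_pos_of_pos (gB_arg_pos t ht0.le _)).ne'
  simp only [h2, Finset.prod_const_one, Finset.sum_const_zero, Nat.cast_zero, mul_zero, add_zero,
    mul_one]
  exact div_self h1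

/-- exact ratio along a branch (replicas:ratio-eigenvalue) -/
theorem wLab_div_subBox (d : ℕ) (hd : 1 ≤ d) (t : ℝ) (ht0 : 0 < t) (k : ℕ) (lam : Fin d → ℕ)
    (hl : IsLab d k lam) (i : Fin d) (hi : 1 ≤ lam i) :
    wLab d t lam / wLab d t (subBox lam i) = rhoMB d t k (sh d lam i) := by
  have hc := cMB_ge_one d hd t ht0.le
  have hk : ∑ j, lam j = k := hl.2
  have hk1 : 1 ≤ k := by
    rw [← hk]
    exact hi.trans (Finset.single_le_sum (f := lam) (fun _ _ => Nat.zero_le _) (Finset.mem_univ i))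
  have hsum : ∑ j, subBox lam i j = k - 1 := by
    have h1 : ∑ j, subBox lam i j + 1 = ∑ j, lam j := by
      unfold subBox
      rw [← Finset.add_sum_erase _ _ (Finset.mem_univ i), ← Finset.add_sum_erase _ lam (Finset.mem_univ i)]
      have : ∑ x ∈ Finset.univ.erase i, Function.update lam i (lam i - 1) x
          = ∑ x ∈ Finset.univ.erase i, lam x := by
        refine Finset.sum_congr rfl fun x hx => ?_
        rw [Function.update_of_ne (Finset.ne_of_mem_erase hx)]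
      rw [this, Function.update_self]
      omega
    omega
  have hshi : sh d (subBox lam i) i = sh d lam i - 1 := by
    unfold sh subBox
    rw [Function.update_self]
    omega
  have hshj : ∀ j, j ≠ i → sh d (subBox lam i) j = sh d lam j := by
    intro j hj
    unfold sh subBox
    rw [Function.update_of_ne hj]
  have hli : 1 ≤ sh d lam i := by unfold sh; omega
  unfold wLab rhoMB
  rw [hk, hsum]
  rw [← Finset.mul_prod_erase _ _ (Finset.mem_univ i),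
    ← Finset.mul_prod_erase _ (fun j => Gamma (1 + t * (sh d (subBox lam i) j : ℝ)) /
      Gamma (1 + t * (stair d j : ℝ))) (Finset.mem_univ i)]
  have hrest : ∏ x ∈ Finset.univ.erase i, (Gamma (1 + t * (sh d (subBox lam i) x : ℝ)) /
      Gamma (1 + t * (stair d x : ℝ)))
      = ∏ x ∈ Finset.univ.erase i, (Gamma (1 + t * (sh d lam x : ℝ)) /
      Gamma (1 + t * (stair d x : ℝ))) := by
    refine Finset.prod_congr rfl fun x hx => ?_
    rw [hshj x (Finset.ne_of_mem_erase hx)]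
  rw [hrest, hshi]
  have c1 : ((k - 1 : ℕ) : ℝ) = (k : ℝ) - 1 := by
    rw [Nat.cast_sub hk1]; simp
  have c2 : ((sh d lam i - 1 : ℕ) : ℝ) = (sh d lam i : ℝ) - 1 := by
    rw [Nat.cast_sub hli]; simp
  rw [c1, c2]
  have hk1' : (1 : ℝ) ≤ k := by exact_mod_cast hk1
  have hli' : (1 : ℝ) ≤ sh d lam i := by exact_mod_cast hli
  have p1 : Gamma (cMB d t) ≠ 0 := (Gamma_pos_of_pos (by linarith)).ne'
  have p2 : Gamma (cMB d t + t * (k : ℝ)) ≠ 0 :=
    (Gamma_pos_of_pos (by have : 0 ≤ t * (k : ℝ) := by positivity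
                          linarith)).ne'
  have p3 : Gamma (cMB d t + t * ((k : ℝ) - 1)) ≠ 0 :=
    (Gamma_pos_of_pos (by have : 0 ≤ t * ((k : ℝ) - 1) := mul_nonneg ht0.le (by linarith)
                          linarith)).ne'
  have p4 : Gamma (1 + t * (sh d lam i : ℝ)) ≠ 0 := (Gamma_pos_of_pos (gB_arg_pos t ht0.le _)).ne'
  have p5 : Gamma (1 + t * ((sh d lam i : ℝ) - 1)) ≠ 0 :=
    (Gamma_pos_of_pos (by have : 0 ≤ t * ((sh d lam i : ℝ) - 1) := mul_nonneg ht0.le (by linarith)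
                          linarith)).ne'
  have p6 : Gamma (1 + t * (stair d i : ℝ)) ≠ 0 := (Gamma_pos_of_pos (gB_arg_pos t ht0.le _)).ne'
  have p7 : ∏ x ∈ Finset.univ.erase i, (Gamma (1 + t * (sh d lam x : ℝ)) /
      Gamma (1 + t * (stair d x : ℝ))) ≠ 0 := by
    apply Finset.prod_ne_zero_iff.mpr
    intro x _
    exact (div_pos (Gamma_pos_of_pos (gB_arg_pos t ht0.le _))
      (Gamma_pos_of_pos (gB_arg_pos t ht0.le _))).ne'
  field_simp

/-! ### comparison up to a factor -/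

/-- `X` and `Y` agree up to the factor `B` -/
def gB_Cmp (B X Y : ℝ) : Prop := B⁻¹ * Y ≤ X ∧ X ≤ B * Y

theorem gB_Cmp.mul {B₁ B₂ X₁ X₂ Y₁ Y₂ : ℝ} (h₁ : gB_Cmp B₁ X₁ Y₁) (h₂ : gB_Cmp B₂ X₂ Y₂)
    (b₁ : 0 < B₁) (b₂ : 0 < B₂) (y₁ : 0 ≤ Y₁) (y₂ : 0 ≤ Y₂) :
    gB_Cmp (B₁ * B₂) (X₁ * X₂) (Y₁ * Y₂) := by
  have x₁ : 0 ≤ X₁ := le_trans (by positivity) h₁.1
  have x₂ : 0 ≤ X₂ := le_trans (by positivity) h₂.1
  constructor
  · calc (B₁ * B₂)⁻¹ * (Y₁ * Y₂) = (B₁⁻¹ * Y₁) * (B₂⁻¹ * Y₂) := by rw [mul_inv]; ring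
      _ ≤ X₁ * X₂ := mul_le_mul h₁.1 h₂.1 (by positivity) x₁
  · calc X₁ * X₂ ≤ (B₁ * Y₁) * (B₂ * Y₂) := mul_le_mul h₁.2 h₂.2 x₂ (by positivity)
      _ = B₁ * B₂ * (Y₁ * Y₂) := by ring

theorem gB_Cmp.inv {B X Y : ℝ} (h : gB_Cmp B X Y) (b : 0 < B) (x : 0 < X) (y : 0 < Y) :
    gB_Cmp B X⁻¹ Y⁻¹ := by
  constructor
  · rw [← mul_inv]
    exact inv_anti₀ x h.2
  · have h1 : X⁻¹ ≤ (B⁻¹ * Y)⁻¹ := inv_anti₀ (by positivity) h.1
    rwa [mul_inv, inv_inv] at h1

theorem gB_Cmp.mono {B B' X Y : ℝ} (h : gB_Cmp B X Y) (b : 0 < B) (hB : B ≤ B') (y : 0 ≤ Y) :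
    gB_Cmp B' X Y := by
  constructor
  · exact le_trans (mul_le_mul_of_nonneg_right (inv_anti₀ b hB) y) h.1
  · exact le_trans h.2 (mul_le_mul_of_nonneg_right hB y)

theorem gB_Cmp.trans {B₁ B₂ X Y Z : ℝ} (h₁ : gB_Cmp B₁ X Y) (h₂ : gB_Cmp B₂ Y Z)
    (b₁ : 0 < B₁) (b₂ : 0 < B₂) : gB_Cmp (B₁ * B₂) X Z := by
  constructor
  · calc (B₁ * B₂)⁻¹ * Z = B₁⁻¹ * (B₂⁻¹ * Z) := by rw [mul_inv]; ring
      _ ≤ B₁⁻¹ * Y := mul_le_mul_of_nonneg_left h₂.1 (by positivity)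
      _ ≤ X := h₁.1
  · calc X ≤ B₁ * Y := h₁.2
      _ ≤ B₁ * (B₂ * Z) := mul_le_mul_of_nonneg_left h₂.2 b₁.le
      _ = B₁ * B₂ * Z := by ring

theorem gB_Cmp.refl (X : ℝ) : gB_Cmp 1 X X := by
  constructor <;> simp

theorem gB_Cmp.prod {ι : Type} (s : Finset ι) {B : ℝ} {X Y : ι → ℝ} (b : 0 < B)
    (h : ∀ i ∈ s, gB_Cmp B (X i) (Y i)) (y : ∀ i ∈ s, 0 ≤ Y i) :
    gB_Cmp (B ^ s.card) (∏ i ∈ s, X i) (∏ i ∈ s, Y i) := by
  classical
  induction s using Finset.induction_on with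
  | empty => simpa using gB_Cmp.refl 1
  | insert a s ha ih =>
    rw [Finset.prod_insert ha, Finset.prod_insert ha, Finset.card_insert_of_notMem ha, pow_succ']
    exact (h a (Finset.mem_insert_self a s)).mul
      (ih (fun i hi => h i (Finset.mem_insert_of_mem hi)) fun i hi => y i (Finset.mem_insert_of_mem hi))
      b (by positivity) (y a (Finset.mem_insert_self a s))
      (Finset.prod_nonneg fun i hi => y i (Finset.mem_insert_of_mem hi))

/-- the Vandermonde factor -/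
noncomputable def gB_delta (d : ℕ) (lam : Fin d → ℕ) : ℝ :=
  ∏ i, ∏ j ∈ Finset.Ioi i, ((sh d lam i : ℝ) - sh d lam j)

theorem gB_sh_le {d k : ℕ} {lam : Fin d → ℕ} (hd : 1 ≤ d) (hl : IsLab d k lam) (i : Fin d) :
    (sh d lam i : ℝ) + 1 ≤ (d : ℝ) * ((k : ℝ) + 1) := by
  have h1 : lam i ≤ k := by
    rw [← hl.2]
    exact Finset.single_le_sum (f := lam) (fun _ _ => Nat.zero_le _) (Finset.mem_univ i)
  have h2 : sh d lam i + 1 ≤ k + d := by
    unfold sh stair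
    omega
  have h3 : k + d ≤ d * (k + 1) := by nlinarith
  have : sh d lam i + 1 ≤ d * (k + 1) := h2.trans h3
  exact_mod_cast this

theorem gB_delta_bounds {d k : ℕ} {lam : Fin d → ℕ} (hd : 1 ≤ d) (hl : IsLab d k lam) :
    1 ≤ gB_delta d lam ∧ gB_delta d lam ≤ ((d : ℝ) * ((k : ℝ) + 1)) ^ (d * d) := by
  set N : ℝ := (d : ℝ) * ((k : ℝ) + 1) with hN
  have hN1 : 1 ≤ N := by
    have := gB_sh_le hd hl ⟨0, hd⟩
    have h0 : (0 : ℝ) ≤ sh d lam ⟨0, hd⟩ := by positivity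
    linarith
  have hf : ∀ i : Fin d, ∀ j ∈ Finset.Ioi i,
      1 ≤ (sh d lam i : ℝ) - sh d lam j ∧ (sh d lam i : ℝ) - sh d lam j ≤ N := by
    intro i j hj
    refine ⟨gB_delta_factor hl.1 (Finset.mem_Ioi.mp hj), ?_⟩
    have := gB_sh_le hd hl i
    have h0 : (0 : ℝ) ≤ sh d lam j := by positivity
    linarith
  have hin : ∀ i : Fin d, 1 ≤ ∏ j ∈ Finset.Ioi i, ((sh d lam i : ℝ) - sh d lam j) ∧
      ∏ j ∈ Finset.Ioi i, ((sh d lam i : ℝ) - sh d lam j) ≤ N ^ d := by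
    intro i
    constructor
    · calc (1 : ℝ) = ∏ _j ∈ Finset.Ioi i, (1 : ℝ) := by simp
        _ ≤ _ := Finset.prod_le_prod (fun _ _ => zero_le_one) fun j hj => (hf i j hj).1
    · calc _ ≤ ∏ _j ∈ Finset.Ioi i, N :=
            Finset.prod_le_prod (fun j hj => le_trans zero_le_one (hf i j hj).1)
              fun j hj => (hf i j hj).2
        _ = N ^ (Finset.Ioi i).card := by simp
        _ ≤ N ^ d := by
            apply pow_le_pow_right₀ hN1
            simpa using Finset.card_le_univ (Finset.Ioi i)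
  unfold gB_delta
  constructor
  · calc (1 : ℝ) = ∏ _i : Fin d, (1 : ℝ) := by simp
      _ ≤ _ := Finset.prod_le_prod (fun _ _ => zero_le_one) fun i _ => (hin i).1
  · calc _ ≤ ∏ _i : Fin d, N ^ d :=
          Finset.prod_le_prod (fun i _ => le_trans zero_le_one (hin i).1) fun i _ => (hin i).2
      _ = N ^ (d * d) := by simp [← pow_mul]

theorem gB_sum_sh {d k : ℕ} {lam : Fin d → ℕ} (hl : IsLab d k lam) :
    ∑ i, sh d lam i = k + ∑ i, stair d i := by
  unfold sh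
  rw [Finset.sum_add_distrib, hl.2]

/-- scalar form of (replicas:W-comparison) -/
theorem wLab_compare (d : ℕ) (hd : 1 ≤ d) (t : ℝ) (ht0 : 0 < t) (ht1 : t ≤ 1) :
    ∃ (C : ℝ) (m : ℕ), 0 < C ∧ ∀ (k : ℕ) (lam : Fin d → ℕ), IsLab d k lam →
      (C * ((k : ℝ) + 1) ^ m)⁻¹ * (dimLab d lam) ^ (-t) ≤ wLab d t lam ∧
      wLab d t lam ≤ C * ((k : ℝ) + 1) ^ m * (dimLab d lam) ^ (-t) := by
  have hc := cMB_ge_one d hd t ht0.le
  obtain ⟨C₁, m₁, hC₁, h₁⟩ := gamma_pow_compare t ht0 ht1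
  obtain ⟨C₂, m₂, hC₂, h₂⟩ := gamma_shift_compare (cMB d t) hc
  set S : ℕ := ∑ i, stair d i with hS
  set G₀ : ℝ := Gamma (cMB d t) / ∏ i, Gamma (1 + t * (stair d i : ℝ)) with hG₀
  have hG₀pos : 0 < G₀ := div_pos (Gamma_pos_of_pos (by linarith))
    (Finset.prod_pos fun i _ => Gamma_pos_of_pos (gB_arg_pos t ht0.le _))
  set K₀ : ℝ := G₀ * t ^ (t * (S : ℝ)) with hK₀
  have hK₀pos : 0 < K₀ := mul_pos hG₀pos (rpow_pos_of_pos ht0 _)
  have hdpos : (0 : ℝ) < d := by exact_mod_cast hd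
  refine ⟨C₂ * C₁ * (C₁ * (d : ℝ) ^ m₁) ^ d * ((K₀ + K₀⁻¹) * (d : ℝ) ^ (d * d)),
    m₂ + m₁ + m₁ * d + d * d, by positivity, ?_⟩
  intro k lam hl
  set N : ℝ := (d : ℝ) * ((k : ℝ) + 1) with hN
  have hk1 : (1 : ℝ) ≤ (k : ℝ) + 1 := by
    have : (0 : ℝ) ≤ k := by positivity
    linarith
  have hNpos : 0 < N := by positivity
  have hN1 : 1 ≤ N := by
    have := gB_sh_le hd hl ⟨0, hd⟩
    have h0 : (0 : ℝ) ≤ sh d lam ⟨0, hd⟩ := by positivity
    linarith
  -- (a)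
  have ha : gB_Cmp (C₂ * ((k : ℝ) + 1) ^ m₂) (Gamma (cMB d t + t * k)) (Gamma (1 + t * k)) := by
    have hu : 0 ≤ t * (k : ℝ) := by positivity
    obtain ⟨l1, l2⟩ := h₂ (t * k) hu
    have hg : 0 < Gamma (1 + t * k) := Gamma_pos_of_pos (gB_arg_pos t ht0.le _)
    constructor
    · refine le_trans (mul_le_mul_of_nonneg_right ?_ hg.le) l1
      apply inv_anti₀ hC₂
      exact le_mul_of_one_le_right hC₂.le (one_le_pow₀ hk1)
    · refine le_trans l2 (mul_le_mul_of_nonneg_right ?_ hg.le)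
      apply mul_le_mul_of_nonneg_left _ hC₂.le
      apply pow_le_pow_left₀ (by positivity)
      have : t * (k : ℝ) ≤ 1 * k := mul_le_mul_of_nonneg_right ht1 (by positivity)
      linarith
  -- (b)
  have hb : gB_Cmp (C₁ * ((k : ℝ) + 1) ^ m₁) (Gamma (1 + t * k))
      (t ^ (t * k) * ((k.factorial : ℝ)) ^ t) := h₁ k
  -- (c)
  have hcmp : ∀ i ∈ (Finset.univ : Finset (Fin d)), gB_Cmp (C₁ * N ^ m₁)
      (Gamma (1 + t * (sh d lam i : ℝ)))
      (t ^ (t * (sh d lam i : ℝ)) * (((sh d lam i).factorial : ℝ)) ^ t) := by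
    intro i _
    have h := h₁ (sh d lam i)
    refine gB_Cmp.mono h (by positivity) ?_ (by positivity)
    apply mul_le_mul_of_nonneg_left _ hC₁.le
    exact pow_le_pow_left₀ (by positivity) (gB_sh_le hd hl i) _
  have hprod := gB_Cmp.prod Finset.univ (by positivity) hcmp (fun i _ => by positivity)
  rw [Finset.card_univ, Fintype.card_fin] at hprod
  -- (e)
  have hgc : 0 < Gamma (cMB d t + t * k) := Gamma_pos_of_pos (by
    have : 0 ≤ t * (k : ℝ) := by positivity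
    linarith)
  have hY : 0 < t ^ (t * (k : ℝ)) * ((k.factorial : ℝ)) ^ t := by positivity
  have hab := (ha.trans hb (by positivity) (by positivity)).inv (by positivity) hgc hY
  have hw : wLab d t lam = G₀ * ((Gamma (cMB d t + t * k))⁻¹ *
      ∏ i, Gamma (1 + t * (sh d lam i : ℝ))) := by
    unfold wLab
    rw [hl.2, Finset.prod_div_distrib, hG₀]
    field_simp
  have he := (gB_Cmp.refl G₀).mul (hab.mul hprod (by positivity) (by positivity) (by positivity)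
    (Finset.prod_nonneg fun i _ => by positivity)) one_pos (by positivity) hG₀pos.le
    (mul_nonneg (by positivity) (Finset.prod_nonneg fun i _ => by positivity))
  rw [← hw] at he
  -- (f)
  obtain ⟨hΔ1, hΔ2⟩ := gB_delta_bounds hd hl
  have hΔpos : 0 < gB_delta d lam := by linarith
  set P : ℝ := ∏ i, ((sh d lam i).factorial : ℝ) with hP
  have hPpos : 0 < P := Finset.prod_pos fun i _ => by exact_mod_cast Nat.factorial_pos _
  have hkf : (0 : ℝ) < k.factorial := by exact_mod_cast Nat.factorial_pos _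
  have hdim : (dimLab d lam) ^ (-t) = P ^ t / ((k.factorial : ℝ) ^ t * gB_delta d lam ^ t) := by
    have : dimLab d lam = (k.factorial : ℝ) * gB_delta d lam / P := by
      unfold dimLab gB_delta
      rw [hl.2]
    rw [this, rpow_neg (by positivity), div_rpow (by positivity) hPpos.le,
      mul_rpow hkf.le hΔpos.le, inv_div]
  have hf : G₀ * ((t ^ (t * (k : ℝ)) * ((k.factorial : ℝ)) ^ t)⁻¹ *
      ∏ i, (t ^ (t * (sh d lam i : ℝ)) * (((sh d lam i).factorial : ℝ)) ^ t))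
      = K₀ * gB_delta d lam ^ t * (dimLab d lam) ^ (-t) := by
    rw [Finset.prod_mul_distrib, ← rpow_sum_of_pos ht0, ← Finset.mul_sum,
      finsetProd_rpow _ _ (fun i _ => by positivity), hdim, hK₀]
    have hs : ∑ i, (sh d lam i : ℝ) = (k : ℝ) + (S : ℝ) := by
      have := gB_sum_sh hl
      rw [hS]
      exact_mod_cast this
    rw [hs, mul_add, rpow_add ht0]
    have e1 : (0 : ℝ) < t ^ (t * (k : ℝ)) := rpow_pos_of_pos ht0 _
    have e2 : (0 : ℝ) < (k.factorial : ℝ) ^ t := rpow_pos_of_pos hkf _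
    have e3 : (0 : ℝ) < gB_delta d lam ^ t := rpow_pos_of_pos hΔpos _
    field_simp
    rw [hP]
  rw [hf] at he
  -- (g)
  have hdimpos : 0 < (dimLab d lam) ^ (-t) := rpow_pos_of_pos (dimLab_pos d lam hl.1) _
  have hΔt1 : 1 ≤ gB_delta d lam ^ t := one_le_rpow hΔ1 ht0.le
  have hΔt2 : gB_delta d lam ^ t ≤ N ^ (d * d) := by
    calc gB_delta d lam ^ t ≤ gB_delta d lam ^ (1 : ℝ) :=
          rpow_le_rpow_of_exponent_le hΔ1 ht1
      _ = gB_delta d lam := rpow_one _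
      _ ≤ _ := hΔ2
  have hNdd : 1 ≤ N ^ (d * d) := one_le_pow₀ hN1
  have hg : gB_Cmp ((K₀ + K₀⁻¹) * N ^ (d * d)) (K₀ * gB_delta d lam ^ t * (dimLab d lam) ^ (-t))
      ((dimLab d lam) ^ (-t)) := by
    have hKinv : 0 < K₀⁻¹ := by positivity
    constructor
    · apply mul_le_mul_of_nonneg_right _ hdimpos.le
      calc ((K₀ + K₀⁻¹) * N ^ (d * d))⁻¹ ≤ (K₀⁻¹ * 1)⁻¹ := by
            apply inv_anti₀ (by positivity)
            exact mul_le_mul (by linarith) hNdd zero_le_one (by positivity)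
        _ = K₀ := by simp
        _ ≤ K₀ * gB_delta d lam ^ t := le_mul_of_one_le_right hK₀pos.le hΔt1
    · apply mul_le_mul_of_nonneg_right _ hdimpos.le
      exact mul_le_mul (by linarith) hΔt2 (by positivity) (by positivity)
  have hfin := he.trans hg (by positivity) (by positivity)
  have hB : 1 * (C₂ * ((k : ℝ) + 1) ^ m₂ * (C₁ * ((k : ℝ) + 1) ^ m₁) * (C₁ * N ^ m₁) ^ d) *
      ((K₀ + K₀⁻¹) * N ^ (d * d))
      = C₂ * C₁ * (C₁ * (d : ℝ) ^ m₁) ^ d * ((K₀ + K₀⁻¹) * (d : ℝ) ^ (d * d)) *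
        ((k : ℝ) + 1) ^ (m₂ + m₁ + m₁ * d + d * d) := by
    rw [hN]
    simp only [mul_pow, pow_add, pow_mul]
    ring
  rw [hB] at hfin
  exact hfin

end Claimed.Agent.R296.Rep
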