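import Claimed.Agent.R296.Rep.Dirichlet
import Claimed.Agent.R296.Rep.TensorB
import Claimed.Agent.R296.Rep.GammaB

/-!
# BB_Rep L3-M: the Muttalib-Borodin weight and the mean of the normalised Schur polynomial

Density on the orthant: `mbDens d t x = Δ(x) Δ(x^t) e^{-|x|} ≥ 0`.  For a label `λ ⊢ k`,
`s = x/|x|`:
 `s_λ(s^t) Δ(x^t) = |x|^{-tk} a_{l}(x^t)`  (`schurC_homogeneous`, `schurC_mul_vdm`),
 `a_l(x^t) Δ(x) = ∑_{w,w'} sign w sign w' ∏_i x_i^{t l_{w⁻¹ i} + δ_{w'⁻¹ i}}`, every term integrates by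
 `dirichlet_moment` with `|v| = t(k + d(d-1)/2) + d(d-1)/2`, `β = tk`, so
 `∫ s_λ(s^t) mbDens = Γ(c)/Γ(c+tk) · d! · det[Γ(1 + t l_i + δ_j)]`, and
 `det[Γ(1 + t l_i + δ_j)] = ∏ Γ(1 + t l_i) · det[(1 + t l_i)_{δ_j}] = ∏ Γ(1+t l_i) t^{d(d-1)/2} Δ(l)`
 (rising factorials are monic polynomials: `Matrix.det_eval_matrixOfPolynomials_eq_det_vandermonde`).
 Divide by the case `k = 0` and by `weyl_dim`.
-/

set_option autoImplicit false

namespace Claimed.Agent.R296.Rep

open Real MeasureTheory Equiv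

/-- the Muttalib-Borodin density on the orthant -/
noncomputable def mbDens (d : ℕ) (t : ℝ) (x : Fin d → ℝ) : ℝ :=
  (∏ i, ∏ j ∈ Finset.Ioi i, (x i - x j)) * (∏ i, ∏ j ∈ Finset.Ioi i, (x i ^ t - x j ^ t))
    * exp (-∑ i, x i)

/-- its total mass -/
noncomputable def mbZ (d : ℕ) (t : ℝ) : ℝ := ∫ x in orth d, mbDens d t x

/-- the sample point: `(x_i / |x|)^t` -/
noncomputable def mbPoint (d : ℕ) (t : ℝ) (x : Fin d → ℝ) (i : Fin d) : ℝ :=
  (x i / ∑ j, x j) ^ t

theorem mbDens_nonneg (d : ℕ) (t : ℝ) (ht0 : 0 < t) (x : Fin d → ℝ) (hx : x ∈ orth d) :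
    0 ≤ mbDens d t x := by
  unfold mbDens
  refine mul_nonneg ?_ (exp_nonneg _)
  rw [← Finset.prod_mul_distrib]
  refine Finset.prod_nonneg fun i _ => ?_
  rw [← Finset.prod_mul_distrib]
  refine Finset.prod_nonneg fun j _ => ?_
  rcases le_total (x i) (x j) with h | h
  · have := Real.rpow_le_rpow (hx i).le h ht0.le
    exact mul_nonneg_of_nonpos_of_nonpos (by linarith) (by linarith)
  · have := Real.rpow_le_rpow (hx j).le h ht0.le
    exact mul_nonneg (by linarith) (by linarith)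

/-- the shifted rising factorial polynomial `(X+1)(X+2)⋯(X+n)` -/
noncomputable def mbRise (n : ℕ) : Polynomial ℝ :=
  ∏ m ∈ Finset.range n, (Polynomial.X + Polynomial.C ((m : ℝ) + 1))

theorem mbRise_monic (n : ℕ) : (mbRise n).Monic :=
  Polynomial.monic_prod_of_monic _ _ fun _ _ => Polynomial.monic_X_add_C _

theorem mbRise_natDegree (n : ℕ) : (mbRise n).natDegree = n := by
  unfold mbRise
  rw [Polynomial.natDegree_prod_of_monic _ _ fun m _ => Polynomial.monic_X_add_C _]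
  simp only [Polynomial.natDegree_X_add_C]
  simp

theorem mb_gamma_add_nat (u : ℝ) (hu : 0 ≤ u) (n : ℕ) :
    Gamma (1 + u + n) = Gamma (1 + u) * (mbRise n).eval u := by
  induction n with
  | zero => simp [mbRise]
  | succ n ih =>
    have h1 : 1 + u + ((n + 1 : ℕ) : ℝ) = (1 + u + n) + 1 := by push_cast; ring
    rw [h1, Real.Gamma_add_one (by positivity), ih]
    unfold mbRise
    rw [Finset.prod_range_succ, Polynomial.eval_mul]
    simp only [Polynomial.eval_add, Polynomial.eval_X, Polynomial.eval_C]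
    ring

/-- determinant of Gamma values -/
theorem det_gamma (d : ℕ) (u : Fin d → ℝ) (hu : ∀ i, 0 ≤ u i) :
    Matrix.det (Matrix.of fun i j : Fin d => Gamma (1 + u i + stair d j))
      = (∏ i, Gamma (1 + u i)) * ∏ i, ∏ j ∈ Finset.Ioi i, (u i - u j) := by
  have h1 : (Matrix.of fun i j : Fin d => Gamma (1 + u i + stair d j))
      = Matrix.of fun i j : Fin d => Gamma (1 + u i) *
          (Matrix.of fun i j : Fin d => (mbRise (stair d j)).eval (u i)) i j := by
    ext i j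
    simp only [Matrix.of_apply]
    exact mb_gamma_add_nat (u i) (hu i) _
  rw [h1, Matrix.det_mul_column]
  congr 1
  rw [← altA_stair, altA]
  have h2 := Matrix.det_eval_matrixOfPolynomials_eq_det_vandermonde u
    (fun j : Fin d => mbRise j) (fun j => mbRise_natDegree j) (fun j => mbRise_monic j)
  have h3 : (Matrix.of fun i j : Fin d => (mbRise (stair d j)).eval (u i))
      = (Matrix.of fun i j : Fin d => (mbRise j).eval (u i)).submatrix id
          (Fin.revPerm : Perm (Fin d)) := by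
    ext i j
    simp only [Matrix.of_apply, Matrix.submatrix_apply, id, Fin.revPerm_apply, Fin.val_rev, stair]
    congr 2
    omega
  have h4 : (Matrix.of fun i j : Fin d => u i ^ stair d j)
      = (Matrix.vandermonde u).submatrix id (Fin.revPerm : Perm (Fin d)) := by
    ext i j
    simp only [Matrix.of_apply, Matrix.submatrix_apply, id, Fin.revPerm_apply, Fin.val_rev, stair,
      Matrix.vandermonde_apply]
    congr 1
    omega
  rw [h3, h4, Matrix.det_permute', Matrix.det_permute', h2]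

/-- alternant with real exponents -/
noncomputable def mbAlt (d : ℕ) (m : Fin d → ℝ) (x : Fin d → ℝ) : ℝ :=
  ∑ w : Perm (Fin d), ((Perm.sign w : ℤ) : ℝ) * ∏ i, x (w i) ^ m i

/-- exponent vector attached to a pair of permutations -/
def mbExp (d : ℕ) (m : Fin d → ℝ) (w w' : Perm (Fin d)) (i : Fin d) : ℝ :=
  m (w.symm i) + (stair d (w'.symm i) : ℝ)

theorem mbExp_sum (d : ℕ) (m : Fin d → ℝ) (w w' : Perm (Fin d)) :
    ∑ i, mbExp d m w w' i = ∑ i, m i + ∑ i, (stair d i : ℝ) := by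
  unfold mbExp
  rw [Finset.sum_add_distrib, Equiv.sum_comp w.symm m,
    Equiv.sum_comp w'.symm fun i => (stair d i : ℝ)]

theorem mb_term (d : ℕ) (m : Fin d → ℝ) (w w' : Perm (Fin d)) (x : Fin d → ℝ) (hx : x ∈ orth d) :
    (∏ i, x (w i) ^ m i) * (∏ i, x (w' i) ^ stair d i) = ∏ i, x i ^ mbExp d m w w' i := by
  have e1 : ∏ i, x (w i) ^ m i = ∏ i, x i ^ m (w.symm i) := by
    rw [← Equiv.prod_comp w fun i => x i ^ m (w.symm i)]; simp
  have e2 : ∏ i, x (w' i) ^ stair d i = ∏ i, x i ^ stair d (w'.symm i) := by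
    rw [← Equiv.prod_comp w' fun i => x i ^ stair d (w'.symm i)]; simp
  rw [e1, e2, ← Finset.prod_mul_distrib]
  refine Finset.prod_congr rfl fun i _ => ?_
  rw [mbExp, Real.rpow_add (hx i), Real.rpow_natCast]

theorem mb_expand (d : ℕ) (m : Fin d → ℝ) (β : ℝ) (x : Fin d → ℝ) (hx : x ∈ orth d) :
    mbAlt d m x * (∏ i, ∏ j ∈ Finset.Ioi i, (x i - x j)) * (∑ i, x i) ^ (-β) * exp (-∑ i, x i)
      = ∑ w : Perm (Fin d), ∑ w' : Perm (Fin d),
          (((Perm.sign w : ℤ) : ℝ) * ((Perm.sign w' : ℤ) : ℝ)) *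
            ((∏ i, x i ^ mbExp d m w w' i) * (∑ i, x i) ^ (-β) * exp (-∑ i, x i)) := by
  rw [← altA_stair, altA_eq_sum, mbAlt, Finset.sum_mul_sum, Finset.sum_mul, Finset.sum_mul]
  refine Finset.sum_congr rfl fun w _ => ?_
  rw [Finset.sum_mul, Finset.sum_mul]
  refine Finset.sum_congr rfl fun w' _ => ?_
  rw [← mb_term d m w w' x hx]
  ring

theorem mb_sum_gamma (d : ℕ) (m : Fin d → ℝ) :
    ∑ w : Perm (Fin d), ∑ w' : Perm (Fin d),
      (((Perm.sign w : ℤ) : ℝ) * ((Perm.sign w' : ℤ) : ℝ)) * ∏ i, Gamma (1 + mbExp d m w w' i)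
      = (d.factorial : ℝ) * Matrix.det (Matrix.of fun i j : Fin d => Gamma (1 + m i + stair d j)) := by
  have h1 : ∀ w : Perm (Fin d), ∑ w' : Perm (Fin d),
      (((Perm.sign w : ℤ) : ℝ) * ((Perm.sign w' : ℤ) : ℝ)) * ∏ i, Gamma (1 + mbExp d m w w' i)
      = Matrix.det (Matrix.of fun i j : Fin d => Gamma (1 + m i + stair d j)) := by
    intro w
    rw [← Matrix.det_transpose, Matrix.det_apply']
    rw [← Equiv.sum_comp ((Equiv.inv (Perm (Fin d))).trans (Equiv.mulLeft w)) fun w' =>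
      (((Perm.sign w : ℤ) : ℝ) * ((Perm.sign w' : ℤ) : ℝ)) * ∏ i, Gamma (1 + mbExp d m w w' i)]
    refine Finset.sum_congr rfl fun σ _ => ?_
    simp only [Equiv.trans_apply, Equiv.inv_apply, Equiv.coe_mulLeft, Perm.sign_mul,
      Perm.sign_inv, Matrix.transpose_apply, Matrix.of_apply]
    have hs : ((Perm.sign w : ℤ) : ℝ) * ((Perm.sign w : ℤ) : ℝ) = 1 := by
      rw [← Int.cast_mul, ← Units.val_mul, Int.units_mul_self]; simp
    congr 1
    · push_cast
      rw [← mul_assoc, hs, one_mul]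
    · rw [← Equiv.prod_comp w fun i => Gamma (1 + mbExp d m w (w * σ⁻¹) i)]
      refine Finset.prod_congr rfl fun i _ => ?_
      have : (w * σ⁻¹).symm (w i) = σ i := by
        rw [← Perm.inv_def, mul_inv_rev, inv_inv, Perm.mul_apply]
        simp
      simp only [mbExp, Equiv.symm_apply_apply, this]
      rw [add_assoc]
  simp only [h1]
  simp [Fintype.card_perm]

/-- integrability of the alternant times Vandermonde -/
theorem mb_core_integrable (d : ℕ) (m : Fin d → ℝ) (hm : ∀ i, 0 ≤ m i) (β : ℝ) (hβ0 : 0 ≤ β)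
    (hβ : β < d + (∑ i, m i + ∑ i, (stair d i : ℝ))) :
    IntegrableOn (fun x : Fin d → ℝ => mbAlt d m x * (∏ i, ∏ j ∈ Finset.Ioi i, (x i - x j)) *
      (∑ i, x i) ^ (-β) * exp (-∑ i, x i)) (orth d) := by
  have h1 : IntegrableOn (fun x : Fin d → ℝ => ∑ w : Perm (Fin d), ∑ w' : Perm (Fin d),
          (((Perm.sign w : ℤ) : ℝ) * ((Perm.sign w' : ℤ) : ℝ)) *
            ((∏ i, x i ^ mbExp d m w w' i) * (∑ i, x i) ^ (-β) * exp (-∑ i, x i))) (orth d) := by
    refine integrable_finsetSum _ fun w _ => integrable_finsetSum _ fun w' _ => ?_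
    refine Integrable.const_mul ?_ _
    refine dirichlet_integrable d (mbExp d m w w') (fun i => ?_) β hβ0 (by rwa [mbExp_sum])
    have : 0 ≤ mbExp d m w w' i := add_nonneg (hm _) (Nat.cast_nonneg _)
    linarith
  refine h1.congr_fun (fun x hx => (mb_expand d m β x hx).symm) (measurableSet_orth d)

/-- **core computation** -/
theorem mb_core (d : ℕ) (m : Fin d → ℝ) (hm : ∀ i, 0 ≤ m i) (β : ℝ) (hβ0 : 0 ≤ β)
    (hβ : β < d + (∑ i, m i + ∑ i, (stair d i : ℝ))) :
    ∫ x in orth d, mbAlt d m x * (∏ i, ∏ j ∈ Finset.Ioi i, (x i - x j)) *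
      (∑ i, x i) ^ (-β) * exp (-∑ i, x i)
      = (d.factorial : ℝ) * Matrix.det (Matrix.of fun i j : Fin d => Gamma (1 + m i + stair d j))
        * (Gamma (d + (∑ i, m i + ∑ i, (stair d i : ℝ)) - β)
            / Gamma (d + (∑ i, m i + ∑ i, (stair d i : ℝ)))) := by
  have hpos : ∀ w w' i, -1 < mbExp d m w w' i := fun w w' i => by
    have : 0 ≤ mbExp d m w w' i := add_nonneg (hm _) (Nat.cast_nonneg _)
    linarith
  have hint : ∀ w w' : Perm (Fin d), IntegrableOn (fun x : Fin d → ℝ =>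
      (((Perm.sign w : ℤ) : ℝ) * ((Perm.sign w' : ℤ) : ℝ)) *
        ((∏ i, x i ^ mbExp d m w w' i) * (∑ i, x i) ^ (-β) * exp (-∑ i, x i))) (orth d) :=
    fun w w' => Integrable.const_mul
      (dirichlet_integrable d (mbExp d m w w') (hpos w w') β hβ0 (by rwa [mbExp_sum])) _
  rw [setIntegral_congr_fun (measurableSet_orth d) fun x hx => mb_expand d m β x hx]
  rw [integral_finsetSum _ fun w _ => integrable_finsetSum _ fun w' _ => hint w w']
  simp_rw [integral_finsetSum _ fun w' _ => hint _ w', integral_const_mul]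
  simp_rw [fun w w' => dirichlet_moment d (mbExp d m w w') (hpos w w') β hβ0
    (by rwa [mbExp_sum]), mbExp_sum]
  rw [← mb_sum_gamma, Finset.sum_mul]
  refine Finset.sum_congr rfl fun w _ => ?_
  rw [Finset.sum_mul]
  refine Finset.sum_congr rfl fun w' _ => ?_
  ring


/-! ### the density as an alternant times a Vandermonde -/

theorem mb_vdm_rpow (d : ℕ) (t : ℝ) (x : Fin d → ℝ) (hx : x ∈ orth d) :
    ∏ i, ∏ j ∈ Finset.Ioi i, (x i ^ t - x j ^ t) = mbAlt d (fun i => t * (stair d i : ℝ)) x := by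
  rw [← altA_stair (fun i => x i ^ t), altA_eq_sum, mbAlt]
  refine Finset.sum_congr rfl fun w _ => ?_
  congr 1
  refine Finset.prod_congr rfl fun i _ => ?_
  rw [Real.rpow_mul (hx _).le, Real.rpow_natCast]

theorem mbDens_eq (d : ℕ) (t : ℝ) (x : Fin d → ℝ) (hx : x ∈ orth d) :
    mbDens d t x = mbAlt d (fun i => t * (stair d i : ℝ)) x *
      (∏ i, ∏ j ∈ Finset.Ioi i, (x i - x j)) * (∑ i, x i) ^ (-(0 : ℝ)) * exp (-∑ i, x i) := by
  rw [mbDens, mb_vdm_rpow d t x hx, neg_zero, Real.rpow_zero]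
  ring

theorem mb_zero_lt (d : ℕ) (hd : 1 ≤ d) (m : Fin d → ℝ) (hm : ∀ i, 0 ≤ m i) :
    (0 : ℝ) < d + (∑ i, m i + ∑ i, (stair d i : ℝ)) := by
  have h1 : (1 : ℝ) ≤ d := by exact_mod_cast hd
  have h2 : 0 ≤ ∑ i, m i := Finset.sum_nonneg fun i _ => hm i
  have h3 : (0 : ℝ) ≤ ∑ i, (stair d i : ℝ) := Finset.sum_nonneg fun i _ => Nat.cast_nonneg _
  linarith

theorem mbDens_integrable (d : ℕ) (t : ℝ) (ht0 : 0 < t) : IntegrableOn (mbDens d t) (orth d) := by
  rcases Nat.eq_zero_or_pos d with rfl | hd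
  · have : mbDens 0 t = fun _ => 1 := by funext x; simp [mbDens]
    rw [this]
    exact integrableOn_const (by simp [orth])
  · have hm : ∀ i : Fin d, 0 ≤ t * (stair d i : ℝ) := fun i => by positivity
    exact (mb_core_integrable d _ hm 0 le_rfl (mb_zero_lt d hd _ hm)).congr_fun
      (fun x hx => (mbDens_eq d t x hx).symm) (measurableSet_orth d)

theorem mbZ_eq (d : ℕ) (hd : 1 ≤ d) (t : ℝ) (ht0 : 0 < t) :
    mbZ d t = (d.factorial : ℝ) * ((∏ i : Fin d, Gamma (1 + t * (stair d i : ℝ))) *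
      ∏ i : Fin d, ∏ j ∈ Finset.Ioi i, (t * (stair d i : ℝ) - t * (stair d j : ℝ))) := by
  have hm : ∀ i : Fin d, 0 ≤ t * (stair d i : ℝ) := fun i => by positivity
  have hpos := mb_zero_lt d hd _ hm
  rw [mbZ, setIntegral_congr_fun (measurableSet_orth d) fun x hx => mbDens_eq d t x hx,
    mb_core d _ hm 0 le_rfl hpos, det_gamma d _ hm, sub_zero, div_self (Gamma_pos_of_pos hpos).ne',
    mul_one]

theorem mb_stair_sub (d : ℕ) (i j : Fin d) (hij : i < j) :
    (stair d i : ℝ) - (stair d j : ℝ) = (j : ℝ) - (i : ℝ) := by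
  have h1 : (i : ℕ) < j := hij
  have h2 : (j : ℕ) < d := j.2
  have e1 : stair d i = d - 1 - i := rfl
  have e2 : stair d j = d - 1 - j := rfl
  have e3 : stair d i = stair d j + (j - i) := by omega
  rw [e3, Nat.cast_add, Nat.cast_sub h1.le]
  ring

theorem mbZ_pos (d : ℕ) (t : ℝ) (ht0 : 0 < t) : 0 < mbZ d t := by
  rcases Nat.eq_zero_or_pos d with rfl | hd
  · have : mbDens 0 t = fun _ => 1 := by funext x; simp [mbDens]
    rw [mbZ, this]
    simp [orth]
  · rw [mbZ_eq d hd t ht0]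
    refine mul_pos (by positivity) (mul_pos ?_ ?_)
    · exact Finset.prod_pos fun i _ => Gamma_pos_of_pos (by positivity)
    · refine Finset.prod_pos fun i _ => Finset.prod_pos fun j hj => ?_
      have hij : i < j := Finset.mem_Ioi.1 hj
      rw [← mul_sub, mb_stair_sub d i j hij]
      have : (i : ℝ) < (j : ℝ) := by exact_mod_cast hij
      exact mul_pos ht0 (by linarith)

/-! ### the Schur polynomial against the density -/

variable {κ : Type} [Fintype κ] [DecidableEq κ]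

theorem mb_schur_pointwise (d : ℕ) (hd : 1 ≤ d) (t : ℝ) (lam : Fin d → ℕ)
    (hl : IsLab d (Fintype.card κ) lam) (x : Fin d → ℝ) (hx : x ∈ orth d) :
    schurC κ d lam (fun i => ((mbPoint d t x i : ℝ) : ℂ)) * ((mbDens d t x : ℝ) : ℂ)
      = ((mbAlt d (fun i => t * (sh d lam i : ℝ)) x * (∏ i, ∏ j ∈ Finset.Ioi i, (x i - x j)) *
          (∑ i, x i) ^ (-(t * (Fintype.card κ : ℝ))) * exp (-∑ i, x i) : ℝ) : ℂ) := by
  have hS : 0 < ∑ i, x i :=
    Finset.sum_pos (fun i _ => hx i) ⟨⟨0, hd⟩, Finset.mem_univ _⟩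
  set S := ∑ i, x i with hSdef
  set c : ℂ := ((S ^ (-t) : ℝ) : ℂ) with hc
  set Xc : Fin d → ℂ := fun i => ((x i ^ t : ℝ) : ℂ) with hXc
  have hpt : (fun i => ((mbPoint d t x i : ℝ) : ℂ)) = fun i => c * Xc i := by
    funext i
    simp only [mbPoint, hc, hXc]
    rw [← hSdef, Real.div_rpow (hx i).le hS.le, Real.rpow_neg hS.le, ← Complex.ofReal_mul]
    congr 1
    rw [div_eq_mul_inv, mul_comm]
  have hv : MvPolynomial.aeval Xc (vdm d)
      = ((∏ i, ∏ j ∈ Finset.Ioi i, (x i ^ t - x j ^ t) : ℝ) : ℂ) := by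
    simp only [vdm, map_prod, map_sub, MvPolynomial.aeval_X, hXc]
    push_cast
    rfl
  have ha : MvPolynomial.aeval Xc (alt d (sh d lam))
      = ((mbAlt d (fun i => t * (sh d lam i : ℝ)) x : ℝ) : ℂ) := by
    unfold alt mbAlt
    rw [map_sum, Complex.ofReal_sum]
    refine Finset.sum_congr rfl fun w _ => ?_
    rw [map_zsmul, zsmul_eq_mul, map_prod, Complex.ofReal_mul, Complex.ofReal_prod,
      Complex.ofReal_intCast]
    congr 1
    refine Finset.prod_congr rfl fun i _ => ?_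
    rw [map_pow, MvPolynomial.aeval_X, hXc]
    simp only
    rw [← Complex.ofReal_pow, ← Real.rpow_natCast, ← Real.rpow_mul (hx _).le]
  have hck : c ^ Fintype.card κ = ((S ^ (-(t * (Fintype.card κ : ℝ))) : ℝ) : ℂ) := by
    rw [hc, ← Complex.ofReal_pow, ← Real.rpow_natCast, ← Real.rpow_mul hS.le]
    congr 2
    ring
  rw [hpt, schurC_homogeneous, hck]
  have hD : ((mbDens d t x : ℝ) : ℂ) = ((∏ i, ∏ j ∈ Finset.Ioi i, (x i - x j) : ℝ) : ℂ) *
      MvPolynomial.aeval Xc (vdm d) * ((exp (-S) : ℝ) : ℂ) := by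
    rw [hv, mbDens, ← hSdef]
    push_cast
    rfl
  rw [hD]
  calc ((S ^ (-(t * (Fintype.card κ : ℝ))) : ℝ) : ℂ) * schurC κ d lam Xc *
        (((∏ i, ∏ j ∈ Finset.Ioi i, (x i - x j) : ℝ) : ℂ) * MvPolynomial.aeval Xc (vdm d) *
          ((exp (-S) : ℝ) : ℂ))
      = (schurC κ d lam Xc * MvPolynomial.aeval Xc (vdm d)) *
          ((∏ i, ∏ j ∈ Finset.Ioi i, (x i - x j) : ℝ) : ℂ) *
          ((S ^ (-(t * (Fintype.card κ : ℝ))) : ℝ) : ℂ) * ((exp (-S) : ℝ) : ℂ) := by ring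
    _ = _ := by
        rw [schurC_mul_vdm d lam hl, ha]
        push_cast
        rfl

theorem mb_sum_sh (d : ℕ) (t : ℝ) (lam : Fin d → ℕ) (k : ℕ) (hl : IsLab d k lam) :
    (d : ℝ) + (∑ i, t * (sh d lam i : ℝ) + ∑ i, (stair d i : ℝ)) = cMB d t + t * (k : ℝ) := by
  have h1 : ∑ i, (stair d i : ℝ) = ((d * (d - 1) / 2 : ℕ) : ℝ) := by
    rw [← sum_stair d]; push_cast; rfl
  have h2 : ∑ i, (sh d lam i : ℝ) = (k : ℝ) + ((d * (d - 1) / 2 : ℕ) : ℝ) := by
    rw [← h1, ← hl.2]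
    simp only [sh]
    push_cast
    rw [Finset.sum_add_distrib]
  rw [← Finset.mul_sum, h1, h2, cMB]
  ring

theorem mb_beta_lt (d : ℕ) (hd : 1 ≤ d) (t : ℝ) (ht0 : 0 < t) (lam : Fin d → ℕ) (k : ℕ)
    (hl : IsLab d k lam) :
    t * (k : ℝ) < (d : ℝ) + (∑ i, t * (sh d lam i : ℝ) + ∑ i, (stair d i : ℝ)) := by
  rw [mb_sum_sh d t lam k hl]
  have := cMB_ge_one d hd t ht0.le
  linarith

theorem mb_schur_integrable (d : ℕ) (hd : 1 ≤ d) (t : ℝ) (ht0 : 0 < t) (lam : Fin d → ℕ)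
    (hl : IsLab d (Fintype.card κ) lam) :
    IntegrableOn (fun x : Fin d → ℝ =>
      schurC κ d lam (fun i => ((mbPoint d t x i : ℝ) : ℂ)) * ((mbDens d t x : ℝ) : ℂ)) (orth d) := by
  have hm : ∀ i : Fin d, 0 ≤ t * (sh d lam i : ℝ) := fun i => by positivity
  have h1 : IntegrableOn (fun x : Fin d → ℝ =>
      ((mbAlt d (fun i => t * (sh d lam i : ℝ)) x * (∏ i, ∏ j ∈ Finset.Ioi i, (x i - x j)) *
          (∑ i, x i) ^ (-(t * (Fintype.card κ : ℝ))) * exp (-∑ i, x i) : ℝ) : ℂ)) (orth d) :=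
    Integrable.ofReal (mb_core_integrable d _ hm (t * (Fintype.card κ : ℝ)) (by positivity)
      (mb_beta_lt d hd t ht0 lam _ hl))
  exact h1.congr_fun (fun x hx => (mb_schur_pointwise d hd t lam hl x hx).symm)
    (measurableSet_orth d)

/-- **the mean of `s_λ(s^t)/s_λ(1)` is `w_k(λ)`** -/
theorem mb_schur_moment (d : ℕ) (hd : 1 ≤ d) (t : ℝ) (ht0 : 0 < t) (lam : Fin d → ℕ)
    (hl : IsLab d (Fintype.card κ) lam) :
    ∫ x in orth d, schurC κ d lam (fun i => ((mbPoint d t x i : ℝ) : ℂ)) * ((mbDens d t x : ℝ) : ℂ)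
      = ((mbZ d t * wLab d t lam : ℝ) : ℂ) * schurC κ d lam (fun _ => 1) := by
  have hm : ∀ i : Fin d, 0 ≤ t * (sh d lam i : ℝ) := fun i => by positivity
  rw [setIntegral_congr_fun (measurableSet_orth d)
    fun x hx => mb_schur_pointwise d hd t lam hl x hx, integral_complex_ofReal,
    mb_core d _ hm (t * (Fintype.card κ : ℝ)) (by positivity) (mb_beta_lt d hd t ht0 lam _ hl),
    det_gamma d _ hm, mb_sum_sh d t lam _ hl, add_sub_cancel_right, weyl_dim d lam hl,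
    mbZ_eq d hd t ht0, wLab, hl.2]
  have hw : (∏ i : Fin d, ∏ j ∈ Finset.Ioi i, (((sh d lam i : ℂ) - sh d lam j) / ((j : ℂ) - i)))
      = ((∏ i : Fin d, ∏ j ∈ Finset.Ioi i,
          (((sh d lam i : ℝ) - sh d lam j) / ((j : ℝ) - i)) : ℝ) : ℂ) := by
    push_cast; rfl
  rw [hw, ← Complex.ofReal_mul]
  congr 1
  have hG : ∀ i : Fin d, Gamma (1 + t * (stair d i : ℝ)) ≠ 0 := fun i =>
    (Gamma_pos_of_pos (by positivity)).ne'
  have e1 : (∏ i : Fin d, Gamma (1 + t * (stair d i : ℝ))) *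
      ∏ i : Fin d, (Gamma (1 + t * (sh d lam i : ℝ)) / Gamma (1 + t * (stair d i : ℝ)))
      = ∏ i : Fin d, Gamma (1 + t * (sh d lam i : ℝ)) := by
    rw [← Finset.prod_mul_distrib]
    exact Finset.prod_congr rfl fun i _ => mul_div_cancel₀ _ (hG i)
  have e2 : (∏ i : Fin d, ∏ j ∈ Finset.Ioi i, (t * (stair d i : ℝ) - t * (stair d j : ℝ))) *
      ∏ i : Fin d, ∏ j ∈ Finset.Ioi i, (((sh d lam i : ℝ) - sh d lam j) / ((j : ℝ) - i))
      = ∏ i : Fin d, ∏ j ∈ Finset.Ioi i, (t * (sh d lam i : ℝ) - t * (sh d lam j : ℝ)) := by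
    rw [← Finset.prod_mul_distrib]
    refine Finset.prod_congr rfl fun i _ => ?_
    rw [← Finset.prod_mul_distrib]
    refine Finset.prod_congr rfl fun j hj => ?_
    have hij : i < j := Finset.mem_Ioi.1 hj
    rw [← mul_sub, mb_stair_sub d i j hij]
    have : (j : ℝ) - (i : ℝ) ≠ 0 := by
      have : (i : ℝ) < (j : ℝ) := by exact_mod_cast hij
      linarith
    field_simp
  rw [← e1, ← e2]
  ring

end Claimed.Agent.R296.Rep
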