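import Claimed.Agent.R296.Rep.FrobD

/-!
# BB_Rep L3/L4: the common label function `w_k(λ)` of P1 (replicas:w-definition): definitions

`d` = padding dimension `dim 𝒱`, `0 < t < 1/4`.  With rows numbered from `0`,
`l_i = sh d lam i = λ_i + d - 1 - i` and `stair d i = d - 1 - i`:

  `c = d + (1+t) d(d-1)/2`,
  `w(λ) = Γ(c)/Γ(c + t k) ∏_i Γ(1 + t l_i) / Γ(1 + t (d-1-i))`,  `k = ∑ λ_i`.

All operators `W_{Q,k}^s`, `F_{Q,k}`, `R_{Q,k}`, `J_{Q,k}` of the paper are images, under the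
representation `U_Q` of `ℂ[Perm κ]`, of the group algebra elements defined here.
-/

set_option autoImplicit false

namespace Claimed.Agent.R296.Rep

open Equiv

/-- the constant `c = d + (1+t) d(d-1)/2` -/
noncomputable def cMB (d : ℕ) (t : ℝ) : ℝ := d + (1 + t) * ((d * (d - 1) / 2 : ℕ) : ℝ)

/-- the label function `w_k(λ)` -/
noncomputable def wLab (d : ℕ) (t : ℝ) (lam : Fin d → ℕ) : ℝ :=
  Real.Gamma (cMB d t) / Real.Gamma (cMB d t + t * ((∑ i, lam i : ℕ) : ℝ)) *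
    ∏ i, (Real.Gamma (1 + t * (sh d lam i : ℝ)) / Real.Gamma (1 + t * (stair d i : ℝ)))

/-- the exact eigenvalue of the marked ratio (replicas:ratio-eigenvalue), as a function of
`k` and `l = l_i` -/
noncomputable def rhoMB (d : ℕ) (t : ℝ) (k l : ℕ) : ℝ :=
  Real.Gamma (cMB d t + t * ((k : ℝ) - 1)) / Real.Gamma (cMB d t + t * (k : ℝ)) *
    (Real.Gamma (1 + t * (l : ℝ)) / Real.Gamma (1 + t * ((l : ℝ) - 1)))

/-- Frobenius' dimension as a real number: `k! ∏_{i<j} (l_i - l_j) / ∏ l_i!` -/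
noncomputable def dimLab (d : ℕ) (lam : Fin d → ℕ) : ℝ :=
  ((∑ i, lam i).factorial : ℝ) * (∏ i, ∏ j ∈ Finset.Ioi i, ((sh d lam i : ℝ) - sh d lam j))
    / ∏ i, ((sh d lam i).factorial : ℝ)

section

variable {κ : Type} [Fintype κ] [DecidableEq κ]

open Classical in
/-- the label function on abstract blocks (junk value `d_i^{-t}` on blocks with more than `d` rows,
which never occur) -/
noncomputable def wIrr (d : ℕ) (t : ℝ) (i : Irr (Perm κ)) : ℝ :=
  if h : IsLabelled d i then wLab d t h.choose else (dimI i : ℝ) ^ (-t)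

variable (κ)

/-- `W^s` in the group algebra; `W = Wpow d t κ 1` -/
noncomputable def Wpow (d : ℕ) (t : ℝ) (s : ℝ) : GA (Perm κ) :=
  cfun fun i => (((wIrr d t i) ^ s : ℝ) : ℂ)

/-- the label observable `F = ∑ log d_λ π^λ` in the group algebra -/
noncomputable def Fel : GA (Perm κ) := cfun fun i => ((Real.log (dimI i) : ℝ) : ℂ)

variable {κ}

/-- the marked ratio `R = W_k W_{k-1}^{-1}` (marked copy `j₀`) -/
noncomputable def Rel (d : ℕ) (t : ℝ) (j₀ : κ) : GA (Perm κ) :=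
  Wpow κ d t 1 * gsub j₀ (Wpow {j // j ≠ j₀} d t (-1))

/-- its inverse `R^{-1} = W_k^{-1} W_{k-1}` -/
noncomputable def RelInv (d : ℕ) (t : ℝ) (j₀ : κ) : GA (Perm κ) :=
  Wpow κ d t (-1) * gsub j₀ (Wpow {j // j ≠ j₀} d t 1)

/-- the normalised star operator `J = k⁻¹ ∑_{j ≠ j₀} (j j₀)` -/
noncomputable def Jel (j₀ : κ) : GA (Perm κ) := ((Fintype.card κ : ℂ))⁻¹ • jm j₀

/-- the branch idempotent `π^λ_k π^{λ - e_i}_{k-1}` -/
noncomputable def brIdem (d : ℕ) (j₀ : κ) (lam : Fin d → ℕ) (i : Fin d) : GA (Perm κ) :=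
  idem (blk d lam) * gsub j₀ (idem (blk d (subBox lam i)))

open Classical in
/-- functional calculus of the branches -/
noncomputable def brOp (d : ℕ) (j₀ : κ) (c : (Fin d → ℕ) → Fin d → ℂ) : GA (Perm κ) :=
  ∑ lam ∈ labels d (Fintype.card κ), ∑ i,
    if Removable lam i then c lam i • brIdem d j₀ lam i else 0

end

end Claimed.Agent.R296.Rep
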