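import Claimed.Agent.R296.Rep.Commutant
import Claimed.Agent.R296.Rep.TensorB

/-!
# BB_Rep L2-T: the twirl theorem

`twirl d X = ∫ u^{⊗κ} X (u^{⊗κ})ᴴ du` (entrywise integral).  For `X` commuting with the permutations
it is a function of the labels (`bicommutant` + `commute_of_unitary`), with coefficients fixed by
the traces.
-/

set_option autoImplicit false
set_option linter.unusedSectionVars false

namespace Claimed.Agent.R296.Rep

open Matrix Equiv MeasureTheory

variable {κ : Type} [Fintype κ] [DecidableEq κ]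

/-- the unitary twirl -/
noncomputable def twirl (d : ℕ) (X : Matrix (κ → Fin d) (κ → Fin d) ℂ) :
    Matrix (κ → Fin d) (κ → Fin d) ℂ :=
  Matrix.of fun f g => ∫ u : UG d,
    (tpow κ (u : Matrix (Fin d) (Fin d) ℂ) * X * (tpow κ (u : Matrix (Fin d) (Fin d) ℂ))ᴴ) f g
      ∂haarU d

/-- a linear functional on matrices in terms of the entries -/
theorem linear_eq_sum_entries {m : Type} [Fintype m] [DecidableEq m]
    (ℓ : Matrix m m ℂ →ₗ[ℂ] ℂ) (M : Matrix m m ℂ) :
    ℓ M = ∑ f, ∑ g, M f g * ℓ (Matrix.single f g 1) := by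
  conv_lhs => rw [Matrix.matrix_eq_sum_single M]
  rw [map_sum]
  refine Finset.sum_congr rfl fun f _ => ?_
  rw [map_sum]
  refine Finset.sum_congr rfl fun g _ => ?_
  have : Matrix.single f g (M f g) = M f g • Matrix.single f g (1 : ℂ) := by
    rw [Matrix.smul_single, smul_eq_mul, mul_one]
  rw [this, map_smul, smul_eq_mul]

/-- a linear functional commutes with the entrywise integral -/
theorem linear_twirl (d : ℕ) (X : Matrix (κ → Fin d) (κ → Fin d) ℂ)
    (ℓ : Matrix (κ → Fin d) (κ → Fin d) ℂ →ₗ[ℂ] ℂ) :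
    ℓ (twirl d X) = ∫ u : UG d,
      ℓ (tpow κ (u : Matrix (Fin d) (Fin d) ℂ) * X * (tpow κ (u : Matrix (Fin d) (Fin d) ℂ))ᴴ)
        ∂haarU d := by
  rw [linear_eq_sum_entries ℓ (twirl d X)]
  simp only [linear_eq_sum_entries ℓ (_ * X * _)]
  have hI : ∀ f g : κ → Fin d, Integrable (fun u : UG d =>
      (tpow κ (u : Matrix (Fin d) (Fin d) ℂ) * X * (tpow κ (u : Matrix (Fin d) (Fin d) ℂ))ᴴ) f g
        * ℓ (Matrix.single f g 1)) (haarU d) := fun f g =>
    (haarU_integrable_of_continuous d _ (continuous_conj_tpow_entry d κ X f g)).mul_const _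
  rw [integral_finsetSum _ fun f _ => integrable_finsetSum _ fun g _ => hI f g]
  refine Finset.sum_congr rfl fun f _ => ?_
  rw [integral_finsetSum _ fun g _ => hI f g]
  refine Finset.sum_congr rfl fun g _ => ?_
  rw [integral_mul_const]
  rfl

theorem tpow_UG_mul_conjTranspose (d : ℕ) (u : UG d) :
    tpow κ (u : Matrix (Fin d) (Fin d) ℂ) * (tpow κ (u : Matrix (Fin d) (Fin d) ℂ))ᴴ = 1 := by
  rw [tpow_conjTranspose, ← tpow_mul, ← star_eq_conjTranspose, Unitary.mul_star_self_of_mem u.2,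
    tpow_one]

theorem tpow_UG_conjTranspose_mul (d : ℕ) (u : UG d) :
    (tpow κ (u : Matrix (Fin d) (Fin d) ℂ))ᴴ * tpow κ (u : Matrix (Fin d) (Fin d) ℂ) = 1 := by
  rw [tpow_conjTranspose, ← tpow_mul, ← star_eq_conjTranspose, Unitary.star_mul_self_of_mem u.2,
    tpow_one]

/-- the functional `M ↦ (A * M * B) f g` -/
noncomputable def sandwichEntry {m : Type} [Fintype m] (A B : Matrix m m ℂ) (f g : m) :
    Matrix m m ℂ →ₗ[ℂ] ℂ :=
  (Matrix.entryLinearMap ℂ ℂ f g).comp
    ((LinearMap.mulRight ℂ B).comp (LinearMap.mulLeft ℂ A))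

theorem sandwichEntry_apply {m : Type} [Fintype m] (A B M : Matrix m m ℂ) (f g : m) :
    sandwichEntry A B f g M = (A * M * B) f g := rfl

theorem twirl_apply (d : ℕ) (X : Matrix (κ → Fin d) (κ → Fin d) ℂ) (f g : κ → Fin d) :
    twirl d X f g = ∫ u : UG d,
      (tpow κ (u : Matrix (Fin d) (Fin d) ℂ) * X * (tpow κ (u : Matrix (Fin d) (Fin d) ℂ))ᴴ) f g
        ∂haarU d := rfl

theorem twirl_conj_unitary (d : ℕ) (X : Matrix (κ → Fin d) (κ → Fin d) ℂ) (v : UG d) :
    tpow κ (v : Matrix (Fin d) (Fin d) ℂ) * twirl d X * (tpow κ (v : Matrix (Fin d) (Fin d) ℂ))ᴴ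
      = twirl d X := by
  ext f g
  rw [← sandwichEntry_apply, linear_twirl, twirl_apply,
    ← haarU_integral_mul_left d (fun u : UG d =>
      (tpow κ (u : Matrix (Fin d) (Fin d) ℂ) * X * (tpow κ (u : Matrix (Fin d) (Fin d) ℂ))ᴴ) f g) v]
  refine integral_congr_ae (Filter.Eventually.of_forall fun u => ?_)
  simp only [sandwichEntry_apply]
  have : ((v * u : UG d) : Matrix (Fin d) (Fin d) ℂ)
      = (v : Matrix (Fin d) (Fin d) ℂ) * (u : Matrix (Fin d) (Fin d) ℂ) := rfl
  rw [this, tpow_mul, conjTranspose_mul]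
  simp only [mul_assoc]

theorem twirl_comm_unitary (d : ℕ) (X : Matrix (κ → Fin d) (κ → Fin d) ℂ) (u : UG d) :
    twirl d X * tpow κ (u : Matrix (Fin d) (Fin d) ℂ)
      = tpow κ (u : Matrix (Fin d) (Fin d) ℂ) * twirl d X := by
  conv_lhs => rw [← twirl_conj_unitary d X u]
  rw [mul_assoc, tpow_UG_conjTranspose_mul, mul_one]

theorem twirl_comm_perm (d : ℕ) (X : Matrix (κ → Fin d) (κ → Fin d) ℂ)
    (hX : ∀ π, X * tU (Fin d) κ π = tU (Fin d) κ π * X) (a : GA (Perm κ)) :
    twirl d X * tRep (Fin d) κ a = tRep (Fin d) κ a * twirl d X := by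
  have hXa : X * tRep (Fin d) κ a = tRep (Fin d) κ a * X := by
    rw [tRep, repAlg_eq_sum, Finset.mul_sum, Finset.sum_mul]
    refine Finset.sum_congr rfl fun π _ => ?_
    rw [mul_smul_comm, smul_mul_assoc, hX]
  ext f g
  have e1 : (twirl d X * tRep (Fin d) κ a) f g
      = sandwichEntry 1 (tRep (Fin d) κ a) f g (twirl d X) := by
    rw [sandwichEntry_apply, one_mul]
  have e2 : (tRep (Fin d) κ a * twirl d X) f g
      = sandwichEntry (tRep (Fin d) κ a) 1 f g (twirl d X) := by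
    rw [sandwichEntry_apply, mul_one]
  rw [e1, e2, linear_twirl, linear_twirl]
  refine integral_congr_ae (Filter.Eventually.of_forall fun u => ?_)
  simp only [sandwichEntry_apply, one_mul, mul_one]
  rw [tpow_conjTranspose, mul_assoc, ← tRep_mul_tpow, ← mul_assoc, mul_assoc _ X, hXa, ← mul_assoc,
    ← tRep_mul_tpow, mul_assoc, mul_assoc, mul_assoc]

theorem trace_twirl_mul (d : ℕ) (X Z : Matrix (κ → Fin d) (κ → Fin d) ℂ)
    (hZ : ∀ u : UG d, Z * tpow κ (u : Matrix (Fin d) (Fin d) ℂ)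
      = tpow κ (u : Matrix (Fin d) (Fin d) ℂ) * Z) :
    trace (twirl d X * Z) = trace (X * Z) := by
  have e1 : trace (twirl d X * Z)
      = ((Matrix.traceLinearMap (κ → Fin d) ℂ ℂ).comp (LinearMap.mulRight ℂ Z)) (twirl d X) := rfl
  rw [e1, linear_twirl]
  have e2 : ∀ u : UG d, ((Matrix.traceLinearMap (κ → Fin d) ℂ ℂ).comp (LinearMap.mulRight ℂ Z))
      (tpow κ (u : Matrix (Fin d) (Fin d) ℂ) * X * (tpow κ (u : Matrix (Fin d) (Fin d) ℂ))ᴴ)
      = trace (X * Z) := by
    intro u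
    change trace (tpow κ (u : Matrix (Fin d) (Fin d) ℂ) * X *
      (tpow κ (u : Matrix (Fin d) (Fin d) ℂ))ᴴ * Z) = _
    have hZ' : (tpow κ (u : Matrix (Fin d) (Fin d) ℂ))ᴴ * Z
        = Z * (tpow κ (u : Matrix (Fin d) (Fin d) ℂ))ᴴ := by
      have h1 := hZ u
      calc (tpow κ (u : Matrix (Fin d) (Fin d) ℂ))ᴴ * Z
          = (tpow κ (u : Matrix (Fin d) (Fin d) ℂ))ᴴ * Z *
              (tpow κ (u : Matrix (Fin d) (Fin d) ℂ) * (tpow κ (u : Matrix (Fin d) (Fin d) ℂ))ᴴ) := by
            rw [tpow_UG_mul_conjTranspose, mul_one]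
        _ = (tpow κ (u : Matrix (Fin d) (Fin d) ℂ))ᴴ * (Z * tpow κ (u : Matrix (Fin d) (Fin d) ℂ)) *
              (tpow κ (u : Matrix (Fin d) (Fin d) ℂ))ᴴ := by simp only [mul_assoc]
        _ = Z * (tpow κ (u : Matrix (Fin d) (Fin d) ℂ))ᴴ := by
            rw [h1, ← mul_assoc, tpow_UG_conjTranspose_mul, one_mul]
    rw [mul_assoc, hZ', ← mul_assoc, trace_mul_comm, ← mul_assoc, ← mul_assoc,
      tpow_UG_conjTranspose_mul, one_mul]
  simp only [e2]
  rw [integral_const]
  simp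

/-- **Twirl theorem** -/
theorem twirl_eq (d : ℕ) (X : Matrix (κ → Fin d) (κ → Fin d) ℂ)
    (hX : ∀ π, X * tU (Fin d) κ π = tU (Fin d) κ π * X) :
    twirl d X = tRep (Fin d) κ (cfun fun i =>
      trace (X * tRep (Fin d) κ (idem i)) / trace (tRep (Fin d) κ (idem i))) := by
  obtain ⟨c, hc⟩ := bicommutant (tRep (Fin d) κ) (twirl d X) (twirl_comm_perm d X hX)
    (fun Y hY => commute_of_unitary d (twirl d X) (twirl_comm_unitary d X) Y fun π => by
      have := hY (MonoidAlgebra.of ℂ (Perm κ) π)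
      rwa [tRep, repAlg_of] at this)
  rw [hc, cfun, cfun, map_sum, map_sum]
  refine Finset.sum_congr rfl fun i _ => ?_
  rw [map_smul, map_smul]
  by_cases h0 : tRep (Fin d) κ (idem i) = 0
  · rw [h0, smul_zero, smul_zero]
  · have ht : trace (tRep (Fin d) κ (idem i)) ≠ 0 := by
      intro h
      apply h0
      apply idempotent_eq_zero_of_trace _ _ h
      rw [← map_mul, idem_mul_idem, if_pos rfl]
    have h1 := trace_mul_cfun (tRep (Fin d) κ) c i
    rw [← hc, trace_twirl_mul d X _ fun u => tRep_mul_tpow _ _] at h1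
    rw [h1, mul_div_assoc, div_self ht, mul_one]

/-- twirl of a diagonal tensor power: eigenvalue `s_λ(x) / s_λ(1)` on the block `λ` -/
theorem twirl_tpow_diagonal (d : ℕ) (x : Fin d → ℂ) :
    twirl d (tpow κ (diagonal x))
      = ∑ lam ∈ labels d (Fintype.card κ),
          (schurC κ d lam x / schurC κ d lam (fun _ => 1)) •
            tRep (Fin d) κ (idem (blk d lam)) := by
  classical
  rw [twirl_eq d _ fun π => (tU_mul_tpow π _).symm, cfun, map_sum]
  -- only the labelled blocks contribute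
  have hinj : Set.InjOn (fun lam : Fin d → ℕ => (blk d lam : Irr (Perm κ)))
      (labels d (Fintype.card κ)) := by
    intro lam hl mu hm h
    exact blk_injOn d lam mu (mem_labels.1 hl) (mem_labels.1 hm) h
  rw [← Finset.sum_subset (Finset.subset_univ
    ((labels d (Fintype.card κ)).image fun lam => (blk d lam : Irr (Perm κ))))]
  · rw [Finset.sum_image hinj]
    refine Finset.sum_congr rfl fun lam hl => ?_
    have hl' := mem_labels.1 hl
    have hd : (dimI (blk d lam : Irr (Perm κ)) : ℂ) ≠ 0 := by exact_mod_cast (dimI_pos _).ne'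
    have h1 := trace_idem_blk_tpow d lam hl' x
    have h2 := trace_idem_blk_tpow d lam hl' (fun _ => (1 : ℂ))
    have h3 : (diagonal fun _ : Fin d => (1 : ℂ)) = 1 := diagonal_one
    rw [h3, tpow_one, mul_one] at h2
    rw [map_smul, trace_mul_comm, h1, h2, mul_div_mul_left _ _ hd]
  · intro i _ hi
    have hnl : ¬ IsLabelled d i := by
      rintro ⟨lam, hl, rfl⟩
      exact hi (Finset.mem_image.2 ⟨lam, mem_labels.2 hl, rfl⟩)
    rw [map_smul, tRep_idem_eq_zero d (by simp) i hnl, smul_zero]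

end Claimed.Agent.R296.Rep
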