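import Claimed.Agent.R296.Rep.MB
import Claimed.Agent.R296.Rep.Twirl
import Claimed.Agent.R296.MatFun

/-!
# BB_Rep L4-M: `W` is a positive mixture of tensor powers  (replicas:W-integral)

The consumers (lem:relative-pin) only use the integral formula through the triangle inequality, so
the interface is measure-free:

  `W_mixture`: if a linear functional `ℓ` satisfies `‖ℓ (B^{⊗κ})‖ ≤ c` for all admissible one-copy
  factors `B = σ^t` (`σ > 0`, `Tr σ ≤ 1`), then `‖ℓ (W)‖ ≤ c`.

Proof.  `tRep (Fin d) κ W = Z⁻¹ ∫_x twirl (D(s(x)^t)^{⊗κ}) mbDens(x) dx` by `twirl_tpow_diagonal`,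
`mb_schur_moment`, `wIrr_blk`, `tRep_idem_eq_zero`; `twirl` is itself a Haar average of
`(u D uᴴ)^{⊗κ}` (`tpow_mul`, `tpow_conjTranspose`).  For `card α ≤ d` restrict to a principal
submatrix (`tRep_submatrix`, `tpow_submatrix`, `powBall_submatrix`).

All statements of this file are proved (helper167); open inputs: MB, Twirl, TensorB, FrobB.
-/

set_option autoImplicit false
set_option linter.unusedSectionVars false

namespace Claimed.Agent.R296.Rep

open Matrix Real MeasureTheory Equiv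
open scoped ComplexOrder

/-- admissible one-copy factors `B = σ^t` with `σ` positive definite, `Tr σ ≤ 1`, expressed through
the eigenvalues of `B` -/
def PowBall {α : Type} [Fintype α] [DecidableEq α] (t : ℝ) (B : Matrix α α ℂ) : Prop :=
  ∃ hB : B.IsHermitian, (∀ a, 0 < hB.eigenvalues a) ∧ ∑ a, (hB.eigenvalues a) ^ (1 / t) ≤ 1

theorem UG_conjTranspose_mul (d : ℕ) (u : UG d) :
    (u : Matrix (Fin d) (Fin d) ℂ)ᴴ * (u : Matrix (Fin d) (Fin d) ℂ) = 1 :=
  mem_unitaryGroup_iff'.1 u.2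

theorem UG_mul_conjTranspose (d : ℕ) (u : UG d) :
    (u : Matrix (Fin d) (Fin d) ℂ) * (u : Matrix (Fin d) (Fin d) ℂ)ᴴ = 1 :=
  mem_unitaryGroup_iff.1 u.2

/-- sums of functions of the eigenvalues do not depend on the diagonalisation -/
theorem sum_eigenvalues_conj_diag (d : ℕ) (u : UG d) (b : Fin d → ℝ) (F : ℝ → ℝ)
    (hB : ((u : Matrix (Fin d) (Fin d) ℂ) * diagonal (fun i => ((b i : ℝ) : ℂ))
      * (u : Matrix (Fin d) (Fin d) ℂ)ᴴ).IsHermitian) :
    ∑ a, F (hB.eigenvalues a) = ∑ i, F (b i) := by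
  have h1 := trace_mfun hB (fun x => ((F x : ℝ) : ℂ))
  rw [mfun_of_decomp _ _ (UG_conjTranspose_mul d u) (UG_mul_conjTranspose d u) b,
    Matrix.trace_mul_comm, ← Matrix.mul_assoc, UG_conjTranspose_mul, Matrix.one_mul,
    trace_diagonal] at h1
  exact_mod_cast h1.symm

theorem mbPoint_pos (d : ℕ) (t : ℝ) (x : Fin d → ℝ) (hx : x ∈ orth d) (i : Fin d) :
    0 < mbPoint d t x i := by
  have hs : 0 < ∑ j, x j := Finset.sum_pos (fun j _ => hx j) ⟨i, Finset.mem_univ _⟩
  exact Real.rpow_pos_of_pos (div_pos (hx i) hs) _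

theorem powBall_conj_diag (d : ℕ) (t : ℝ) (ht0 : 0 < t) (u : UG d) (x : Fin d → ℝ)
    (hx : x ∈ orth d) :
    PowBall t ((u : Matrix (Fin d) (Fin d) ℂ) * diagonal (fun i => ((mbPoint d t x i : ℝ) : ℂ))
      * (u : Matrix (Fin d) (Fin d) ℂ)ᴴ) := by
  have hB : ((u : Matrix (Fin d) (Fin d) ℂ) * diagonal (fun i => ((mbPoint d t x i : ℝ) : ℂ))
      * (u : Matrix (Fin d) (Fin d) ℂ)ᴴ).IsHermitian :=
    isHermitian_isometry_conj _ (isHermitian_diagonal_ofReal _)
  refine ⟨hB, ?_, ?_⟩
  · intro a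
    have h := sum_eigenvalues_conj_diag d u (mbPoint d t x) (fun y => if 0 < y then 0 else 1) hB
    have h0 : ∑ i, (fun y : ℝ => if 0 < y then (0 : ℝ) else 1) (mbPoint d t x i) = 0 :=
      Finset.sum_eq_zero fun i _ => by simp [mbPoint_pos d t x hx i]
    rw [h0] at h
    have h2 := (Finset.sum_eq_zero_iff_of_nonneg (fun a _ => by
      show (0 : ℝ) ≤ if 0 < hB.eigenvalues a then (0 : ℝ) else 1
      split_ifs <;> norm_num)).mp h a (Finset.mem_univ _)
    by_contra hcon
    simp [hcon] at h2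
  · rw [sum_eigenvalues_conj_diag d u (mbPoint d t x) (fun y => y ^ (1 / t)) hB]
    have h1 : ∀ i, (mbPoint d t x i) ^ (1 / t) = x i / ∑ j, x j := by
      intro i
      have hs : 0 < ∑ j, x j := Finset.sum_pos (fun j _ => hx j) ⟨i, Finset.mem_univ _⟩
      rw [mbPoint, ← Real.rpow_mul (div_pos (hx i) hs).le, mul_one_div_cancel ht0.ne',
        Real.rpow_one]
    simp only [h1]
    rw [← Finset.sum_div]
    exact div_self_le_one _

section compress

variable {α β : Type} [Fintype α] [DecidableEq α] [Fintype β] [DecidableEq β]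

/-- the coordinate isometry attached to an injection -/
def coordV (e : α → β) : Matrix β α ℂ := (1 : Matrix β β ℂ).submatrix id e

theorem coordV_conj (e : α → β) (M : Matrix β β ℂ) :
    (coordV e)ᴴ * M * coordV e = M.submatrix e e := by
  ext a a'
  simp only [coordV, Matrix.mul_apply, conjTranspose_apply, submatrix_apply, id, Matrix.one_apply]
  simp [Finset.sum_ite_eq']

theorem coordV_isometry (e : α → β) (he : Function.Injective e) :
    (coordV e)ᴴ * coordV e = 1 := by
  have h := coordV_conj e (1 : Matrix β β ℂ)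
  rw [Matrix.mul_one] at h
  rw [h]
  ext a a'
  simp [Matrix.one_apply, he.eq_iff]

/-- diagonal entries of `Wᴴ M W` as quadratic forms -/
theorem conj_diag_entry (W : Matrix β α ℂ) (M : Matrix β β ℂ) (a : α) :
    (Wᴴ * M * W) a a = star (fun b => W b a) ⬝ᵥ (M *ᵥ fun b => W b a) := by
  simp only [Matrix.mul_apply, conjTranspose_apply, dotProduct, mulVec, Pi.star_apply,
    Finset.sum_mul, Finset.mul_sum]
  rw [Finset.sum_comm]
  refine Finset.sum_congr rfl fun b _ => Finset.sum_congr rfl fun b' _ => by ring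

/-- Berezin-Jensen: compression to a principal submatrix keeps admissibility (`1/t ≥ 1`) -/
theorem powBall_submatrix
    (t : ℝ) (ht0 : 0 < t) (ht1 : t ≤ 1) (e : α → β) (he : Function.Injective e)
    (B : Matrix β β ℂ) (hB : PowBall t B) : PowBall t (B.submatrix e e) := by
  obtain ⟨hB, hpos, hsum⟩ := hB
  have hC : (B.submatrix e e).IsHermitian := hB.submatrix e
  have hp : 1 ≤ 1 / t := by rw [le_div_iff₀ ht0]; simpa using ht1
  set U : Matrix α α ℂ := (hC.eigenvectorUnitary : Matrix α α ℂ) with hU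
  set W : Matrix β α ℂ := coordV e * U with hW
  have hUU : Uᴴ * U = 1 := eigU_conjTranspose_mul hC
  have hUU' : U * Uᴴ = 1 := eigU_mul_conjTranspose hC
  have hWconj : ∀ M : Matrix β β ℂ, Wᴴ * M * W = Uᴴ * (M.submatrix e e) * U := by
    intro M
    rw [hW, conjTranspose_mul, ← coordV_conj e M]
    simp only [Matrix.mul_assoc]
  have hWW : Wᴴ * W = 1 := by
    have := hWconj 1
    rw [Matrix.mul_one] at this
    rw [this, ← coordV_conj e 1, Matrix.mul_one, coordV_isometry e he, Matrix.mul_one, hUU]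
  -- the eigenvalues of the compression
  have hdiag : Wᴴ * B * W = diagonal (fun a => ((hC.eigenvalues a : ℝ) : ℂ)) := by
    rw [hWconj B]
    conv_lhs => rw [spectral_plain hC]
    rw [← hU]
    calc Uᴴ * (U * diagonal (fun a => ((hC.eigenvalues a : ℝ) : ℂ)) * Uᴴ) * U
        = (Uᴴ * U) * diagonal (fun a => ((hC.eigenvalues a : ℝ) : ℂ)) * (Uᴴ * U) := by
          simp only [Matrix.mul_assoc]
      _ = _ := by rw [hUU, Matrix.one_mul, Matrix.mul_one]
  -- weights
  set w : α → β → ℝ := fun a b => specW hB (fun b' => W b' a) b with hw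
  have hw0 : ∀ a b, 0 ≤ w a b := fun a b => specW_nonneg hB _ b
  have hw1 : ∀ a, ∑ b, w a b = 1 := by
    intro a
    have h1 := sum_specW hB (fun b' => W b' a)
    have h2 : star (fun b' => W b' a) ⬝ᵥ (fun b' => W b' a) = 1 := by
      have h3 := conj_diag_entry W 1 a
      rw [Matrix.mul_one, hWW, Matrix.one_apply_eq, Matrix.one_mulVec] at h3
      exact h3.symm
    rw [h2] at h1
    exact_mod_cast h1
  have hquad : ∀ (f : ℝ → ℝ) (a : α), (Wᴴ * mfun (fun x => ((f x : ℝ) : ℂ)) B * W) a a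
      = ((∑ b, w a b * f (hB.eigenvalues b) : ℝ) : ℂ) := by
    intro f a
    rw [conj_diag_entry, quad_mfun hB]
    push_cast
    refine Finset.sum_congr rfl fun b _ => by rw [mul_comm]
  have hmu : ∀ a, hC.eigenvalues a = ∑ b, w a b * hB.eigenvalues b := by
    intro a
    have h1 := hquad (fun x => x) a
    rw [mfun_id hB, hdiag, diagonal_apply_eq] at h1
    exact_mod_cast h1
  refine ⟨hC, ?_, ?_⟩
  · intro a
    rw [hmu a]
    have hnn : ∀ b ∈ Finset.univ, 0 ≤ w a b * hB.eigenvalues b :=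
      fun b _ => mul_nonneg (hw0 a b) (hpos b).le
    refine lt_of_le_of_ne (Finset.sum_nonneg hnn) fun h0 => ?_
    have h2 := (Finset.sum_eq_zero_iff_of_nonneg hnn).mp h0.symm
    have h3 : ∑ b, w a b = 0 := Finset.sum_eq_zero fun b hb => by
      rcases mul_eq_zero.mp (h2 b hb) with h | h
      · exact h
      · exact absurd h (hpos b).ne'
    rw [hw1 a] at h3
    exact one_ne_zero h3
  · -- Jensen
    have hJ : ∀ a, (hC.eigenvalues a) ^ (1 / t) ≤ ∑ b, w a b * (hB.eigenvalues b) ^ (1 / t) := by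
      intro a
      rw [hmu a]
      exact Real.rpow_arith_mean_le_arith_mean_rpow Finset.univ (w a) _ (fun b _ => hw0 a b)
        (hw1 a) (fun b _ => (hpos b).le) hp
    refine le_trans (Finset.sum_le_sum fun a _ => hJ a) (le_trans ?_ hsum)
    set M : Matrix β β ℂ := mfun (fun x => (((x ^ (1 / t) : ℝ)) : ℂ)) B with hM
    have hMpsd : M.PosSemidef :=
      mfun_posSemidef hB (fun x => x ^ (1 / t)) fun b => Real.rpow_nonneg (hpos b).le _
    have htr1 : ((∑ a, ∑ b, w a b * (hB.eigenvalues b) ^ (1 / t) : ℝ) : ℂ)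
        = trace (M.submatrix e e) := by
      have : trace (Wᴴ * M * W) = trace (M.submatrix e e) := by
        rw [hWconj M, Matrix.trace_mul_comm, ← Matrix.mul_assoc, hUU', Matrix.one_mul]
      rw [← this, trace]
      push_cast
      refine Finset.sum_congr rfl fun a _ => ?_
      rw [diag_apply, hquad (fun x => x ^ (1 / t)) a]
      push_cast
      rfl
    have htr2 : trace M = ((∑ b, (hB.eigenvalues b) ^ (1 / t) : ℝ) : ℂ) := by
      rw [hM, trace_mfun hB]; push_cast; rfl
    have hdiagre : ∀ b, 0 ≤ (M b b).re := by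
      intro b
      have := hMpsd.diag_nonneg (i := b)
      exact (Complex.le_def.mp this).1
    have h3 : (trace (M.submatrix e e)).re ≤ (trace M).re := by
      simp only [trace, diag_apply, submatrix_apply, Complex.re_sum]
      rw [← Finset.sum_image (f := fun b => (M b b).re) (fun a _ a' _ h => he h)]
      exact Finset.sum_le_sum_of_subset_of_nonneg (Finset.subset_univ _) fun b _ _ => hdiagre b
    rw [← htr1, htr2, Complex.ofReal_re, Complex.ofReal_re] at h3
    exact h3

end compress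

variable {κ : Type} [Fintype κ] [DecidableEq κ]

theorem wIrr_blk (d : ℕ) (t : ℝ) (lam : Fin d → ℕ) (hl : IsLab d (Fintype.card κ) lam) :
    wIrr d t (blk d lam : Irr (Perm κ)) = wLab d t lam := by
  have h : IsLabelled d (blk d lam : Irr (Perm κ)) := ⟨lam, hl, rfl⟩
  rw [wIrr, dif_pos h]
  have hs := h.choose_spec
  rw [blk_injOn d _ _ hs.1 hl hs.2]

theorem tRep_Wpow {α : Type} [Fintype α] [DecidableEq α] (d : ℕ) (hα : Fintype.card α ≤ d)
    (t s : ℝ) :
    tRep α κ (Wpow κ d t s)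
      = ∑ lam ∈ labels d (Fintype.card κ),
          (((wLab d t lam) ^ s : ℝ) : ℂ) • tRep α κ (idem (blk d lam)) := by
  classical
  rw [Wpow, cfun, map_sum]
  simp only [map_smul]
  have h1 : ∑ lam ∈ labels d (Fintype.card κ),
      (((wLab d t lam) ^ s : ℝ) : ℂ) • tRep α κ (idem (blk d lam))
      = ∑ lam ∈ labels d (Fintype.card κ),
        (fun i : Irr (Perm κ) => (((wIrr d t i) ^ s : ℝ) : ℂ) • tRep α κ (idem i)) (blk d lam) := by
    refine Finset.sum_congr rfl fun lam hlam => ?_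
    simp only [wIrr_blk d t lam (mem_labels.mp hlam)]
  rw [h1, ← Finset.sum_image (f := fun i : Irr (Perm κ) =>
    (((wIrr d t i) ^ s : ℝ) : ℂ) • tRep α κ (idem i))
    (fun a ha b hb h => blk_injOn d a b (mem_labels.mp ha) (mem_labels.mp hb) h)]
  symm
  refine Finset.sum_subset (Finset.subset_univ _) fun i _ hi => ?_
  have hnl : ¬ IsLabelled d i := by
    rintro ⟨lam, hl, rfl⟩
    exact hi (Finset.mem_image.mpr ⟨lam, mem_labels.mpr hl, rfl⟩)
  rw [tRep_idem_eq_zero d hα i hnl, smul_zero]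

/-- integral formula in dimension `d`, tested against a linear functional -/
theorem linear_W_eq_integral (d : ℕ) (hd : 1 ≤ d) (t : ℝ) (ht0 : 0 < t)
    (ℓ : Matrix (κ → Fin d) (κ → Fin d) ℂ →ₗ[ℂ] ℂ) :
    ℓ (tRep (Fin d) κ (Wpow κ d t 1))
      = ((mbZ d t : ℝ) : ℂ)⁻¹ * ∫ x in orth d,
          ℓ (twirl d (tpow κ (diagonal fun i => ((mbPoint d t x i : ℝ) : ℂ))))
            * ((mbDens d t x : ℝ) : ℂ) := by
  have hZ : ((mbZ d t : ℝ) : ℂ) ≠ 0 := by exact_mod_cast (mbZ_pos d t ht0).ne'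
  have hs1 : ∀ lam ∈ labels d (Fintype.card κ), schurC κ d lam (fun _ => 1) ≠ 0 := by
    intro lam hlam h0
    have := (weyl_dim_pos (κ := κ) d lam (mem_labels.mp hlam)).1
    rw [h0] at this
    simp at this
  have hint : ∀ x : Fin d → ℝ,
      ℓ (twirl d (tpow κ (diagonal fun i => ((mbPoint d t x i : ℝ) : ℂ))))
            * ((mbDens d t x : ℝ) : ℂ)
      = ∑ lam ∈ labels d (Fintype.card κ),
          (ℓ (tRep (Fin d) κ (idem (blk d lam))) / schurC κ d lam (fun _ => 1))
            * (schurC κ d lam (fun i => ((mbPoint d t x i : ℝ) : ℂ)) * ((mbDens d t x : ℝ) : ℂ)) := by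
    intro x
    rw [twirl_tpow_diagonal, map_sum, Finset.sum_mul]
    refine Finset.sum_congr rfl fun lam _ => ?_
    rw [map_smul, smul_eq_mul]
    ring
  simp only [hint]
  rw [integral_finsetSum _ (fun lam hlam =>
    (mb_schur_integrable (κ := κ) d hd t ht0 lam (mem_labels.mp hlam)).const_mul _)]
  rw [tRep_Wpow d (by simp) t 1, map_sum, Finset.mul_sum]
  refine Finset.sum_congr rfl fun lam hlam => ?_
  rw [integral_const_mul, mb_schur_moment (κ := κ) d hd t ht0 lam (mem_labels.mp hlam), map_smul,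
    smul_eq_mul, Real.rpow_one]
  have := hs1 lam hlam
  push_cast
  field_simp

/-- restriction of matrices along a map of the index types, as a linear map -/
def subL {m n : Type} (e : m → n) : Matrix n n ℂ →ₗ[ℂ] Matrix m m ℂ where
  toFun M := M.submatrix e e
  map_add' _ _ := rfl
  map_smul' _ _ := rfl

/-- **(replicas:W-integral), measure-free form** -/
theorem W_mixture {α : Type} [Fintype α] [DecidableEq α] (d : ℕ) (hd : 1 ≤ d)
    (hα : Fintype.card α ≤ d) (t : ℝ) (ht0 : 0 < t) (ht1 : t ≤ 1)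
    (ℓ : Matrix (κ → α) (κ → α) ℂ →ₗ[ℂ] ℂ) (c : ℝ)
    (h : ∀ B : Matrix α α ℂ, PowBall t B → ‖ℓ (tpow κ B)‖ ≤ c) :
    ‖ℓ (tRep α κ (Wpow κ d t 1))‖ ≤ c := by
  obtain ⟨e⟩ : Nonempty (α ↪ Fin d) :=
    Function.Embedding.nonempty_of_card_le (by simpa using hα)
  set ℓ' : Matrix (κ → Fin d) (κ → Fin d) ℂ →ₗ[ℂ] ℂ :=
    ℓ ∘ₗ subL (fun f : κ → α => (e : α → Fin d) ∘ f) with hℓ'
  have h1 : ℓ (tRep α κ (Wpow κ d t 1)) = ℓ' (tRep (Fin d) κ (Wpow κ d t 1)) := by
    rw [hℓ', LinearMap.comp_apply]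
    congr 1
    exact (tRep_submatrix (e : α → Fin d) e.injective _).symm
  have hZpos := mbZ_pos d t ht0
  rw [h1, linear_W_eq_integral d hd t ht0 ℓ', norm_mul, norm_inv, Complex.norm_real,
    Real.norm_of_nonneg hZpos.le, inv_mul_le_iff₀ hZpos]
  -- pointwise bound of the twirl
  have hpt : ∀ x ∈ orth d,
      ‖ℓ' (twirl d (tpow κ (diagonal fun i => ((mbPoint d t x i : ℝ) : ℂ))))‖ ≤ c := by
    intro x hx
    rw [linear_twirl]
    have hb : ∀ u : UG d, ‖ℓ' (tpow κ (u : Matrix (Fin d) (Fin d) ℂ)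
        * tpow κ (diagonal fun i => ((mbPoint d t x i : ℝ) : ℂ))
        * (tpow κ (u : Matrix (Fin d) (Fin d) ℂ))ᴴ)‖ ≤ c := by
      intro u
      rw [tpow_conjTranspose, ← tpow_mul, ← tpow_mul, hℓ', LinearMap.comp_apply]
      have : subL (fun f : κ → α => (e : α → Fin d) ∘ f)
          (tpow κ ((u : Matrix (Fin d) (Fin d) ℂ)
            * (diagonal fun i => ((mbPoint d t x i : ℝ) : ℂ)) * (u : Matrix (Fin d) (Fin d) ℂ)ᴴ))
          = tpow κ (((u : Matrix (Fin d) (Fin d) ℂ)
            * (diagonal fun i => ((mbPoint d t x i : ℝ) : ℂ))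
            * (u : Matrix (Fin d) (Fin d) ℂ)ᴴ).submatrix e e) := tpow_submatrix _ _
      rw [this]
      exact h _ (powBall_submatrix t ht0 ht1 e e.injective _ (powBall_conj_diag d t ht0 u x hx))
    have := norm_integral_le_of_norm_le_const (μ := haarU d) (Filter.Eventually.of_forall hb)
    simpa using this
  have hbound : ‖∫ x in orth d,
      ℓ' (twirl d (tpow κ (diagonal fun i => ((mbPoint d t x i : ℝ) : ℂ))))
        * ((mbDens d t x : ℝ) : ℂ)‖ ≤ ∫ x in orth d, c * mbDens d t x := by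
    refine norm_integral_le_of_norm_le ((mbDens_integrable d t ht0).const_mul c) ?_
    refine (ae_restrict_iff' (measurableSet_orth d)).mpr (Filter.Eventually.of_forall fun x hx => ?_)
    rw [norm_mul, Complex.norm_real, Real.norm_of_nonneg (mbDens_nonneg d t ht0 x hx)]
    exact mul_le_mul_of_nonneg_right (hpt x hx) (mbDens_nonneg d t ht0 x hx)
  refine hbound.trans (le_of_eq ?_)
  rw [integral_const_mul, mbZ, mul_comm]

end Claimed.Agent.R296.Rep
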