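import Claimed.Agent.R296.Rep.Block

/-!
# BB_Rep L2: tensor powers on one index type (definitions)

`α` = one-copy index type, `κ` = finite type of copies.  The `κ`-fold tensor power of `ℂ^α` has
index type `κ → α`.

* `tU α κ π`  : permutation of the tensor factors, `U(π) e_g = e_{g ∘ π⁻¹}`,
                entry `(f, g)` equal to `1` iff `f ∘ π = g`;
* `tRep α κ`  : the induced algebra homomorphism `ℂ[Perm κ] → Matrix`;
* `tpow κ B`  : `B^{⊗κ}`;  `tvec κ θ` : `θ^{⊗κ}`.
-/

set_option autoImplicit false

namespace Claimed.Agent.R296.Rep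

open Matrix Equiv

section

variable (α : Type) [Fintype α] [DecidableEq α] (κ : Type) [Fintype κ] [DecidableEq κ]

/-- permutation of the tensor factors, as a matrix -/
def tUmat (π : Perm κ) : Matrix (κ → α) (κ → α) ℂ :=
  Matrix.of fun f g => if f ∘ π = g then 1 else 0

/-- permutation of the tensor factors, as a representation -/
def tU : Perm κ →* Matrix (κ → α) (κ → α) ℂ where
  toFun := tUmat α κ
  map_one' := by
    ext f g
    simp [tUmat, Matrix.one_apply]
  map_mul' π σ := by
    ext f h
    simp only [tUmat, Matrix.mul_apply, Matrix.of_apply]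
    rw [Finset.sum_eq_single (f ∘ π)]
    · by_cases hh : f ∘ π ∘ σ = h <;> simp [hh, Function.comp_assoc, Perm.coe_mul]
    · intro g _ hg
      simp [Ne.symm hg]
    · simp

/-- the algebra homomorphism `ℂ[Perm κ] → End((ℂ^α)^{⊗κ})` -/
noncomputable def tRep : GA (Perm κ) →ₐ[ℂ] Matrix (κ → α) (κ → α) ℂ := repAlg (tU α κ)

end

section

variable {α : Type} (κ : Type) [Fintype κ]

/-- tensor power of a one-copy operator -/
def tpow (B : Matrix α α ℂ) : Matrix (κ → α) (κ → α) ℂ :=
  Matrix.of fun f g => ∏ j, B (f j) (g j)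

/-- tensor power of a one-copy vector -/
def tvec (θ : α → ℂ) : (κ → α) → ℂ := fun f => ∏ j, θ (f j)

end

end Claimed.Agent.R296.Rep
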