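import Claimed.Agent.R296.Rep.Tensor
import Claimed.Agent.R296.Rep.Frob

/-!
# BB_Rep L2-A: API of tensor powers and permutations of tensor factors

All proofs are entrywise computations (`Finset.prod_univ_sum`, `Fintype.piFinset`,
`Finset.prod_mul_distrib`, reindexing of `∏ j` by a permutation).
-/

set_option autoImplicit false
set_option linter.unusedSectionVars false

namespace Claimed.Agent.R296.Rep

open Matrix Equiv MvPolynomial
open scoped ComplexOrder

variable {α : Type} [Fintype α] [DecidableEq α] {κ : Type} [Fintype κ] [DecidableEq κ]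

theorem tU_apply (π : Perm κ) (f g : κ → α) : tU α κ π f g = if f ∘ π = g then 1 else 0 := rfl

theorem ta_comp_iff (π : Perm κ) (f g : κ → α) : g ∘ π = f ↔ f ∘ (π⁻¹ : Perm κ) = g := by
  constructor
  · rintro rfl; funext j; simp
  · rintro rfl; funext j; simp

theorem tU_conjTranspose (π : Perm κ) : (tU α κ π)ᴴ = tU α κ π⁻¹ := by
  ext f g
  rw [conjTranspose_apply, tU_apply, tU_apply]
  by_cases h : g ∘ π = f
  · rw [if_pos h, if_pos ((ta_comp_iff π f g).1 h), star_one]
  · rw [if_neg h, if_neg (fun h' => h ((ta_comp_iff π f g).2 h')), star_zero]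

theorem tU_mulVec (π : Perm κ) (v : (κ → α) → ℂ) (f : κ → α) :
    (tU α κ π *ᵥ v) f = v (f ∘ π) := by
  simp [mulVec, dotProduct, tU_apply]

theorem tpow_apply (B : Matrix α α ℂ) (f g : κ → α) : tpow κ B f g = ∏ j, B (f j) (g j) := rfl

theorem tpow_one : tpow κ (1 : Matrix α α ℂ) = 1 := by
  ext f g
  simp only [tpow_apply, Matrix.one_apply]
  rw [Finset.prod_boole]
  simp [funext_iff]

theorem tpow_mul (A B : Matrix α α ℂ) : tpow κ (A * B) = tpow κ A * tpow κ B := by
  ext f g
  simp only [tpow_apply, Matrix.mul_apply]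
  rw [Fintype.prod_sum]
  refine Finset.sum_congr rfl fun h _ => ?_
  rw [Finset.prod_mul_distrib]

theorem tpow_smul (c : ℂ) (B : Matrix α α ℂ) :
    tpow κ (c • B) = c ^ Fintype.card κ • tpow κ B := by
  ext f g
  simp only [tpow_apply, Matrix.smul_apply, smul_eq_mul]
  rw [Finset.prod_mul_distrib, Finset.prod_const, Finset.card_univ]

theorem tpow_conjTranspose (B : Matrix α α ℂ) : (tpow κ B)ᴴ = tpow κ Bᴴ := by
  ext f g
  simp only [tpow_apply, conjTranspose_apply, star_prod]

theorem tpow_diagonal (x : α → ℂ) :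
    tpow κ (diagonal x) = diagonal fun f : κ → α => ∏ j, x (f j) := by
  ext f g
  simp only [tpow_apply, diagonal_apply]
  by_cases h : f = g
  · subst h; simp
  · rw [if_neg h]
    obtain ⟨j, hj⟩ := Function.ne_iff.1 h
    exact Finset.prod_eq_zero (Finset.mem_univ j) (if_neg hj)

theorem trace_tpow (B : Matrix α α ℂ) : trace (tpow κ B) = trace B ^ Fintype.card κ := by
  simp only [trace, diag_apply, tpow_apply]
  rw [← Finset.card_univ, ← Finset.prod_const, Fintype.prod_sum]

theorem tpow_posSemidef (B : Matrix α α ℂ) (hB : B.PosSemidef) : (tpow κ B).PosSemidef := by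
  have hH := hB.1
  set U : Matrix α α ℂ := (hH.eigenvectorUnitary : Matrix α α ℂ) with hU
  set C : Matrix α α ℂ := diagonal (fun i => ((Real.sqrt (hH.eigenvalues i) : ℝ) : ℂ)) * Uᴴ with hC
  have hBC : B = Cᴴ * C := by
    rw [hC, conjTranspose_mul, conjTranspose_conjTranspose, diagonal_conjTranspose]
    have h1 : U * diagonal (star fun i => ((Real.sqrt (hH.eigenvalues i) : ℝ) : ℂ)) *
        (diagonal (fun i => ((Real.sqrt (hH.eigenvalues i) : ℝ) : ℂ)) * Uᴴ)
        = U * diagonal (fun i => ((hH.eigenvalues i : ℝ) : ℂ)) * Uᴴ := by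
      rw [Matrix.mul_assoc U, ← Matrix.mul_assoc (diagonal _) (diagonal _), diagonal_mul_diagonal,
        ← Matrix.mul_assoc]
      congr 3
      funext i
      simp only [Pi.star_apply, RCLike.star_def, Complex.conj_ofReal]
      rw [← Complex.ofReal_mul, Real.mul_self_sqrt (hB.eigenvalues_nonneg i)]
    rw [h1]
    conv_lhs => rw [hH.spectral_theorem]
    rfl
  rw [hBC, tpow_mul, ← tpow_conjTranspose]
  exact posSemidef_conjTranspose_mul_self _

theorem tU_mul_tpow (π : Perm κ) (B : Matrix α α ℂ) :
    tU α κ π * tpow κ B = tpow κ B * tU α κ π := by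
  ext f g
  simp only [Matrix.mul_apply, tU_apply, tpow_apply]
  rw [Finset.sum_eq_single (f ∘ π), Finset.sum_eq_single (g ∘ (π⁻¹ : Perm κ))]
  · have h1 : (g ∘ (π⁻¹ : Perm κ)) ∘ π = g := by funext j; simp
    rw [if_pos rfl, if_pos h1, one_mul, mul_one,
      ← Equiv.prod_comp π fun j => B (f j) ((g ∘ (π⁻¹ : Perm κ)) j)]
    simp
  · intro h _ hh
    rw [if_neg (fun h' => hh ((ta_comp_iff π g h).1 h').symm), mul_zero]
  · intro h; exact absurd (Finset.mem_univ _) h
  · intro h _ hh
    rw [if_neg (Ne.symm hh), zero_mul]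
  · intro h; exact absurd (Finset.mem_univ _) h

theorem tRep_of (π : Perm κ) : tRep α κ (MonoidAlgebra.of ℂ (Perm κ) π) = tU α κ π := by
  simp [tRep, repAlg]

theorem tRep_mul_tpow (a : GA (Perm κ)) (B : Matrix α α ℂ) :
    tRep α κ a * tpow κ B = tpow κ B * tRep α κ a := by
  induction a using MonoidAlgebra.induction_on with
  | of π => rw [tRep_of, tU_mul_tpow]
  | add x y hx hy => rw [map_add, Matrix.add_mul, Matrix.mul_add, hx, hy]
  | smul r x hx => rw [map_smul, Matrix.smul_mul, Matrix.mul_smul, hx]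

theorem tpow_mulVec_tvec (B : Matrix α α ℂ) (θ : α → ℂ) :
    tpow κ B *ᵥ tvec κ θ = tvec κ (B *ᵥ θ) := by
  funext f
  simp only [mulVec, dotProduct, tpow_apply, tvec]
  rw [Fintype.prod_sum]
  refine Finset.sum_congr rfl fun h _ => ?_
  rw [Finset.prod_mul_distrib]

theorem tU_mulVec_tvec (π : Perm κ) (θ : α → ℂ) : tU α κ π *ᵥ tvec κ θ = tvec κ θ := by
  funext f
  rw [tU_mulVec]
  simp only [tvec, Function.comp]
  exact Equiv.prod_comp π fun j => θ (f j)

theorem tvec_dotProduct (θ η : α → ℂ) :
    star (tvec κ θ) ⬝ᵥ tvec κ η = (star θ ⬝ᵥ η) ^ Fintype.card κ := by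
  simp only [dotProduct, Pi.star_apply, tvec, star_prod]
  rw [← Finset.card_univ, ← Finset.prod_const, Fintype.prod_sum]
  refine Finset.sum_congr rfl fun h _ => ?_
  rw [Finset.prod_mul_distrib]

/-- restriction to a subset of the one-copy basis -/
theorem tU_submatrix {β : Type} [Fintype β] [DecidableEq β] (e : α → β)
    (he : Function.Injective e) (π : Perm κ) :
    (tU β κ π).submatrix (fun f : κ → α => e ∘ f) (fun f : κ → α => e ∘ f) = tU α κ π := by
  ext f g
  simp only [submatrix_apply, tU_apply]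
  have : (e ∘ f) ∘ π = e ∘ g ↔ f ∘ π = g := by
    constructor
    · intro h
      funext j
      exact he (congrFun h j)
    · rintro rfl; rfl
  simp only [this]

theorem tRep_submatrix {β : Type} [Fintype β] [DecidableEq β] (e : α → β)
    (he : Function.Injective e) (a : GA (Perm κ)) :
    (tRep β κ a).submatrix (fun f : κ → α => e ∘ f) (fun f : κ → α => e ∘ f) = tRep α κ a := by
  induction a using MonoidAlgebra.induction_on with
  | of π => rw [tRep_of, tRep_of, tU_submatrix e he]
  | add x y hx hy =>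
    rw [map_add, map_add, ← hx, ← hy]
    rfl
  | smul r x hx =>
    rw [map_smul, map_smul, ← hx]
    rfl

theorem tpow_submatrix {β : Type} (e : α → β) (B : Matrix β β ℂ) :
    (tpow κ B).submatrix (fun f : κ → α => e ∘ f) (fun f : κ → α => e ∘ f)
      = tpow κ (B.submatrix e e) := by
  ext f g
  rfl

theorem ta_trace_tU_mul_diag (x : α → ℂ) (π : Perm κ) :
    trace (tU α κ π * tpow κ (diagonal x)) = ∑ f : κ → α, if f ∘ π = f then ∏ j, x (f j) else 0 := by
  rw [tpow_diagonal]
  simp only [trace, diag_apply, Matrix.mul_diagonal, tU_apply]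
  refine Finset.sum_congr rfl fun f _ => ?_
  split_ifs <;> simp

theorem ta_aeval_pfix (d : ℕ) (x : Fin d → ℂ) (π : Perm κ) :
    aeval x (pfix d π) = ∑ f : κ → Fin d, if f ∘ π = f then ∏ j, x (f j) else 0 := by
  unfold pfix
  rw [map_sum]
  refine Finset.sum_congr rfl fun f _ => ?_
  split_ifs
  · rw [map_prod]; simp
  · rw [map_zero]

/-- **trace formula**: `Tr (U(π) D(x)^{⊗κ}) = pfix π (x)` -/
theorem trace_tU_mul_tpow_diagonal (d : ℕ) (x : Fin d → ℂ) (π : Perm κ) :
    trace (tU (Fin d) κ π * tpow κ (diagonal x)) = aeval x (pfix d π) := by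
  rw [ta_trace_tU_mul_diag, ta_aeval_pfix]

/-- the same for a general one-copy type embedded into `Fin d`: pad `x` by zeros -/
theorem trace_tU_mul_tpow_diagonal' (d : ℕ) (e : α → Fin d) (he : Function.Injective e)
    (x : Fin d → ℂ) (hx : ∀ i, i ∉ Set.range e → x i = 0) (π : Perm κ) :
    trace (tU α κ π * tpow κ (diagonal fun a => x (e a))) = aeval x (pfix d π) := by
  classical
  rw [ta_trace_tU_mul_diag, ta_aeval_pfix]
  have hinj : Function.Injective fun f : κ → α => e ∘ f := fun f g h => by
    funext j; exact he (congrFun h j)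
  rw [← Finset.sum_subset (Finset.subset_univ (Finset.univ.image fun f : κ → α => e ∘ f)),
    Finset.sum_image (fun f _ g _ h => hinj h)]
  · refine Finset.sum_congr rfl fun f _ => ?_
    have : (e ∘ f) ∘ π = e ∘ f ↔ f ∘ π = f := by
      constructor
      · intro h
        funext j
        exact he (congrFun h j)
      · intro h
        rw [Function.comp_assoc, h]
    simp only [this, Function.comp]
  · intro F _ hF
    have : ∃ j, F j ∉ Set.range e := by
      by_contra hcon
      push Not at hcon
      choose f hf using hcon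
      exact hF (Finset.mem_image.2 ⟨f, Finset.mem_univ _, funext hf⟩)
    obtain ⟨j, hj⟩ := this
    split_ifs
    · exact Finset.prod_eq_zero (Finset.mem_univ j) (hx _ hj)
    · rfl

end Claimed.Agent.R296.Rep
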